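import Vale.Agent.P147.Linear.Basic

/-!
# Blocks: the renewal structure at regenerations
-/

namespace Vale.Agent.P147.Linear

open MeasureTheory Filter Topology Set Vale.Agent.P147.Balanced
open scoped ENNReal

variable {d : ℕ} {l : Fin d → ℝ}

/-- `n` is the first positive regeneration time. -/
def FirstReg (l : Fin d → ℝ) (n : ℕ) (X : ℕ → Site d) : Prop :=
  0 < n ∧ Reg l n X ∧ ∀ j, 0 < j → j < n → ¬Reg l j X

lemma measurableSet_FirstReg (n : ℕ) : MeasurableSet {X : ℕ → Site d | FirstReg l n X} := by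
  have : {X : ℕ → Site d | FirstReg l n X} = (if 0 < n then Set.univ else ∅) ∩ {X | Reg l n X} ∩
      ⋂ j, ⋂ (_ : 0 < j), ⋂ (_ : j < n), {X | Reg l j X}ᶜ := by
    ext X
    by_cases hn : 0 < n <;> simp [FirstReg, hn]
  rw [this]
  refine (MeasurableSet.inter ?_ (measurableSet_Reg n)).inter (MeasurableSet.iInter fun j =>
    MeasurableSet.iInter fun _ => MeasurableSet.iInter fun _ => (measurableSet_Reg j).compl)
  split_ifs <;> simp

lemma disjoint_FirstReg :
    Pairwise fun n n' => Disjoint {X : ℕ → Site d | FirstReg l n X} {X | FirstReg l n' X} := by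
  intro n n' hne
  refine Set.disjoint_left.2 fun X hX hX' => ?_
  rcases lt_or_gt_of_ne hne with h | h
  · exact hX'.2.2 n hX.1 h hX.2.1
  · exact hX.2.2 n' hX'.1 h hX'.2.1

/-- Up to the first regeneration the path is a block. -/
theorem good_iff_block {n : ℕ} {γ X : ℕ → Site d} (hX : X ∈ pre n γ) (h0 : γ 0 = 0) :
    (X ∈ Good l ∧ FirstReg l n X) ↔ Block l n γ ∧ shiftP n X ∈ Good l := by
  have hdot : dot l (γ 0) = 0 := by rw [h0]; simp [dot]
  have hX0 : dot l (X 0) = 0 := by rw [hX 0 (Nat.zero_le n), hdot]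
  constructor
  · rintro ⟨⟨hstay, hesc⟩, hn, ⟨hrec, hgood⟩, hno⟩
    refine ⟨⟨hn, h0, fun i hi => ?_, (Rec_congr hX).1 hrec, fun j hj hjn hjr => ?_⟩, hgood⟩
    · rw [← hX i hi, ← hX0]; exact hstay i
    · have hjX : Rec l j X := (Rec_congr fun i hi => hX i (hi.trans hjn.le)).2 hjr
      have hns : shiftP j X ∉ Stay l := fun hs =>
        hno j hj hjn ⟨hjX, hs, shiftP_mem_escape.2 hesc⟩
      obtain ⟨k, hk⟩ := not_forall.1 hns
      simp only [shiftP, add_zero, not_le] at hk
      by_cases hkn : j + k ≤ n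
      · exact ⟨j + k, Nat.le_add_right j k, hkn,
          by rw [← hX _ hkn, ← hX j hjn.le]; exact hk⟩
      · have h1 := hgood.1 (j + k - n)
        simp only [shiftP, add_zero, Nat.add_sub_cancel' (not_le.1 hkn).le] at h1
        exact absurd (h1.trans_lt hk) (hrec j hjn).not_gt
  · rintro ⟨⟨hn, -, hnn, hrec, hdip⟩, hgood⟩
    have hrecX : Rec l n X := (Rec_congr hX).2 hrec
    refine ⟨⟨fun k => ?_, shiftP_mem_escape.1 hgood.2⟩, hn, ⟨hrecX, hgood⟩, fun j hj hjn hreg => ?_⟩
    · rw [hX0]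
      by_cases hk : k ≤ n
      · rw [hX k hk]; exact hnn k hk
      · have h1 := hgood.1 (k - n)
        simp only [shiftP, add_zero, Nat.add_sub_cancel' (not_le.1 hk).le] at h1
        rw [hX n le_rfl] at h1
        exact (hnn n le_rfl).trans h1
    · obtain ⟨i, hji, hin, hlt⟩ := hdip j hj hjn
        ((Rec_congr fun i hi => hX i (hi.trans hjn.le)).1 hreg.1)
      have h1 := hreg.2.1 (i - j)
      simp only [shiftP, add_zero, Nat.add_sub_cancel' hji] at h1
      rw [hX i hin, hX j hjn.le] at h1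
      exact absurd hlt h1.not_gt

variable [Nonempty (Fin d)] (μ : Measure (Step d → ℝ)) [IsProbabilityMeasure μ]

/-- Every path escaping without return regenerates. -/
theorem annM_good_no_reg (hμ : ∀ᵐ p ∂μ, (∀ e, 0 < p e) ∧ ∑ e, p e = 1)
    (hq : ann μ (Good l) ≠ 0) :
    annM μ (Good l \ ⋃ n, {X | FirstReg l n X}) = 0 := by
  classical
  set B : Set (ℕ → Site d) := Good l ∩ ⋂ m, ⋂ (_ : 0 < m), {X | Reg l m X}ᶜ
  have hB : MeasurableSet B := measurableSet_Good.inter (MeasurableSet.iInter fun m =>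
    MeasurableSet.iInter fun _ => (measurableSet_Reg m).compl)
  have hrec : ∀ X ∈ B, ∀ N, ∃ m, N < m ∧ Rec l m X := by
    intro X hX N
    obtain ⟨i₀, -, hi₀⟩ := Finset.exists_max_image (Finset.range (N + 1))
      (fun i => dot l (X i)) ⟨0, by simp⟩
    have hex : ∃ m, dot l (X i₀) < dot l (X m) :=
      (Filter.tendsto_atTop.1 hX.1.2 (dot l (X i₀) + 1)).exists.imp fun m hm => by linarith
    refine ⟨Nat.find hex, ?_, fun i hi => ?_⟩
    · by_contra hc
      exact absurd (hi₀ _ (Finset.mem_range.2 (Nat.lt_succ_of_le (not_lt.1 hc))))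
        (not_le.2 (Nat.find_spec hex))
    · exact lt_of_le_of_lt (not_lt.1 (Nat.find_min hex hi)) (Nat.find_spec hex)
  have h0 := null_of_records μ hμ hq hB hrec
    fun X hX m hm hr => Set.mem_iInter₂.1 hX.2 m hm hr
  rw [ann_eq μ hB] at h0
  refine measure_mono_null (t := B)
    (fun X hX => ⟨hX.1, Set.mem_iInter₂.2 fun m hm hr => hX.2 ?_⟩) h0
  have hex : ∃ k, 0 < k ∧ Reg l k X := ⟨m, hm, hr⟩
  exact Set.mem_iUnion.2 ⟨Nat.find hex, (Nat.find_spec hex).1, (Nat.find_spec hex).2,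
    fun j hj hjn hR => Nat.find_min hex hjn ⟨hj, hR⟩⟩

open Classical in
/-- A block is followed by an independent copy of the walk. -/
theorem ann_firstReg (hμ : ∀ᵐ p ∂μ, (∀ e, 0 < p e) ∧ ∑ e, p e = 1) (n : ℕ)
    (a : Fin (n + 1) → Site d) {B : Set (ℕ → Site d)} (hB : MeasurableSet B) :
    ann μ (Good l ∩ {X | FirstReg l n X} ∩ pre n (ext a) ∩ shiftP n ⁻¹' B) =
      if Block l n (ext a) then
        wt μ n a * ann μ (Good l ∩ (fun (X : ℕ → Site d) i => X i + ext a n) ⁻¹' B) else 0 := by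
  set γ := ext a
  have hmeas : MeasurableSet (Good l ∩ {X | FirstReg l n X} ∩ pre n γ ∩ shiftP n ⁻¹' B) :=
    ((measurableSet_Good.inter (measurableSet_FirstReg n)).inter (measurableSet_pre _ _)).inter
      (measurable_shiftP n hB)
  by_cases h0 : γ 0 = 0
  swap
  · rw [if_neg fun hb : Block l n γ => h0 hb.2.1, ann]
    refine (lintegral_eq_zero_iff (measurable_law_apply 0 hmeas)).2
      (Filter.Eventually.of_forall fun ω => ?_)
    refine measure_mono_null (t := {X | ¬X 0 = 0}) (fun X hX hX0 => h0 ?_) (ae_law_zero ω 0)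
    rw [← hX.1.2 0 (Nat.zero_le n)]
    exact hX0
  by_cases hb : Block l n γ
  swap
  · rw [if_neg hb]
    have : Good l ∩ {X | FirstReg l n X} ∩ pre n γ ∩ shiftP n ⁻¹' B = ∅ :=
      Set.eq_empty_of_forall_notMem fun X hX =>
        hb ((good_iff_block hX.1.2 h0).1 ⟨hX.1.1.1, hX.1.1.2⟩).1
    simp [this, ann]
  rw [if_pos hb]
  set B' : Set (ℕ → Site d) := {X | X 0 = γ n} ∩ (Good l ∩ B)
  have hB' : MeasurableSet B' :=
    (show MeasurableSet ((fun X : ℕ → Site d => X 0) ⁻¹' {γ n}) from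
      measurable_pi_apply 0 (measurableSet_singleton (γ n))).inter (measurableSet_Good.inter hB)
  have hset : Good l ∩ {X | FirstReg l n X} ∩ pre n γ ∩ shiftP n ⁻¹' B =
      pre n γ ∩ shiftP n ⁻¹' B' := by
    ext X
    constructor
    · exact fun h => ⟨h.1.2, by simpa [shiftP] using h.1.2 n le_rfl,
        ((good_iff_block h.1.2 h0).1 ⟨h.1.1.1, h.1.1.2⟩).2, h.2⟩
    · intro h
      have hh := (good_iff_block h.1 h0).2 ⟨hb, h.2.2.1⟩
      exact ⟨⟨⟨hh.1, hh.2⟩, h.1⟩, h.2.2.2⟩
  rw [hset, ann, fresh μ hμ n γ 0 hB' fun X hX => notMem_seen_of_stay hb.2.2.2.1 hX.1 hX.2.1.1]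
  congr 1
  have hmI := measurableSet_Good (l := l) |>.inter hB
  rw [← translate_preimage_Good (l := l) (γ n), ← Set.preimage_inter,
    ← lintegral_law_eq_ann μ (γ n) hmI]
  refine lintegral_congr fun ω => measure_congr ?_
  filter_upwards [ae_law_zero ω (γ n)] with X hX
  exact propext ⟨fun h => h.2, fun h => ⟨hX, h⟩⟩

open Classical in
/-- Splitting along the first regeneration. -/
theorem annM_good_eq_tsum (hμ : ∀ᵐ p ∂μ, (∀ e, 0 < p e) ∧ ∑ e, p e = 1)
    (hq : ann μ (Good l) ≠ 0) {E : Set (ℕ → Site d)} (hE : MeasurableSet E) :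
    annM μ (Good l ∩ E) = ∑' n, ∑' a : Fin (n + 1) → Site d,
      annM μ (Good l ∩ {X | FirstReg l n X} ∩ pre n (ext a) ∩ E) := by
  have hGE : MeasurableSet (Good l ∩ E) := measurableSet_Good.inter hE
  have hm : ∀ n, MeasurableSet (Good l ∩ E ∩ {X | FirstReg l n X}) :=
    fun n => hGE.inter (measurableSet_FirstReg n)
  have h1 : annM μ (Good l ∩ E) = ∑' n, annM μ (Good l ∩ E ∩ {X | FirstReg l n X}) := by
    rw [← measure_iUnion (fun n n' h =>
      (disjoint_FirstReg h).mono Set.inter_subset_right Set.inter_subset_right) hm]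
    refine le_antisymm ?_ (measure_mono (Set.iUnion_subset fun n => Set.inter_subset_left))
    refine le_trans (measure_mono (t := (⋃ n, Good l ∩ E ∩ {X | FirstReg l n X}) ∪
      (Good l \ ⋃ n, {X | FirstReg l n X})) fun X hX => ?_) ((measure_union_le _ _).trans ?_)
    · by_cases h : X ∈ ⋃ n, {X | FirstReg l n X}
      · obtain ⟨n, hn⟩ := Set.mem_iUnion.1 h
        exact Or.inl (Set.mem_iUnion.2 ⟨n, hX, hn⟩)
      · exact Or.inr ⟨hX.1, h⟩
    · rw [annM_good_no_reg μ hμ hq, add_zero]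
  rw [h1]
  refine tsum_congr fun n => ?_
  rw [← ann_eq μ (hm n), ann_eq_tsum_pre μ (hm n) n]
  refine tsum_congr fun a => ?_
  rw [ann_eq μ ((measurableSet_pre _ _).inter (hm n))]
  congr 1
  ext X
  simp only [Set.mem_inter_iff]
  tauto

open Classical in
/-- The endpoint law of a block has mass at most one. -/
theorem tsum_endLaw_le_one (hμ : ∀ᵐ p ∂μ, (∀ e, 0 < p e) ∧ ∑ e, p e = 1)
    (hq : ann μ (Good l) ≠ 0) : ∑' z, endLaw μ l z ≤ 1 := by
  have hqtop : ann μ (Good l) ≠ ⊤ := by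
    rw [ann_eq μ measurableSet_Good]; exact measure_ne_top _ _
  have h1 : ∑' z, endLaw μ l z = ∑' n, ∑' a : Fin (n + 1) → Site d,
      if Block l n (ext a) then wt μ n a else 0 := by
    unfold endLaw
    rw [ENNReal.tsum_comm]
    refine tsum_congr fun n => ?_
    rw [ENNReal.tsum_comm]
    refine tsum_congr fun a => ?_
    rw [tsum_eq_single (ext a n) fun z hz => if_neg fun h => hz h.2.symm]
    simp
  refine (ENNReal.mul_le_mul_iff_left hq hqtop).1 ?_
  rw [one_mul, h1, ← ENNReal.tsum_mul_right]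
  simp_rw [← ENNReal.tsum_mul_right]
  have h2 := annM_good_eq_tsum μ hμ hq MeasurableSet.univ
  rw [Set.inter_univ] at h2
  rw [ann_eq μ (measurableSet_Good (l := l))]
  conv_rhs => rw [h2]
  refine ENNReal.tsum_le_tsum fun n => ENNReal.tsum_le_tsum fun a => le_of_eq ?_
  have h3 := ann_firstReg (l := l) μ hμ n a MeasurableSet.univ
  simp only [Set.preimage_univ, Set.inter_univ] at h3
  rw [Set.inter_univ]
  rw [ann_eq μ (measurableSet_Good (l := l))] at h3
  rw [← ann_eq μ ((measurableSet_Good.inter (measurableSet_FirstReg n)).inter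
    (measurableSet_pre _ _)), h3]
  split_ifs <;> simp

end Vale.Agent.P147.Linear
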