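import Vale.Agent.P147.Linear.Flux
import Vale.Agent.P147.Linear.Blocks

/-!
# Linearly many records give blocks with finitely many sites on average
-/

namespace Vale.Agent.P147.Linear

open MeasureTheory Filter Topology Set Vale.Agent.P147.Balanced
open scoped ENNReal

variable {d : ℕ} {l : Fin d → ℝ}

/-- A regeneration whose site is among the first `s` distinct sites. -/
def RegB (l : Fin d → ℝ) (s m : ℕ) : Set (ℕ → Site d) :=
  {X | BRec l s m X} ∩ shiftP m ⁻¹' Good l

/-- A prefix after which a regeneration is the first one. -/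
def Start (l : Fin d → ℝ) (r : ℕ) : Set (ℕ → Site d) :=
  {X | Rec l r X ∧ ∀ j < r, Rec l j X → ∃ i, j ≤ i ∧ i ≤ r ∧ dot l (X i) < dot l (X j)}

lemma measurableSet_RegB (s m : ℕ) : MeasurableSet (RegB (d := d) l s m) :=
  (measurableSet_BRec s m).inter (measurable_shiftP m measurableSet_Good)

lemma prefix_Start (r : ℕ) : Prefix r fun X => X ∈ Start (d := d) l r := fun X Y h => propext <| by
  simp only [Start, Set.mem_ofPred_eq]
  refine and_congr (Rec_congr h) (forall₂_congr fun j hj => imp_congr
    (Rec_congr fun i hi => h i (hi.trans hj.le)) (exists_congr fun i => and_congr_right fun _ =>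
      and_congr_right fun hi => by rw [h i hi, h j hj.le]))

lemma measurableSet_Start (r : ℕ) : MeasurableSet (Start (d := d) l r) := by
  rw [show Start (d := d) l r = res r ⁻¹' (res r '' Start l r) by
    ext X
    refine ⟨fun h => ⟨X, h, rfl⟩, fun ⟨Y, hY, he⟩ => ?_⟩
    exact (iff_of_eq (prefix_Start r Y X fun i hi =>
      congrFun he ⟨i, Nat.lt_succ_of_le hi⟩)).1 hY]
  exact (measurable_pi_lambda _ fun i : Fin (r + 1) => measurable_pi_apply (i : ℕ) :
    Measurable (res r : (ℕ → Site d) → Fin (r + 1) → Site d)) MeasurableSet.of_discrete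

lemma shiftP_shiftP (n k : ℕ) (X : ℕ → Site d) : shiftP k (shiftP n X) = shiftP (n + k) X := by
  funext i; simp [shiftP, add_assoc]

lemma Rec_shiftP {n k : ℕ} {X : ℕ → Site d} (h : Rec l (n + k) X) : Rec l k (shiftP n X) :=
  fun i hi => h (n + i) (by omega)

lemma translate_preimage_RegB (s m : ℕ) (y : Site d) :
    (fun (X : ℕ → Site d) i => X i + y) ⁻¹' RegB l s m = RegB l s m := by
  rw [RegB, Set.preimage_inter]
  refine congrArg₂ (· ∩ ·) ?_ ?_
  · ext X; simp [BRec_translate]
  · rw [← Set.preimage_comp,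
      show shiftP m ∘ (fun (X : ℕ → Site d) i => X i + y) =
        (fun (X : ℕ → Site d) i => X i + y) ∘ shiftP m from rfl,
      Set.preimage_comp, translate_preimage_Good]

lemma card_seen_add (n k : ℕ) {X : ℕ → Site d} (hn : Rec l n X) (hs : shiftP n X ∈ Stay l) :
    (seen n X).card + (seen k (shiftP n X)).card ≤ (seen (n + k) X).card := by
  classical
  rw [← Finset.card_union_of_disjoint]
  · refine Finset.card_le_card (Finset.union_subset (seen_mono (Nat.le_add_right n k) X) ?_)
    intro z hz
    obtain ⟨i, hi, rfl⟩ := Finset.mem_image.1 hz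
    exact Finset.mem_image.2 ⟨n + i, Finset.mem_range.2 (by have := Finset.mem_range.1 hi; omega),
      rfl⟩
  · refine Finset.disjoint_right.2 fun z hz => ?_
    obtain ⟨i, -, rfl⟩ := Finset.mem_image.1 hz
    exact notMem_seen_of_stay hn (by simp [shiftP]) hs i

lemma exists_start {s m : ℕ} {X : ℕ → Site d} (h : X ∈ RegB l s m) :
    ∃ r ≤ m, X ∈ Start l r ∧ shiftP r X ∈ Good l ∧ shiftP r X ∈ RegB l s (m - r) := by
  classical
  have hex : ∃ r, Reg l r X := ⟨m, h.1.1, h.2⟩
  set r := Nat.find hex
  obtain ⟨hrec, hgood⟩ : Reg l r X := Nat.find_spec hex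
  have hrm : r ≤ m := Nat.find_min' hex ⟨h.1.1, h.2⟩
  refine ⟨r, hrm, ⟨hrec, fun j hj hR => ?_⟩, hgood, ?_⟩
  · have hns : shiftP j X ∉ Stay l := fun hs =>
      Nat.find_min hex hj ⟨hR, hs, shiftP_mem_escape.2 (shiftP_mem_escape.1 hgood.2)⟩
    obtain ⟨k, hk⟩ := not_forall.1 hns
    simp only [shiftP, add_zero, not_le] at hk
    by_cases hkr : j + k ≤ r
    · exact ⟨j + k, Nat.le_add_right j k, hkr, hk⟩
    · have h1 := hgood.1 (j + k - r)
      simp only [shiftP, add_zero, Nat.add_sub_cancel' (not_le.1 hkr).le] at h1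
      exact absurd (h1.trans_lt hk) (hrec j hj).not_gt
  · obtain ⟨k, rfl⟩ := Nat.exists_eq_add_of_le hrm
    rw [Nat.add_sub_cancel_left]
    refine ⟨⟨Rec_shiftP h.1.1, ?_⟩, ?_⟩
    · have h1 := card_seen_add r k hrec hgood.1
      have h2 := h.1.2
      show (seen k (shiftP r X)).card < s
      omega
    · show shiftP k (shiftP r X) ∈ Good l
      rw [shiftP_shiftP]; exact h.2

variable [Nonempty (Fin d)] (μ : Measure (Step d → ℝ)) [IsProbabilityMeasure μ]

/-- A prefix event at a record, followed by a translation invariant event not going below it. -/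
theorem ann_inter_stay (hμ : ∀ᵐ p ∂μ, (∀ e, 0 < p e) ∧ ∑ e, p e = 1) {n : ℕ}
    {E : Set (ℕ → Site d)} (hE : MeasurableSet E) (hEp : Prefix n fun X => X ∈ E)
    (hER : ∀ X ∈ E, Rec l n X) {B : Set (ℕ → Site d)} (hB : MeasurableSet B)
    (hBG : B ⊆ Stay l) (hBt : ∀ y : Site d, (fun (X : ℕ → Site d) i => X i + y) ⁻¹' B = B) :
    ann μ (E ∩ shiftP n ⁻¹' B) = ann μ E * ann μ B := by
  classical
  rw [ann_eq_tsum_pre μ (hE.inter (measurable_shiftP n hB)) n,
    ann_eq_tsum_pre μ hE n, ← ENNReal.tsum_mul_right]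
  refine tsum_congr fun a => ?_
  by_cases ha : ext a ∈ E
  · have h1 : pre n (ext a) ∩ E = pre n (ext a) :=
      Set.inter_eq_left.2 fun X hX => (iff_of_eq (hEp X (ext a) hX)).2 ha
    rw [← Set.inter_assoc, h1]
    set B' : Set (ℕ → Site d) := {X | X 0 = ext a n} ∩ B
    have hB' : MeasurableSet B' :=
      (show MeasurableSet ((fun X : ℕ → Site d => X 0) ⁻¹' {ext a n}) from
        measurable_pi_apply 0 (measurableSet_singleton _)).inter hB
    have hset : pre n (ext a) ∩ shiftP n ⁻¹' B = pre n (ext a) ∩ shiftP n ⁻¹' B' := by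
      ext X
      exact ⟨fun h => ⟨h.1, by simpa [shiftP] using h.1 n le_rfl, h.2⟩, fun h => ⟨h.1, h.2.2⟩⟩
    rw [hset, ann, fresh μ hμ n (ext a) 0 hB' fun X hX =>
      notMem_seen_of_stay (hER _ ha) hX.1 (hBG hX.2)]
    congr 1
    rw [← hBt (ext a n), ← lintegral_law_eq_ann μ (ext a n) hB]
    refine lintegral_congr fun ω => measure_congr ?_
    filter_upwards [ae_law_zero ω (ext a n)] with X hX
    exact propext ⟨fun h => h.2, fun h => ⟨hX, h⟩⟩
  · have h1 : pre n (ext a) ∩ E = ∅ := Set.eq_empty_of_forall_notMem fun X hX =>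
      ha ((iff_of_eq (hEp X (ext a) hX.1)).1 hX.2)
    rw [← Set.inter_assoc, h1]
    simp [ann]

open Classical in
/-- The truncated mean number of sites of a block. -/
noncomputable def cost (l : Fin d → ℝ) (K : ℕ) : ℝ≥0∞ :=
  ∑' n, ∑' a : Fin (n + 1) → Site d,
    if Block l n (ext a) then wt μ n a * (min (seen n (ext a)).card K : ℕ) else 0

/-- Regenerations after time zero within the budget, up to time `t`, of a walk that stays. -/
noncomputable def regCount (l : Fin d → ℝ) (t s : ℕ) : ℝ≥0∞ :=
  ∑ m ∈ Finset.range t, annM μ (Good l ∩ RegB l s (m + 1))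

open Classical in
lemma tsum_block_le_one (hμ : ∀ᵐ p ∂μ, (∀ e, 0 < p e) ∧ ∑ e, p e = 1)
    (hq : ann μ (Good l) ≠ 0) :
    ∑' n, ∑' a : Fin (n + 1) → Site d, (if Block l n (ext a) then wt μ n a else 0) ≤ 1 := by
  refine le_trans (le_of_eq ?_) (tsum_endLaw_le_one μ hμ hq)
  unfold endLaw
  symm
  rw [ENNReal.tsum_comm]
  refine tsum_congr fun n => ?_
  rw [ENNReal.tsum_comm]
  refine tsum_congr fun a => ?_
  rw [tsum_eq_single (ext a n) fun z hz => if_neg fun h => hz h.2.symm]
  simp

open Classical in
lemma cost_le (hμ : ∀ᵐ p ∂μ, (∀ e, 0 < p e) ∧ ∑ e, p e = 1)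
    (hq : ann μ (Good l) ≠ 0) (K : ℕ) : cost μ l K ≤ K := by
  refine le_trans ?_ (le_of_le_of_eq (mul_le_mul_left (tsum_block_le_one μ hμ hq) (K : ℝ≥0∞))
    (one_mul _))
  simp only [cost, ← ENNReal.tsum_mul_right]
  refine ENNReal.tsum_le_tsum fun n => ENNReal.tsum_le_tsum fun a => ?_
  split_ifs
  · exact mul_le_mul_right (Nat.cast_le.2 (min_le_right _ _)) _
  · simp

open Classical in
lemma regCount_succ_le (hμ : ∀ᵐ p ∂μ, (∀ e, 0 < p e) ∧ ∑ e, p e = 1)
    (hq : ann μ (Good l) ≠ 0) (t s : ℕ) :
    regCount μ l (t + 1) s ≤ ∑' n, ∑' a : Fin (n + 1) → Site d,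
      if Block l n (ext a) ∧ (seen n (ext a)).card < s then
        wt μ n a * (ann μ (Good l) + regCount μ l t (s - (seen n (ext a)).card)) else 0 := by
  unfold regCount
  simp_rw [annM_good_eq_tsum μ hμ hq (measurableSet_RegB s _)]
  rw [← Summable.tsum_finsetSum fun _ _ => ENNReal.summable]
  refine ENNReal.tsum_le_tsum fun n => ?_
  rw [← Summable.tsum_finsetSum fun _ _ => ENNReal.summable]
  refine ENNReal.tsum_le_tsum fun a => ?_
  set γ := ext a
  set c := (seen n γ).card
  set U := Good l ∩ {X | FirstReg l n X} ∩ pre n γ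
  by_cases hcond : Block l n γ ∧ c < s
  swap
  · rw [if_neg hcond]
    refine (Finset.sum_eq_zero fun m _ => ?_).le
    by_cases hb : Block l n γ
    · have : U ∩ RegB l s (m + 1) = ∅ := Set.eq_empty_of_forall_notMem fun X hX => by
        have hnm : n ≤ m + 1 := by
          by_contra hlt
          exact hX.1.1.2.2.2 (m + 1) (Nat.succ_pos m) (not_le.1 hlt) ⟨hX.2.1.1, hX.2.2⟩
        have h1 := Finset.card_le_card (seen_mono hnm X)
        have h2 := hX.2.1.2
        rw [seen_congr fun i hi => hX.1.2 i hi.le] at h1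
        exact hcond ⟨hb, lt_of_le_of_lt h1 h2⟩
      simp [this]
    · refine measure_mono_null Set.inter_subset_left ?_
      have h := ann_firstReg (l := l) μ hμ n a MeasurableSet.univ
      simp only [Set.preimage_univ, Set.inter_univ] at h
      rw [← ann_eq μ ((measurableSet_Good.inter (measurableSet_FirstReg n)).inter
        (measurableSet_pre _ _)), h, if_neg hb]
  obtain ⟨hb, hc⟩ := hcond
  rw [if_pos ⟨hb, hc⟩]
  have hterm : ∀ m, annM μ (U ∩ RegB l s (m + 1)) ≤
      (if m + 1 = n then wt μ n a * ann μ (Good l) else 0) +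
      (if n < m + 1 then wt μ n a * annM μ (Good l ∩ RegB l (s - c) (m + 1 - n)) else 0) := by
    intro m
    rcases lt_trichotomy (m + 1) n with hlt | heq | hgt
    · have : U ∩ RegB l s (m + 1) = ∅ := Set.eq_empty_of_forall_notMem fun X hX =>
        hX.1.1.2.2.2 (m + 1) (Nat.succ_pos m) hlt ⟨hX.2.1.1, hX.2.2⟩
      simp [this]
    · rw [if_pos heq]
      refine le_add_right ((measure_mono Set.inter_subset_left).trans (le_of_eq ?_))
      have h := ann_firstReg (l := l) μ hμ n a MeasurableSet.univ
      simp only [Set.preimage_univ, Set.inter_univ] at h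
      rw [← ann_eq μ ((measurableSet_Good.inter (measurableSet_FirstReg n)).inter
        (measurableSet_pre _ _)), h, if_pos hb]
    · rw [if_pos hgt]
      refine le_add_left ?_
      obtain ⟨k, hk⟩ := Nat.exists_eq_add_of_le hgt.le
      rw [hk, Nat.add_sub_cancel_left]
      have hsub : U ∩ RegB l s (n + k) ⊆ U ∩ shiftP n ⁻¹' RegB l (s - c) k := by
        intro X hX
        have h1 := card_seen_add n k hX.1.1.2.2.1.1 hX.1.1.2.2.1.2.1
        have h2 : (seen (n + k) X).card < s := hX.2.1.2
        rw [seen_congr fun i hi => hX.1.2 i hi.le] at h1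
        refine ⟨hX.1, ⟨Rec_shiftP hX.2.1.1, ?_⟩, ?_⟩
        · show (seen k (shiftP n X)).card < s - c
          omega
        · show shiftP k (shiftP n X) ∈ Good l
          rw [shiftP_shiftP]; exact hX.2.2
      refine (measure_mono hsub).trans (le_of_eq ?_)
      rw [← ann_eq μ (((measurableSet_Good.inter (measurableSet_FirstReg n)).inter
        (measurableSet_pre _ _)).inter (measurable_shiftP n (measurableSet_RegB _ _))),
        ann_firstReg μ hμ n a (measurableSet_RegB _ _), if_pos hb, translate_preimage_RegB,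
        ann_eq μ (measurableSet_Good.inter (measurableSet_RegB _ _))]
  refine (Finset.sum_le_sum fun m _ => hterm m).trans ?_
  rw [Finset.sum_add_distrib, mul_add, ← Finset.sum_filter, ← Finset.sum_filter, Finset.mul_sum]
  refine add_le_add ?_ ?_
  · rw [Finset.sum_const, nsmul_eq_mul]
    refine mul_le_of_le_one_left bot_le (Nat.cast_le_one.2 (Finset.card_le_one.2 fun i hi j hj => ?_))
    have h1 := (Finset.mem_filter.1 hi).2
    have h2 := (Finset.mem_filter.1 hj).2
    omega
  · refine le_of_eq_of_le ?_ (Finset.sum_le_sum_of_subset (s :=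
      ((Finset.range (t + 1)).filter fun m => n < m + 1).image fun m => m - n) fun x hx => ?_)
    · rw [Finset.sum_image]
      · refine Finset.sum_congr rfl fun m hm => ?_
        have := (Finset.mem_filter.1 hm).2
        rw [show m + 1 - n = m - n + 1 by omega]
      · intro i hi j hj (hij : i - n = j - n)
        have := (Finset.mem_filter.1 hi).2
        have := (Finset.mem_filter.1 hj).2
        omega
    · obtain ⟨m, hm, rfl⟩ := Finset.mem_image.1 hx
      have := Finset.mem_range.1 (Finset.mem_filter.1 hm).1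
      have := (Finset.mem_filter.1 hm).2
      have := hb.1
      exact Finset.mem_range.2 (by omega)

open Classical in
theorem regCount_cost_le (hμ : ∀ᵐ p ∂μ, (∀ e, 0 < p e) ∧ ∑ e, p e = 1)
    (hq : ann μ (Good l) ≠ 0) (K : ℕ) :
    ∀ t s : ℕ, regCount μ l t s * cost μ l K ≤ ann μ (Good l) * ((s + K : ℕ) : ℝ≥0∞) := by
  intro t
  induction t with
  | zero => intro s; simp [regCount]
  | succ t ih =>
    intro s
    set q := ann μ (Good l)
    refine (mul_le_mul_left (regCount_succ_le μ hμ hq t s) _).trans ?_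
    simp only [← ENNReal.tsum_mul_right]
    set W : (n : ℕ) → (Fin (n + 1) → Site d) → ℝ≥0∞ :=
      fun n a => if Block l n (ext a) then wt μ n a else 0
    set c : (n : ℕ) → (Fin (n + 1) → Site d) → ℕ := fun n a => (seen n (ext a)).card
    calc ∑' n, ∑' a : Fin (n + 1) → Site d, (if Block l n (ext a) ∧ c n a < s then
            wt μ n a * (q + regCount μ l t (s - c n a)) else 0) * cost μ l K
        ≤ ∑' n, ∑' a : Fin (n + 1) → Site d, (q * (W n a * cost μ l K) +
            q * (W n a * ((if c n a < s then s - c n a + K else 0 : ℕ) : ℝ≥0∞))) := by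
          refine ENNReal.tsum_le_tsum fun n => ENNReal.tsum_le_tsum fun a => ?_
          simp only [W]
          by_cases hb : Block l n (ext a)
          · by_cases hc : c n a < s
            · rw [if_pos ⟨hb, hc⟩, if_pos hb, if_pos hc, mul_assoc, add_mul, mul_add]
              refine add_le_add (le_of_eq (by ring)) ?_
              exact (mul_le_mul_right (ih _) _).trans (le_of_eq (by ring))
            · rw [if_neg (fun h => hc h.2)]; simp
          · rw [if_neg (fun h => hb h.1)]; simp
      _ = q * ((∑' n, ∑' a, W n a) * cost μ l K + ∑' n, ∑' a : Fin (n + 1) → Site d,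
            W n a * ((if c n a < s then s - c n a + K else 0 : ℕ) : ℝ≥0∞)) := by
          simp only [ENNReal.tsum_add, ENNReal.tsum_mul_left, ENNReal.tsum_mul_right, mul_add]
      _ ≤ q * ((∑' n, ∑' a : Fin (n + 1) → Site d, W n a * (min (c n a) K : ℕ)) +
            ∑' n, ∑' a : Fin (n + 1) → Site d,
              W n a * ((if c n a < s then s - c n a + K else 0 : ℕ) : ℝ≥0∞)) := by
          refine mul_le_mul_right (add_le_add ?_ le_rfl) _
          refine (mul_le_mul_left (tsum_block_le_one μ hμ hq) _).trans ?_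
          rw [one_mul, cost]
          refine le_of_eq (tsum_congr fun n => tsum_congr fun a => ?_)
          simp only [W]
          split_ifs <;> simp [c]
      _ ≤ q * ∑' n, ∑' a : Fin (n + 1) → Site d, W n a * ((s + K : ℕ) : ℝ≥0∞) := by
          simp only [← ENNReal.tsum_add, ← mul_add, ← Nat.cast_add]
          refine mul_le_mul_right (ENNReal.tsum_le_tsum fun n => ENNReal.tsum_le_tsum fun a =>
            mul_le_mul_right (Nat.cast_le.2 ?_) _) _
          split_ifs <;> omega
      _ ≤ _ := by
          simp only [ENNReal.tsum_mul_right]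
          exact mul_le_mul_right ((mul_le_mul_left (tsum_block_le_one μ hμ hq) _).trans
            (one_mul _).le) _

open Classical in
/-- Finite mean block size. -/
theorem momentPin (hμ : ∀ᵐ p ∂μ, (∀ e, 0 < p e) ∧ ∑ e, p e = 1) : MomentPin μ l := by
  intro hq ⟨δ, hδ, hfreq⟩
  set q := ann μ (Good l)
  have hqt : q ≠ ⊤ := by
    simp only [q]; rw [ann_eq μ measurableSet_Good]; exact measure_ne_top _ _
  -- first regenerations are disjoint
  have hfirst : (∑' r, ann μ (Start l r)) * q ≤ 1 := by
    rw [← ENNReal.tsum_mul_right]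
    rw [tsum_congr fun r => show ann μ (Start l r) * q =
        annM μ (Start l r ∩ shiftP r ⁻¹' Good l) by
      rw [← ann_eq μ ((measurableSet_Start r).inter (measurable_shiftP r measurableSet_Good))]
      exact (ann_inter_good μ hμ (measurableSet_Start r) (prefix_Start r) fun X hX => hX.1).symm]
    rw [← measure_iUnion _ fun r => (measurableSet_Start r).inter
      (measurable_shiftP r measurableSet_Good)]
    · exact prob_le_one
    · intro r r' hne
      refine Set.disjoint_left.2 fun X hX hX' => ?_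
      have aux : ∀ i j, i < j → X ∈ Start l j → X ∈ Start l i ∩ shiftP i ⁻¹' Good l → False := by
        intro i j hij hj hi
        obtain ⟨k, hik, -, hlt⟩ := hj.2 i hij hi.1.1
        have h1 := hi.2.1 (k - i)
        simp only [shiftP, add_zero, Nat.add_sub_cancel' hik] at h1
        exact absurd hlt h1.not_gt
      rcases lt_or_gt_of_ne hne with h | h
      · exact aux r r' h hX'.1 hX
      · exact aux r' r h hX.1 hX'
  -- regenerations of an unconditioned walk
  have hall : ∀ (t s : ℕ), (∑ m ∈ Finset.range t, annM μ (RegB l s m)) ≤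
      (∑' r, ann μ (Start l r)) * (q + regCount μ l t s) := by
    intro t s
    set B : ℕ → Set (ℕ → Site d) := fun k => Good l ∩ RegB l s k
    have hBm : ∀ k, MeasurableSet (B k) :=
      fun k => measurableSet_Good.inter (measurableSet_RegB s k)
    have hm : ∀ m, annM μ (RegB l s m) ≤
        ∑' r, (if r ≤ m then ann μ (Start l r) * annM μ (B (m - r)) else 0) := by
      intro m
      refine (measure_mono (t := ⋃ r, if r ≤ m then Start l r ∩ shiftP r ⁻¹' B (m - r) else ∅)
        fun X hX => ?_).trans ((measure_iUnion_le _).trans (le_of_eq (tsum_congr fun r => ?_)))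
      · obtain ⟨r, hr, h1, h2, h3⟩ := exists_start hX
        exact Set.mem_iUnion.2 ⟨r, by rw [if_pos hr]; exact ⟨h1, h2, h3⟩⟩
      · split_ifs
        · rw [← ann_eq μ ((measurableSet_Start r).inter (measurable_shiftP r (hBm _))),
            ← ann_eq μ (hBm _)]
          exact ann_inter_stay μ hμ (measurableSet_Start r) (prefix_Start r) (fun X hX => hX.1)
            (hBm _) (fun X hX => hX.1.1) fun y => by
              rw [Set.preimage_inter, translate_preimage_Good, translate_preimage_RegB]
        · exact measure_empty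
    refine (Finset.sum_le_sum fun m _ => hm m).trans ?_
    rw [← Summable.tsum_finsetSum fun _ _ => ENNReal.summable, ← ENNReal.tsum_mul_right]
    refine ENNReal.tsum_le_tsum fun r => ?_
    rw [← Finset.sum_filter, ← Finset.mul_sum]
    refine mul_le_mul_right ?_ _
    calc ∑ m ∈ Finset.range t with r ≤ m, annM μ (B (m - r))
        = ∑ k ∈ ((Finset.range t).filter fun m => r ≤ m).image (fun m => m - r),
            annM μ (B k) := by
          rw [Finset.sum_image]
          intro i hi j hj (hij : i - r = j - r)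
          have := (Finset.mem_filter.1 hi).2
          have := (Finset.mem_filter.1 hj).2
          omega
      _ ≤ ∑ k ∈ Finset.range (t + 1), annM μ (B k) := by
          refine Finset.sum_le_sum_of_subset fun x hx => ?_
          obtain ⟨m, hm, rfl⟩ := Finset.mem_image.1 hx
          have := Finset.mem_range.1 (Finset.mem_filter.1 hm).1
          exact Finset.mem_range.2 (by omega)
      _ ≤ _ := by
          rw [Finset.sum_range_succ', add_comm]
          exact add_le_add ((measure_mono Set.inter_subset_left).trans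
            (ann_eq μ measurableSet_Good).ge) le_rfl
  have hkey : ∀ s K : ℕ, annRec μ l s * q * (q * cost μ l K) ≤
      q * cost μ l K + q * ((s + K : ℕ) : ℝ≥0∞) := by
    intro s K
    rw [annRec_eq, ← ENNReal.tsum_mul_right, ← ENNReal.tsum_mul_right]
    refine ENNReal.tsum_le_of_sum_range_le fun t => ?_
    rw [← Finset.sum_mul, Finset.sum_congr rfl fun m _ =>
      show annM μ {X | BRec l s m X} * q = annM μ (RegB l s m) by
        rw [← ann_eq μ (measurableSet_BRec s m), ← ann_eq μ (measurableSet_RegB s m)]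
        exact (ann_inter_good μ hμ (measurableSet_BRec s m)
          (fun X Y h => propext (BRec_congr h)) fun X hX => hX.1).symm]
    calc (∑ m ∈ Finset.range t, annM μ (RegB l s m)) * (q * cost μ l K)
        ≤ (∑' r, ann μ (Start l r)) * (q + regCount μ l t s) * (q * cost μ l K) :=
          mul_le_mul_left (hall t s) _
      _ = (∑' r, ann μ (Start l r)) * q * (q * cost μ l K + regCount μ l t s * cost μ l K) := by
          ring
      _ ≤ 1 * (q * cost μ l K + q * ((s + K : ℕ) : ℝ≥0∞)) :=
          mul_le_mul' hfirst (add_le_add le_rfl (regCount_cost_le μ hμ hq K t s))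
      _ = _ := one_mul _
  set D : ℝ≥0∞ := ENNReal.ofReal δ * q
  have hD : D ≠ 0 := mul_ne_zero (ENNReal.ofReal_pos.2 hδ).ne' hq
  have hD' : D ≠ ⊤ := ENNReal.mul_ne_top ENNReal.ofReal_ne_top hqt
  have hcost : ∀ K, cost μ l K ≤ 3 / D := by
    intro K
    obtain ⟨s, hs, hs'⟩ := (frequently_atTop.1 hfreq (K + 1))
    have hle : D * cost μ l K * (s : ℝ≥0∞) ≤ 3 * (s : ℝ≥0∞) := by
      refine (ENNReal.mul_le_mul_iff_right hq hqt).1 ?_
      calc q * (D * cost μ l K * (s : ℝ≥0∞))
          = ENNReal.ofReal δ * s * q * (q * cost μ l K) := by simp only [D]; ring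
        _ ≤ annRec μ l s * q * (q * cost μ l K) := by gcongr
        _ ≤ q * cost μ l K + q * ((s + K : ℕ) : ℝ≥0∞) := hkey s K
        _ ≤ q * (K : ℝ≥0∞) + q * ((s + K : ℕ) : ℝ≥0∞) := by
            gcongr; exact cost_le μ hμ hq K
        _ ≤ q * (3 * (s : ℝ≥0∞)) := by
            rw [← mul_add, ← Nat.cast_add]
            refine mul_le_mul_right ?_ _
            exact_mod_cast (by omega : K + (s + K) ≤ 3 * s)
    have h3 := (ENNReal.mul_le_mul_iff_left (by simp; omega) (ENNReal.natCast_ne_top s)).1 hle
    rw [ENNReal.le_div_iff_mul_le (Or.inl hD) (Or.inl hD'), mul_comm]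
    exact h3
  refine ne_top_of_le_ne_top (ENNReal.div_ne_top (by norm_num : (3 : ℝ≥0∞) ≠ ⊤) hD) ?_
  have hsum : ∑' z, blockMass μ l z = ∑' p : (n : ℕ) × (Fin (n + 1) → Site d),
      if Block l p.1 (ext p.2) then wt μ p.1 p.2 * (seen p.1 (ext p.2)).card else 0 := by
    rw [ENNReal.tsum_sigma']
    unfold blockMass
    rw [ENNReal.tsum_comm]
    refine tsum_congr fun n => ?_
    rw [ENNReal.tsum_comm]
    refine tsum_congr fun a => ?_
    by_cases hb : Block l n (ext a)
    · rw [if_pos hb, tsum_eq_sum (s := seen n (ext a)) fun z hz => if_neg fun h => hz h.2,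
        Finset.sum_congr rfl fun z hz => if_pos ⟨hb, hz⟩, Finset.sum_const, nsmul_eq_mul, mul_comm]
    · simp [hb]
  rw [hsum, ENNReal.tsum_eq_iSup_sum]
  refine iSup_le fun F => le_trans ?_ (hcost (F.sup fun p => (seen p.1 (ext p.2)).card))
  rw [cost, ← ENNReal.tsum_sigma' fun p : (n : ℕ) × (Fin (n + 1) → Site d) =>
    if Block l p.1 (ext p.2) then wt μ p.1 p.2 * ((min (seen p.1 (ext p.2)).card
      (F.sup fun p => (seen p.1 (ext p.2)).card) : ℕ) : ℝ≥0∞) else 0]
  refine le_trans (le_of_eq (Finset.sum_congr rfl fun p hp => ?_)) (ENNReal.sum_le_tsum F)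
  rw [min_eq_left (Finset.le_sup (f := fun p => (seen p.1 (ext p.2)).card) hp)]

end Vale.Agent.P147.Linear
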