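import Vale.Agent.P147.Linear.Pair

/-!
# Budgets: few sites, few records, few meetings
-/

namespace Vale.Agent.P147.Linear

open MeasureTheory Filter Topology Set Vale.Agent.P147.Balanced
open scoped ENNReal

variable {d : ℕ} {l : Fin d → ℝ}

lemma seen_mono {i j : ℕ} (h : i ≤ j) (X : ℕ → Site d) : seen i X ⊆ seen j X :=
  Finset.image_subset_image (Finset.range_subset_range.2 h)

lemma seen_succ (i : ℕ) (X : ℕ → Site d) : seen (i + 1) X = insert (X i) (seen i X) := by
  rw [seen, Finset.range_add_one, Finset.image_insert]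
  rfl

/-- At most `s` sites are reached before `s` distinct sites have been seen. -/
theorem tsum_budget_le (s : ℕ) (X : ℕ → Site d) :
    ∑' v : Site d, {Y : ℕ → Site d | ∃ i, (seen i Y).card < s ∧ Y i = v}.indicator 1 X ≤
      (s : ℝ≥0∞) := by
  classical
  rw [ENNReal.tsum_eq_iSup_sum]
  refine iSup_le fun F => ?_
  set F' := F.filter fun v => ∃ i, (seen i X).card < s ∧ X i = v with hF'
  have hsum : ∑ v ∈ F, {Y : ℕ → Site d | ∃ i, (seen i Y).card < s ∧ Y i = v}.indicator
      (1 : (ℕ → Site d) → ℝ≥0∞) X = (F'.card : ℝ≥0∞) := by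
    rw [hF', Finset.card_filter, Nat.cast_sum]
    exact Finset.sum_congr rfl fun v _ => by
      by_cases h : ∃ i, (seen i X).card < s ∧ X i = v
      · simp [h]
      · simp [h]
  rw [hsum]
  refine Nat.cast_le.2 ?_
  rcases F'.eq_empty_or_nonempty with h | h
  · simp [h]
  have hi : ∀ v ∈ F', ∃ i, (seen i X).card < s ∧ X i = v := fun v hv => (Finset.mem_filter.1 hv).2
  choose! g hg using hi
  obtain ⟨v₀, hv₀, hmax⟩ := Finset.exists_max_image F' g h
  calc F'.card ≤ (seen (g v₀ + 1) X).card := Finset.card_le_card fun v hv =>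
        Finset.mem_image.2 ⟨g v, Finset.mem_range.2 (Nat.lt_succ_of_le (hmax v hv)), (hg v hv).2⟩
    _ ≤ (seen (g v₀) X).card + 1 := by rw [seen_succ]; exact Finset.card_insert_le _ _
    _ ≤ s := (hg v₀ hv₀).1

lemma Rec.card_lt {i j : ℕ} {X : ℕ → Site d} (hi : Rec l i X) (hij : i < j) :
    (seen i X).card < (seen j X).card := by
  refine Finset.card_lt_card ((Finset.ssubset_iff_of_subset (seen_mono hij.le X)).2
    ⟨X i, Finset.mem_image_of_mem _ (Finset.mem_range.2 hij), fun h => ?_⟩)
  obtain ⟨k, hk, he⟩ := Finset.mem_image.1 h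
  exact absurd (hi k (Finset.mem_range.1 hk)) (by rw [he]; exact lt_irrefl _)

/-- At most `s` records have their site among the first `s` distinct sites. -/
theorem recCount_le (s : ℕ) (X : ℕ → Site d) : recCount l s X ≤ s := by
  classical
  rw [recCount, ENNReal.tsum_eq_iSup_sum]
  refine iSup_le fun F => ?_
  set F' := F.filter fun m => BRec l s m X with hF'
  have hsum : ∑ m ∈ F, {Y : ℕ → Site d | BRec l s m Y}.indicator
      (1 : (ℕ → Site d) → ℝ≥0∞) X = (F'.card : ℝ≥0∞) := by
    rw [hF', Finset.card_filter, Nat.cast_sum]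
    exact Finset.sum_congr rfl fun m _ => by
      by_cases h : BRec l s m X <;> simp [h]
  rw [hsum]
  refine Nat.cast_le.2 (le_of_le_of_eq (Finset.card_le_card_of_injOn (t := Finset.range s)
    (fun m => (seen m X).card) (fun m hm => ?_) ?_) (Finset.card_range s))
  · simpa using (Finset.mem_filter.1 hm).2.2
  · intro a ha b hb he
    rcases lt_trichotomy a b with h | h | h
    · exact absurd he ((Finset.mem_filter.1 ha).2.1.card_lt h).ne
    · exact h
    · exact absurd he.symm ((Finset.mem_filter.1 hb).2.1.card_lt h).ne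

lemma seen_translate (m : ℕ) (X : ℕ → Site d) (y : Site d) :
    (seen m fun i => X i + y).card = (seen m X).card := by
  have : (seen m fun i => X i + y) = (seen m X).image (· + y) := by
    simp [seen, Finset.image_image, Function.comp_def]
  rw [this, Finset.card_image_of_injective _ (add_left_injective y)]

lemma BRec_translate {s m : ℕ} {X : ℕ → Site d} (y : Site d) :
    BRec l s m (fun i => X i + y) ↔ BRec l s m X := by
  simp [BRec, Rec, dot_add, seen_translate]

lemma measurableSet_budget (s i : ℕ) (z : Site d) :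
    MeasurableSet {X : ℕ → Site d | (seen i X).card < s ∧ X i = z} :=
  (measurableSet_lt (measurable_seen_card i) measurable_const).inter
    (show MeasurableSet ((fun X : ℕ → Site d => X i) ⁻¹' {z}) from
      measurable_pi_apply i (measurableSet_singleton z))

variable [Nonempty (Fin d)] (μ : Measure (Step d → ℝ)) [IsProbabilityMeasure μ]

/-- The starts of a walk that reaches `z` within the budget have total weight at most `s`. -/
theorem tsum_reach_le (s : ℕ) (z : Site d) :
    ∑' w : Site d, ∫⁻ ω, law ω w {X | ∃ i, (seen i X).card < s ∧ X i = z} ∂envLaw μ ≤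
      (s : ℝ≥0∞) := by
  have hm : ∀ v : Site d, MeasurableSet {X : ℕ → Site d | ∃ i, (seen i X).card < s ∧ X i = v} :=
    fun v => by
      rw [show {X : ℕ → Site d | ∃ i, (seen i X).card < s ∧ X i = v} =
        ⋃ i, {X | (seen i X).card < s ∧ X i = v} by ext; simp]
      exact MeasurableSet.iUnion fun i => measurableSet_budget s i v
  have h1 : ∀ w : Site d, ∫⁻ ω, law ω w {X | ∃ i, (seen i X).card < s ∧ X i = z} ∂envLaw μ =
      annM μ {X | ∃ i, (seen i X).card < s ∧ X i = z - w} := by
    intro w
    rw [lintegral_law_eq_ann μ w (hm z), ← ann_eq μ (hm _)]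
    congr 1
    ext X
    simp [seen_translate, eq_sub_iff_add_eq]
  simp only [h1]
  rw [← Equiv.tsum_eq (Equiv.subLeft z)]
  simp only [Equiv.subLeft_apply, sub_sub_cancel]
  calc ∑' v : Site d, annM μ {X | ∃ i, (seen i X).card < s ∧ X i = v}
      = ∫⁻ X, ∑' v : Site d, {Y : ℕ → Site d | ∃ i, (seen i Y).card < s ∧ Y i = v}.indicator 1 X
          ∂annM μ := by
        rw [lintegral_tsum fun v => (measurable_one.indicator (hm v)).aemeasurable]
        exact tsum_congr fun v => (lintegral_indicator_one (hm v)).symm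
    _ ≤ ∫⁻ _, (s : ℝ≥0∞) ∂annM μ := lintegral_mono fun X => tsum_budget_le s X
    _ = s := by simp

/-- The meetings within the budget, up to time `n`. -/
def MeetUpTo (s n : ℕ) : Set ((ℕ → Site d) × (ℕ → Site d)) :=
  {q | ∃ i ≤ n, ∃ j ≤ n, (seen i q.1).card < s ∧ (seen j q.2).card < s ∧ q.1 i = q.2 j}

/-- The meetings within the budget. -/
def Meet (s : ℕ) : Set ((ℕ → Site d) × (ℕ → Site d)) :=
  {q | ∃ i j, (seen i q.1).card < s ∧ (seen j q.2).card < s ∧ q.1 i = q.2 j}

omit [Nonempty (Fin d)] in
lemma measurableSet_Meet (s : ℕ) : MeasurableSet (Meet (d := d) s) := by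
  rw [show Meet (d := d) s = ⋃ i, ⋃ j, Prod.fst ⁻¹' {X | (seen i X).card < s} ∩
      Prod.snd ⁻¹' {X | (seen j X).card < s} ∩ {q | q.1 i = q.2 j} by
    ext; simp [Meet, and_assoc]]
  exact MeasurableSet.iUnion fun i => MeasurableSet.iUnion fun j =>
    ((measurable_fst (measurableSet_lt (measurable_seen_card i) measurable_const)).inter
      (measurable_snd (measurableSet_lt (measurable_seen_card j) measurable_const))).inter
      (measurableSet_eq_fun ((measurable_pi_apply i).comp measurable_fst)
        ((measurable_pi_apply j).comp measurable_snd))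

omit [Nonempty (Fin d)] in
/-- The first hit of `S` within the budget. -/
lemma prefix_first_hit (s i : ℕ) (S : Set (Site d)) :
    Prefix i fun X : ℕ → Site d =>
      X ∈ {X : ℕ → Site d | (seen i X).card < s ∧ X i ∈ S ∧ ∀ k < i, X k ∉ S} := by
  intro X Y h
  simp only [Set.mem_ofPred_eq, eq_iff_iff, seen_congr fun k hk => h k (le_of_lt hk), h i le_rfl]
  exact and_congr_right fun _ => and_congr_right fun _ =>
    forall₂_congr fun k hk => by rw [h k hk.le]

/-- Until they meet two walks are independent. -/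
theorem meet_upTo_le (x : Site d) (s n : ℕ) :
    ∑' w : Site d, ∫⁻ ω, ((law ω x).prod (law ω w)) (MeetUpTo s n) ∂envLaw μ ≤
      (s : ℝ≥0∞) * s := by
  classical
  set P : ℕ → Set (ℕ → Site d) := fun j => {X | j ≤ n ∧ (seen j X).card < s ∧
    (j = n ∨ s ≤ (seen (j + 1) X).card)}
  have hPp : ∀ j, Prefix j fun X => X ∈ P j := fun j X Y h => by
    simp only [P, Set.mem_ofPred_eq, seen_congr fun k hk => h k (le_of_lt hk),
      seen_congr (m := j + 1) fun k hk => h k (Nat.le_of_lt_succ hk)]
  have hPm : ∀ j, MeasurableSet (P j) := fun j => by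
    have : P j = (if j ≤ n then Set.univ else ∅) ∩ {X | (seen j X).card < s} ∩
        ((if j = n then Set.univ else ∅) ∪ {X | s ≤ (seen (j + 1) X).card}) := by
      ext X
      by_cases h1 : j ≤ n <;> by_cases h2 : j = n <;> simp [P, h1, h2]
    rw [this]
    refine (MeasurableSet.inter ?_ (measurableSet_lt (measurable_seen_card j) measurable_const)).inter
      (MeasurableSet.union ?_ (measurableSet_le measurable_const (measurable_seen_card (j + 1))))
    all_goals split_ifs <;> simp
  set H : Finset (Site d) → Set (ℕ → Site d) := fun S =>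
    ⋃ i, {X | (seen i X).card < s ∧ X i ∈ S ∧ ∀ k < i, X k ∉ S}
  have hHm : ∀ (S : Finset (Site d)) (i : ℕ),
      MeasurableSet {X : ℕ → Site d | (seen i X).card < s ∧ X i ∈ S ∧ ∀ k < i, X k ∉ S} := by
    intro S i
    rw [show {X : ℕ → Site d | (seen i X).card < s ∧ X i ∈ S ∧ ∀ k < i, X k ∉ S} =
      {X | (seen i X).card < s} ∩ ((fun X => X i) ⁻¹' (S : Set (Site d)) ∩
        ⋂ k, ⋂ (_ : k < i), (fun X => X k) ⁻¹' (S : Set (Site d))ᶜ) by ext; simp]
    exact (measurableSet_lt (measurable_seen_card i) measurable_const).inter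
      ((measurable_pi_apply i MeasurableSet.of_discrete).inter (MeasurableSet.iInter fun k =>
        MeasurableSet.iInter fun _ => measurable_pi_apply k MeasurableSet.of_discrete))
  have hsub : MeetUpTo (d := d) s n ⊆ ⋃ j, ⋃ a : Fin (j + 1) → Site d,
      (pre j (ext a) ∩ P j) ×ˢ H (seen (j + 1) (ext a)) := by
    rintro ⟨X, Y⟩ ⟨i, hi, k, -, hcX, hcY, he⟩
    set j := Nat.findGreatest (fun j => (seen j X).card < s) n with hj
    have hj1 : (seen j X).card < s := Nat.findGreatest_spec (P := fun j => (seen j X).card < s) hi hcX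
    have hjn : j ≤ n := Nat.findGreatest_le n
    have hP : X ∈ P j := by
      refine ⟨hjn, hj1, (eq_or_lt_of_le hjn).imp id fun hlt => ?_⟩
      exact not_lt.1 (Nat.findGreatest_is_greatest (P := fun j => (seen j X).card < s)
        (hj ▸ lt_add_one j) hlt)
    have hpre : X ∈ pre j (ext (res j X)) := fun r hr => (ext_res_apply hr X).symm
    have hXS : X i ∈ seen (j + 1) (ext (res j X)) := by
      rw [seen_congr (Y := X) fun r hr => ext_res_apply (Nat.le_of_lt_succ hr) X]
      exact Finset.mem_image_of_mem _ (Finset.mem_range.2 (Nat.lt_succ_of_le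
        (Nat.le_findGreatest hi hcX)))
    refine Set.mem_iUnion₂.2 ⟨j, res j X, ⟨hpre, hP⟩, Set.mem_iUnion.2 ?_⟩
    have hYS : Y k ∈ seen (j + 1) (ext (res j X)) := by
      rw [← show X i = Y k from he]; exact hXS
    have hex : ∃ r, Y r ∈ seen (j + 1) (ext (res j X)) := ⟨k, hYS⟩
    refine ⟨Nat.find hex, lt_of_le_of_lt (Finset.card_le_card (seen_mono
      (Nat.find_min' hex hYS) Y)) hcY, Nat.find_spec hex, fun r hr => Nat.find_min hex hr⟩
  have hone : ∀ (j : ℕ) (a : Fin (j + 1) → Site d) (w : Site d),
      ∫⁻ ω, law ω x (pre j (ext a) ∩ P j) * law ω w (H (seen (j + 1) (ext a))) ∂envLaw μ =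
        (∫⁻ ω, law ω x (pre j (ext a) ∩ P j) ∂envLaw μ) *
          ∫⁻ ω, law ω w (H (seen (j + 1) (ext a))) ∂envLaw μ := by
    intro j a w
    set S := seen (j + 1) (ext a)
    refine lintegral_mul_of_local μ S (measurable_law_apply x ((measurableSet_pre _ _).inter (hPm j)))
      (measurable_law_apply w (MeasurableSet.iUnion (hHm S))) ?_ ?_
    · intro ω ω' h
      refine law_congr_prefix (n := j) x ((measurableSet_pre _ _).inter (hPm j)) ?_
        (S := (↑S : Set (Site d))) ?_ fun z hz => h z hz
      · intro X Y hXY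
        simp only [Set.mem_inter_iff, eq_iff_iff]
        exact and_congr ⟨fun hX i hi => (hXY i hi).symm.trans (hX i hi),
          fun hY i hi => (hXY i hi).trans (hY i hi)⟩ (iff_of_eq (hPp j X Y hXY))
      · exact fun X hX i hi => by
          rw [hX.1 i hi.le]
          exact Finset.mem_image_of_mem _ (Finset.mem_range.2 (by omega))
    · intro ω ω' h
      have hd : Pairwise fun i i' => Disjoint
          {X : ℕ → Site d | (seen i X).card < s ∧ X i ∈ S ∧ ∀ k < i, X k ∉ S}
          {X : ℕ → Site d | (seen i' X).card < s ∧ X i' ∈ S ∧ ∀ k < i', X k ∉ S} := by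
        intro i i' hne
        refine Set.disjoint_left.2 fun X hX hX' => ?_
        rcases lt_or_gt_of_ne hne with hlt | hlt
        · exact hX'.2.2 i hlt hX.2.1
        · exact hX.2.2 i' hlt hX'.2.1
      rw [measure_iUnion hd (hHm S), measure_iUnion hd (hHm S)]
      exact tsum_congr fun i => law_congr_prefix (n := i) w (hHm S i) (prefix_first_hit s i (↑S : Set (Site d)))
        (S := (↑S : Set (Site d))ᶜ) (fun X hX k hk => by simpa using hX.2.2 k hk)
        fun z hz => h z (by simpa using hz)
  have hP1 : ∑' j, ∑' a : Fin (j + 1) → Site d, ∫⁻ ω, law ω x (pre j (ext a) ∩ P j) ∂envLaw μ ≤ 1 := by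
    have hd : Pairwise fun j j' => Disjoint (P j) (P j') := by
      intro j j' hne
      refine Set.disjoint_left.2 fun X hX hX' => ?_
      rcases lt_or_gt_of_ne hne with h | h
      · rcases hX.2.2 with he | he
        · exact absurd hX'.1 (by omega)
        · exact absurd (he.trans (Finset.card_le_card (seen_mono h X))) (not_le.2 hX'.2.1)
      · rcases hX'.2.2 with he | he
        · exact absurd hX.1 (by omega)
        · exact absurd (he.trans (Finset.card_le_card (seen_mono h X))) (not_le.2 hX.2.1)
    have hj : ∀ j (ω : Env d), ∑' a : Fin (j + 1) → Site d, law ω x (pre j (ext a) ∩ P j) =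
        law ω x (P j) := by
      intro j ω
      rw [← lintegral_indicator_one (hPm j), lintegral_eq_tsum _ j]
      refine tsum_congr fun a => ?_
      rw [lintegral_indicator_one (hPm j), Measure.restrict_apply (hPm j), Set.inter_comm]
    calc ∑' j, ∑' a : Fin (j + 1) → Site d, ∫⁻ ω, law ω x (pre j (ext a) ∩ P j) ∂envLaw μ
        = ∫⁻ ω, ∑' j, law ω x (P j) ∂envLaw μ := by
          rw [lintegral_tsum fun j => (measurable_law_apply x (hPm j)).aemeasurable]
          refine tsum_congr fun j => ?_
          rw [← lintegral_tsum fun a =>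
            (measurable_law_apply x ((measurableSet_pre _ _).inter (hPm j))).aemeasurable]
          exact lintegral_congr (hj j)
      _ ≤ ∫⁻ _, 1 ∂envLaw μ := lintegral_mono fun ω => by
          rw [← measure_iUnion hd hPm]; exact prob_le_one
      _ = 1 := by simp
  calc ∑' w, ∫⁻ ω, ((law ω x).prod (law ω w)) (MeetUpTo s n) ∂envLaw μ
      ≤ ∑' w, ∑' j, ∑' a : Fin (j + 1) → Site d, (∫⁻ ω, law ω x (pre j (ext a) ∩ P j) ∂envLaw μ) *
          ∫⁻ ω, law ω w (H (seen (j + 1) (ext a))) ∂envLaw μ := by
        refine ENNReal.tsum_le_tsum fun w => ?_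
        simp only [← hone]
        refine le_trans (lintegral_mono (g := fun ω => ∑' j, ∑' a : Fin (j + 1) → Site d,
            law ω x (pre j (ext a) ∩ P j) * law ω w (H (seen (j + 1) (ext a)))) fun ω => ?_)
          (le_of_eq ?_)
        · refine (measure_mono hsub).trans ((measure_iUnion_le _).trans
            (ENNReal.tsum_le_tsum fun j => (measure_iUnion_le _).trans
              (ENNReal.tsum_le_tsum fun a => le_of_eq (Measure.prod_prod _ _))))
        · have hmeas : ∀ j (a : Fin (j + 1) → Site d), Measurable fun ω : Env d =>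
              law ω x (pre j (ext a) ∩ P j) * law ω w (H (seen (j + 1) (ext a))) := fun j a =>
            (measurable_law_apply x ((measurableSet_pre _ _).inter (hPm j))).mul
              (measurable_law_apply w (MeasurableSet.iUnion (hHm _)))
          rw [lintegral_tsum fun j => (Measurable.ennreal_tsum (hmeas j)).aemeasurable]
          exact tsum_congr fun j => lintegral_tsum fun a => (hmeas j a).aemeasurable
    _ = ∑' j, ∑' a : Fin (j + 1) → Site d, (∫⁻ ω, law ω x (pre j (ext a) ∩ P j) ∂envLaw μ) *
          ∑' w, ∫⁻ ω, law ω w (H (seen (j + 1) (ext a))) ∂envLaw μ := by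
        rw [ENNReal.tsum_comm]
        refine tsum_congr fun j => ?_
        rw [ENNReal.tsum_comm]
        exact tsum_congr fun a => ENNReal.tsum_mul_left
    _ ≤ ∑' j, ∑' a : Fin (j + 1) → Site d,
          (∫⁻ ω, law ω x (pre j (ext a) ∩ P j) ∂envLaw μ) * ((s : ℝ≥0∞) * s) := by
        refine ENNReal.tsum_le_tsum fun j => ENNReal.tsum_le_tsum fun a => ?_
        by_cases hne : pre j (ext a) ∩ P j = ∅
        · simp [hne]
        obtain ⟨X, hX1, hX2⟩ := Set.nonempty_iff_ne_empty.2 hne
        have hcard : (seen (j + 1) (ext a)).card ≤ s := by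
          rw [← seen_congr (X := X) fun r hr => hX1 r (Nat.le_of_lt_succ hr), seen_succ]
          exact (Finset.card_insert_le _ _).trans hX2.2.1
        refine mul_le_mul_right ?_ _
        calc ∑' w, ∫⁻ ω, law ω w (H (seen (j + 1) (ext a))) ∂envLaw μ
            ≤ ∑' w, ∑ z ∈ seen (j + 1) (ext a),
                ∫⁻ ω, law ω w {X | ∃ i, (seen i X).card < s ∧ X i = z} ∂envLaw μ := by
              refine ENNReal.tsum_le_tsum fun w => ?_
              rw [← lintegral_finsetSum _ fun z _ => measurable_law_apply w ?_]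
              · refine lintegral_mono fun ω => (measure_mono ?_).trans
                  (measure_biUnion_finset_le _ _)
                intro Y hY
                obtain ⟨i, hc, hz, -⟩ := Set.mem_iUnion.1 hY
                exact Set.mem_biUnion hz ⟨i, hc, rfl⟩
              · rw [show {X : ℕ → Site d | ∃ i, (seen i X).card < s ∧ X i = z} =
                  ⋃ i, {X | (seen i X).card < s ∧ X i = z} by ext; simp]
                exact MeasurableSet.iUnion fun i => measurableSet_budget s i z
          _ = ∑ z ∈ seen (j + 1) (ext a),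
                ∑' w, ∫⁻ ω, law ω w {X | ∃ i, (seen i X).card < s ∧ X i = z} ∂envLaw μ :=
              Summable.tsum_finsetSum fun _ _ => ENNReal.summable
          _ ≤ ∑ z ∈ seen (j + 1) (ext a), (s : ℝ≥0∞) :=
              Finset.sum_le_sum fun z _ => tsum_reach_le μ s z
          _ ≤ (s : ℝ≥0∞) * s := by
              rw [Finset.sum_const, nsmul_eq_mul]
              exact mul_le_mul_left (Nat.cast_le.2 hcard) _
    _ ≤ (s : ℝ≥0∞) * s := by
        simp only [ENNReal.tsum_mul_right]
        exact mul_le_of_le_one_left' hP1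

/-- The starts of a second walk meeting the first within the budget have weight at most `s ^ 2`. -/
theorem meet_le (x : Site d) (s : ℕ) :
    ∑' w : Site d, ∫⁻ ω, ((law ω x).prod (law ω w)) (Meet s) ∂envLaw μ ≤ (s : ℝ≥0∞) * s := by
  have hmono : Monotone fun n => MeetUpTo (d := d) s n :=
    fun a b hab q ⟨i, hi, j, hj, h⟩ => ⟨i, hi.trans hab, j, hj.trans hab, h⟩
  have hM : Meet (d := d) s = ⋃ n, MeetUpTo s n := by
    ext q
    simp only [Meet, MeetUpTo, Set.mem_ofPred_eq, Set.mem_iUnion]
    exact ⟨fun ⟨i, j, h⟩ => ⟨max i j, i, le_max_left _ _, j, le_max_right _ _, h⟩,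
      fun ⟨_, i, _, j, _, h⟩ => ⟨i, j, h⟩⟩
  have hmm : ∀ n, MeasurableSet (MeetUpTo (d := d) s n) := fun n => by
    rw [show MeetUpTo (d := d) s n = ⋃ i, ⋃ j, ⋃ (_ : i ≤ n), ⋃ (_ : j ≤ n),
      Prod.fst ⁻¹' {X | (seen i X).card < s} ∩ Prod.snd ⁻¹' {X | (seen j X).card < s} ∩
        {q | q.1 i = q.2 j} by
      ext q
      simp only [MeetUpTo, Set.mem_ofPred_eq, Set.mem_iUnion, Set.mem_inter_iff, Set.mem_preimage]
      exact ⟨fun ⟨i, hi, j, hj, a, b, c⟩ => ⟨i, j, hi, hj, ⟨a, b⟩, c⟩,
        fun ⟨i, j, hi, hj, ⟨a, b⟩, c⟩ => ⟨i, hi, j, hj, a, b, c⟩⟩]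
    exact MeasurableSet.iUnion fun i => MeasurableSet.iUnion fun j => MeasurableSet.iUnion fun _ =>
      MeasurableSet.iUnion fun _ =>
      ((measurable_fst (measurableSet_lt (measurable_seen_card i) measurable_const)).inter
        (measurable_snd (measurableSet_lt (measurable_seen_card j) measurable_const))).inter
        (measurableSet_eq_sites i j)
  have h1 : ∀ w, ∫⁻ ω, ((law ω x).prod (law ω w)) (Meet s) ∂envLaw μ =
      ⨆ n, ∫⁻ ω, ((law ω x).prod (law ω w)) (MeetUpTo s n) ∂envLaw μ := by
    intro w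
    rw [← lintegral_iSup (fun n => measurable_pair_law x w (hmm n))
      fun a b hab ω => measure_mono (hmono hab)]
    exact lintegral_congr fun ω => by rw [hM, hmono.measure_iUnion]
  simp only [h1]
  rw [ENNReal.tsum_eq_iSup_sum]
  refine iSup_le fun F => ?_
  rw [ENNReal.finsetSum_iSup_of_monotone]
  · exact iSup_le fun n => (ENNReal.sum_le_tsum F).trans (meet_upTo_le μ x s n)
  · exact fun w a b hab => lintegral_mono fun ω => measure_mono (hmono hab)

end Vale.Agent.P147.Linear
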