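import Vale.Agent.P147.Linear.Count

/-!
# The second moment of the flux of records, and the zero-one law
-/

namespace Vale.Agent.P147.Linear

open MeasureTheory Filter Topology Set Vale.Agent.P147.Balanced
open scoped ENNReal

variable {d : ℕ} {l : Fin d → ℝ}

/-- The record event at time `m` with site `z`. -/
def RA (l : Fin d → ℝ) (s m : ℕ) (z : Site d) : Set (ℕ → Site d) := {X | BRec l s m X ∧ X m = z}

lemma measurableSet_RA (s m : ℕ) (z : Site d) : MeasurableSet (RA l s m z) :=
  (measurableSet_BRec s m).inter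
    (show MeasurableSet ((fun X : ℕ → Site d => X m) ⁻¹' {z}) from
      measurable_pi_apply m (measurableSet_singleton z))

lemma prefix_RA (s m : ℕ) (z : Site d) : Prefix m fun X => X ∈ RA l s m z := fun X Y h => by
  simp only [RA, Set.mem_ofPred_eq, BRec_congr h, h m le_rfl]

lemma translate_preimage_RA (s m : ℕ) (z y : Site d) :
    (fun (X : ℕ → Site d) i => X i + y) ⁻¹' RA l s m z = RA l s m (z - y) := by
  ext X
  simp only [RA, Set.mem_preimage, Set.mem_ofPred_eq, BRec_translate, eq_sub_iff_add_eq]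

variable [Nonempty (Fin d)]

/-- The flux of records through the origin. -/
noncomputable def flux (l : Fin d → ℝ) (s : ℕ) (ω : Env d) : ℝ≥0∞ :=
  ∑' x : Site d, ∑' m, law ω x (RA l s m 0)

lemma measurable_flux (s : ℕ) : Measurable (flux (d := d) l s) :=
  Measurable.ennreal_tsum fun x => Measurable.ennreal_tsum fun m =>
    measurable_law_apply x (measurableSet_RA s m 0)

lemma measurable_outside : Measurable fun ω : Env d => law ω 0 (escape l)ᶜ :=
  measurable_law_apply 0 (measurableSet_escape l).compl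

lemma law_RA_shift (ω : Env d) (s m : ℕ) (z x y : Site d) :
    law ω (y + x) (RA l s m z) = law (shiftEnv x ω) y (RA l s m (z - x)) := by
  rw [law_translate ω x y, Measure.map_apply (by fun_prop) (measurableSet_RA s m z),
    translate_preimage_RA]
  rfl

lemma law_eq_tsum_pre (ω : Env d) (x : Site d) (m : ℕ) {A : Set (ℕ → Site d)}
    (hA : MeasurableSet A) (hAp : Prefix m fun X => X ∈ A) :
    law ω x A = ∑' a : Fin (m + 1) → Site d, A.indicator 1 (ext a) * law ω x (pre m (ext a)) := by
  rw [← lintegral_indicator_one hA]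
  refine lintegral_prefix _ fun X Y h => ?_
  have h' : X ∈ A ↔ Y ∈ A := iff_of_eq (hAp X Y h)
  by_cases hX : X ∈ A
  · simp [hX, h'.1 hX]
  · simp [hX, mt h'.2 hX]

variable (μ : Measure (Step d → ℝ)) [IsProbabilityMeasure μ]

lemma tsum_ann_RA (s m : ℕ) :
    ∑' v : Site d, ann μ (RA l s m v) = annM μ {X | BRec l s m X} := by
  have hd : Pairwise fun v v' => Disjoint (RA l s m v) (RA (d := d) l s m v') :=
    fun v v' hne => Set.disjoint_left.2 fun X hX hX' => hne (hX.2.symm.trans hX'.2)
  simp only [ann_eq μ (measurableSet_RA s m _)]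
  rw [← measure_iUnion hd fun v => measurableSet_RA s m v]
  congr 1
  ext X
  simp [RA]

theorem annRec_eq (s : ℕ) : annRec μ l s = ∑' m, annM μ {X | BRec l s m X} := by
  rw [annRec, ← lintegral_annM μ (measurable_recCount s)]
  simp only [recCount]
  rw [lintegral_tsum fun m => (measurable_one.indicator (measurableSet_BRec s m)).aemeasurable]
  exact tsum_congr fun m => lintegral_indicator_one (measurableSet_BRec s m)

/-- The mean flux is the mean number of records. -/
theorem lintegral_flux (s : ℕ) : ∫⁻ ω, flux l s ω ∂envLaw μ = annRec μ l s := by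
  unfold flux
  rw [lintegral_tsum fun x => (Measurable.ennreal_tsum fun m =>
    measurable_law_apply x (measurableSet_RA s m 0)).aemeasurable]
  simp_rw [lintegral_tsum fun m => (measurable_law_apply _ (measurableSet_RA s m 0)).aemeasurable,
    lintegral_law_eq_ann μ _ (measurableSet_RA s _ 0), translate_preimage_RA, zero_sub]
  rw [ENNReal.tsum_comm, annRec_eq]
  refine tsum_congr fun m => ?_
  rw [← tsum_ann_RA μ s m]
  exact Equiv.tsum_eq (Equiv.neg (Site d)) fun v => ann μ (RA l s m v)

omit [IsProbabilityMeasure μ] in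
theorem recCount_mul_indicator (s : ℕ) :
    ∫⁻ X, recCount l s X * (escape l)ᶜ.indicator 1 X ∂annM μ =
      ∑' m, annM μ ({X | BRec l s m X} ∩ (escape l)ᶜ) := by
  simp only [recCount, ← ENNReal.tsum_mul_right]
  rw [lintegral_tsum fun m => ((measurable_one.indicator (measurableSet_BRec s m)).fun_mul
    (measurable_one.indicator (measurableSet_escape l).compl)).aemeasurable]
  refine tsum_congr fun m => ?_
  rw [← lintegral_indicator_one ((measurableSet_BRec s m).inter (measurableSet_escape l).compl),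
    Set.inter_indicator_one]
  rfl

/-- A common record after which the walks share no site. -/
def LastCommon (l : Fin d → ℝ) (s : ℕ) (p : Site d × ℕ × ℕ) :
    Set ((ℕ → Site d) × (ℕ → Site d)) :=
  RA l s p.2.1 p.1 ×ˢ RA l s p.2.2 p.1 ∩ Prod.map (shiftP p.2.1) (shiftP p.2.2) ⁻¹' Esc l

omit [Nonempty (Fin d)] in
lemma measurableSet_LastCommon (s : ℕ) (p : Site d × ℕ × ℕ) :
    MeasurableSet (LastCommon l s p) :=
  ((measurableSet_RA s _ _).prod (measurableSet_RA s _ _)).inter
    (((measurable_shiftP p.2.1).prodMap (measurable_shiftP p.2.2)) measurableSet_Esc)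

omit [Nonempty (Fin d)] in
lemma disjoint_LastCommon (s : ℕ) :
    Pairwise fun p p' : Site d × ℕ × ℕ => Disjoint (LastCommon l s p) (LastCommon l s p') := by
  rintro ⟨z, m, n⟩ ⟨z', m', n'⟩ hne
  refine Set.disjoint_left.2 fun q hq hq' => hne ?_
  obtain ⟨⟨hm, hn⟩, he⟩ := hq
  obtain ⟨⟨hm', hn'⟩, he'⟩ := hq'
  simp only [RA, Set.mem_ofPred_eq] at hm hn hm' hn'
  have aux : ∀ (z z' : Site d) (m n m' n' : ℕ), Rec l n q.2 → q.1 m = z → q.2 n = z →
      Rec l m' q.1 → q.1 m' = z' → q.2 n' = z' →
      Prod.map (shiftP m) (shiftP n) q ∈ Esc l → m < m' → False := by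
    intro z z' m n m' n' hn hz hz2 hm' hz' hz2' hesc hlt
    have hh : dot l z < dot l z' := by rw [← hz, ← hz']; exact hm' m hlt
    have hnn : n < n' := by
      rcases lt_trichotomy n n' with h | h | h
      · exact h
      · rw [← h, hz2] at hz2'; rw [hz2'] at hh; exact absurd hh (lt_irrefl _)
      · have h1 := hn n' h
        rw [hz2, hz2'] at h1
        exact absurd hh h1.not_gt
    have := hesc.2.2 (m' - m) (n' - n)
    simp only [Prod.map_fst, Prod.map_snd, shiftP, add_zero, Nat.add_sub_cancel' hlt.le,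
      Nat.add_sub_cancel' hnn.le, hz, hz', hz2'] at this
    rw [this trivial] at hh
    exact lt_irrefl _ hh
  rcases lt_trichotomy m m' with h | h | h
  · exact (aux z z' m n m' n' hn.1.1 hm.2 hn.2 hm'.1.1 hm'.2 hn'.2 he h).elim
  · subst h
    have hz : z = z' := hm.2.symm.trans hm'.2
    subst hz
    rcases lt_trichotomy n n' with h | h | h
    · have := hn'.1.1 n h
      rw [hn.2, hn'.2] at this
      exact absurd this (lt_irrefl _)
    · subst h; rfl
    · have := hn.1.1 n' h
      rw [hn.2, hn'.2] at this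
      exact absurd this (lt_irrefl _)
  · exact (aux z' z m' n' m n hn'.1.1 hm'.2 hn'.2 hm.1.1 hm.2 hn.2 he' h).elim

/-- An escape follows a common record with probability `eta`. -/
theorem lintegral_lastCommon (hμ : ∀ᵐ p ∂μ, (∀ e, 0 < p e) ∧ ∑ e, p e = 1) (s : ℕ)
    (x w : Site d) (p : Site d × ℕ × ℕ) :
    ∫⁻ ω, ((law ω x).prod (law ω w)) (LastCommon l s p) ∂envLaw μ =
      eta μ l * ∫⁻ ω, law ω x (RA l s p.2.1 p.1) * law ω w (RA l s p.2.2 p.1) ∂envLaw μ := by
  classical
  obtain ⟨z, m, m'⟩ := p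
  set A := RA l s m z
  set A' := RA l s m' z
  set G : Env d → ℝ≥0∞ := fun ω => ((law ω z).prod (law ω z)) (Esc l)
  have hG : Measurable G := measurable_pair_law z z measurableSet_Esc
  have h1 : ∫⁻ ω, ((law ω x).prod (law ω w)) (LastCommon l s (z, m, m')) ∂envLaw μ =
      ∫⁻ ω, law ω x A * law ω w A' * G ω ∂envLaw μ := by
    refine lintegral_congr_ae ?_
    filter_upwards [ae_elliptic μ hμ] with ω hω
    rw [LastCommon, Set.inter_comm, ← Measure.restrict_apply
      (((measurable_shiftP m).prodMap (measurable_shiftP m')) measurableSet_Esc),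
      ← Measure.prod_restrict, ← Measure.map_apply
      ((measurable_shiftP m).prodMap (measurable_shiftP m')) measurableSet_Esc,
      ← Measure.map_prod_map _ _ (measurable_shiftP m) (measurable_shiftP m'),
      markov_map hω (measurableSet_RA s m z) (prefix_RA s m z) fun X hX => hX.2,
      markov_map hω (measurableSet_RA s m' z) (prefix_RA s m' z) fun X hX => hX.2,
      Measure.prod_smul_left, Measure.prod_smul_right, smul_smul, Measure.smul_apply, smul_eq_mul]
  have hexp : ∀ (φ : Env d → ℝ≥0∞), Measurable φ →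
      ∫⁻ ω, law ω x A * law ω w A' * φ ω ∂envLaw μ = ∑' a : Fin (m + 1) → Site d,
        ∑' b : Fin (m' + 1) → Site d, A.indicator 1 (ext a) * (A'.indicator 1 (ext b) *
          ∫⁻ ω, law ω x (pre m (ext a)) * law ω w (pre m' (ext b)) * φ ω ∂envLaw μ) := by
    intro φ hφ
    have hm : ∀ (a : Fin (m + 1) → Site d) (b : Fin (m' + 1) → Site d), Measurable fun ω : Env d =>
        law ω x (pre m (ext a)) * law ω w (pre m' (ext b)) * φ ω := fun a b =>
      ((measurable_law_apply x (measurableSet_pre _ _)).mul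
        (measurable_law_apply w (measurableSet_pre _ _))).mul hφ
    simp only [← lintegral_const_mul _ (hm _ _), ← lintegral_const_mul _ ((hm _ _).const_mul _)]
    simp only [← lintegral_tsum fun b => (((hm _ b).const_mul _).const_mul _).aemeasurable]
    rw [← lintegral_tsum fun a => (Measurable.ennreal_tsum fun b =>
      ((hm a b).const_mul _).const_mul _).aemeasurable]
    refine lintegral_congr fun ω => ?_
    rw [law_eq_tsum_pre ω x m (measurableSet_RA s m z) (prefix_RA s m z),
      law_eq_tsum_pre ω w m' (measurableSet_RA s m' z) (prefix_RA s m' z), ← ENNReal.tsum_mul_right,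
      ← ENNReal.tsum_mul_right]
    refine tsum_congr fun a => ?_
    rw [← ENNReal.tsum_mul_left, ← ENNReal.tsum_mul_right]
    exact tsum_congr fun b => by ring
  rw [h1, hexp G hG]
  have h2 : ∫⁻ ω, law ω x A * law ω w A' ∂envLaw μ =
      ∫⁻ ω, law ω x A * law ω w A' * (1 : ℝ≥0∞) ∂envLaw μ := by simp
  rw [h2, hexp (fun _ => 1) measurable_const]
  simp only [mul_one, ← ENNReal.tsum_mul_left]
  refine tsum_congr fun a => tsum_congr fun b => ?_
  by_cases ha : ext a ∈ A
  · by_cases hb : ext b ∈ A'
    · have hpf := pair_fresh (l := l) μ x w ha.1.1 hb.1.1 (ha.2.trans hb.2.symm)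
      rw [ha.2] at hpf
      simp only [Set.indicator_of_mem ha, Set.indicator_of_mem hb, Pi.one_apply, one_mul, G, hpf]
      ring
    · simp [hb]
  · simp [ha]

/-- The second moment of the flux. -/
theorem eta_mul_lintegral_flux_sq (hμ : ∀ᵐ p ∂μ, (∀ e, 0 < p e) ∧ ∑ e, p e = 1) (s : ℕ) :
    eta μ l * ∫⁻ ω, flux l s ω ^ 2 ∂envLaw μ ≤ (s : ℝ≥0∞) * s := by
  set T : Site d → Site d → ℕ → ℕ → ℝ≥0∞ := fun z w m m' =>
    ∫⁻ ω, law ω 0 (RA l s m z) * law ω w (RA l s m' z) ∂envLaw μ
  have hterm : ∀ (x x' : Site d) (m m' : ℕ),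
      ∫⁻ ω, law ω x (RA l s m 0) * law ω x' (RA l s m' 0) ∂envLaw μ = T (-x) (x' - x) m m' := by
    intro x x' m m'
    have h : ∀ ω : Env d, law ω x (RA l s m 0) * law ω x' (RA l s m' 0) =
        law (shiftEnv x ω) 0 (RA l s m (-x)) * law (shiftEnv x ω) (x' - x) (RA l s m' (-x)) := by
      intro ω
      rw [← zero_sub x, ← law_RA_shift, ← law_RA_shift, zero_add, sub_add_cancel]
    simp only [h]
    exact (measurePreserving_shiftEnv μ x).lintegral_comp
      (f := fun ω => law ω 0 (RA l s m (-x)) * law ω (x' - x) (RA l s m' (-x)))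
      ((measurable_law_apply 0 (measurableSet_RA s m _)).mul
        (measurable_law_apply (x' - x) (measurableSet_RA s m' _)))
  have hm : ∀ (x x' : Site d) (m m' : ℕ), Measurable fun ω : Env d =>
      law ω x (RA l s m 0) * law ω x' (RA l s m' 0) := fun x x' m m' =>
    (measurable_law_apply x (measurableSet_RA s m 0)).mul
      (measurable_law_apply x' (measurableSet_RA s m' 0))
  have hsq : ∫⁻ ω, flux l s ω ^ 2 ∂envLaw μ = ∑' x, ∑' x', ∑' m, ∑' m', T (-x) (x' - x) m m' := by
    have h : ∀ ω : Env d, flux l s ω ^ 2 = ∑' x, ∑' x', ∑' m, ∑' m',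
        law ω x (RA l s m 0) * law ω x' (RA l s m' 0) := fun ω => by
      rw [flux, sq, ← ENNReal.tsum_mul_right]
      refine tsum_congr fun x => ?_
      rw [← ENNReal.tsum_mul_left]
      refine tsum_congr fun x' => ?_
      rw [← ENNReal.tsum_mul_right]
      exact tsum_congr fun m => ENNReal.tsum_mul_left.symm
    simp only [h, ← hterm]
    rw [lintegral_tsum fun x => (Measurable.ennreal_tsum fun x' => Measurable.ennreal_tsum fun m =>
      Measurable.ennreal_tsum fun m' => hm x x' m m').aemeasurable]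
    refine tsum_congr fun x => ?_
    rw [lintegral_tsum fun x' => (Measurable.ennreal_tsum fun m =>
      Measurable.ennreal_tsum fun m' => hm x x' m m').aemeasurable]
    refine tsum_congr fun x' => ?_
    rw [lintegral_tsum fun m => (Measurable.ennreal_tsum fun m' => hm x x' m m').aemeasurable]
    exact tsum_congr fun m => lintegral_tsum fun m' => (hm x x' m m').aemeasurable
  have hre : ∫⁻ ω, flux l s ω ^ 2 ∂envLaw μ = ∑' w, ∑' p : Site d × ℕ × ℕ, T p.1 w p.2.1 p.2.2 := by
    rw [hsq, ← Equiv.tsum_eq (Equiv.neg (Site d))]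
    simp only [Equiv.neg_apply, neg_neg, sub_neg_eq_add]
    rw [show (∑' z : Site d, ∑' x' : Site d, ∑' m, ∑' m', T z (x' + z) m m') =
      ∑' z : Site d, ∑' w : Site d, ∑' m, ∑' m', T z w m m' from
        tsum_congr fun z => Equiv.tsum_eq (Equiv.addRight z) fun w => ∑' m, ∑' m', T z w m m',
      ENNReal.tsum_comm]
    refine tsum_congr fun w => ?_
    rw [ENNReal.tsum_prod']
    refine tsum_congr fun z => ?_
    rw [ENNReal.tsum_prod']
  rw [hre, ← ENNReal.tsum_mul_left]
  refine le_trans (ENNReal.tsum_le_tsum fun w => ?_) (meet_le μ 0 s)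
  rw [← ENNReal.tsum_mul_left]
  calc ∑' p : Site d × ℕ × ℕ, eta μ l * T p.1 w p.2.1 p.2.2
      = ∫⁻ ω, ∑' p, ((law ω 0).prod (law ω w)) (LastCommon l s p) ∂envLaw μ := by
        rw [lintegral_tsum fun p =>
          (measurable_pair_law 0 w (measurableSet_LastCommon s p)).aemeasurable]
        exact tsum_congr fun p => (lintegral_lastCommon μ hμ s 0 w p).symm
    _ ≤ ∫⁻ ω, ((law ω 0).prod (law ω w)) (Meet s) ∂envLaw μ := by
        refine lintegral_mono fun ω => ?_
        rw [← measure_iUnion (disjoint_LastCommon s) (measurableSet_LastCommon s)]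
        refine measure_mono fun q hq => ?_
        obtain ⟨⟨z, m, m'⟩, ⟨⟨hm, hm'⟩, -⟩⟩ := Set.mem_iUnion.1 hq
        exact ⟨m, m', hm.1.2, hm'.1.2, hm.2.trans hm'.2.symm⟩

/-- The flux is small where the escape is likely to fail. -/
theorem lintegral_flux_mul_outside (hμ : ∀ᵐ p ∂μ, (∀ e, 0 < p e) ∧ ∑ e, p e = 1) (s : ℕ) :
    ∫⁻ ω, flux l s ω * law ω 0 (escape l)ᶜ ∂envLaw μ =
      ∫⁻ X, recCount l s X * (escape l)ᶜ.indicator 1 X ∂annM μ := by
  have hAc := (measurableSet_escape (d := d) l).compl
  have hm : ∀ (x : Site d) (m : ℕ), MeasurableSet (RA l s m x ∩ (escape l)ᶜ) :=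
    fun x m => (measurableSet_RA s m x).inter hAc
  have h1 : ∀ (x : Site d) (m : ℕ), ∫⁻ ω, law ω x (RA l s m 0) * law ω 0 (escape l)ᶜ ∂envLaw μ =
      annM μ (RA l s m (-x) ∩ (escape l)ᶜ) := by
    intro x m
    rw [← ann_eq μ (hm _ _), ← zero_sub x, ← translate_preimage_RA (l := l) s m 0 x,
      show (escape l)ᶜ = (fun (X : ℕ → Site d) i => X i + x) ⁻¹' (escape l)ᶜ by
        rw [Set.preimage_compl, translate_preimage_escape], ← Set.preimage_inter,
      ← lintegral_law_eq_ann μ x (hm 0 m), Set.preimage_compl, translate_preimage_escape]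
    refine lintegral_congr_ae ?_
    filter_upwards [ae_elliptic μ hμ] with ω hω
    have h := markov_map hω (x := x) (measurableSet_RA (l := l) s m 0) (prefix_RA s m 0)
      fun X hX => hX.2
    have h' := congrArg (fun ν : Measure (ℕ → Site d) => ν (escape l)ᶜ) h
    simp only [Measure.map_apply (measurable_shiftP m) hAc, Measure.smul_apply, smul_eq_mul,
      Measure.restrict_apply (measurable_shiftP m hAc)] at h'
    rw [← h', Set.inter_comm]
    congr 1
    ext X
    simp [shiftP_mem_escape]
  unfold flux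
  simp only [← ENNReal.tsum_mul_right]
  rw [lintegral_tsum fun x => (Measurable.ennreal_tsum fun m =>
    (measurable_law_apply x (measurableSet_RA s m 0)).fun_mul measurable_outside).aemeasurable]
  simp_rw [lintegral_tsum fun m =>
    ((measurable_law_apply _ (measurableSet_RA s m 0)).fun_mul measurable_outside).aemeasurable, h1]
  rw [ENNReal.tsum_comm, recCount_mul_indicator]
  refine tsum_congr fun m => ?_
  rw [show (∑' v : Site d, annM μ (RA l s m (-v) ∩ (escape l)ᶜ)) =
      ∑' v : Site d, annM μ (RA l s m v ∩ (escape l)ᶜ) from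
        Equiv.tsum_eq (Equiv.neg (Site d)) fun v => annM μ (RA l s m v ∩ (escape l)ᶜ),
    ← measure_iUnion (fun v v' hne => Set.disjoint_left.2 fun X hX hX' =>
      hne (hX.1.2.symm.trans hX'.1.2)) fun v => hm v m]
  congr 1
  ext X
  simp [RA]

/-- Off the escape event there are finitely many records. -/
theorem ae_records_finite (hμ : ∀ᵐ p ∂μ, (∀ e, 0 < p e) ∧ ∑ e, p e = 1)
    (hq : ann μ (Good l) ≠ 0) :
    ∀ᵐ X ∂annM μ, X ∉ escape l → ∃ N, ∀ m, N < m → ¬Rec l m X := by
  set B : Set (ℕ → Site d) := (escape l)ᶜ ∩ ⋂ N, ⋃ m, ⋃ (_ : N < m), {X | Rec l m X}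
  have hB : MeasurableSet B := (measurableSet_escape l).compl.inter (MeasurableSet.iInter fun N =>
    MeasurableSet.iUnion fun m => MeasurableSet.iUnion fun _ => measurableSet_Rec m)
  have h0 := null_of_records μ hμ hq hB (fun X hX N => by
      simpa using Set.mem_iInter.1 hX.2 N)
    fun X hX m _ hr => hX.1 (shiftP_mem_escape.1 hr.2.2)
  rw [ann_eq μ hB] at h0
  refine measure_mono_null (fun X hX => ?_) h0
  simp only [Set.mem_compl_iff, Set.mem_ofPred_eq, Classical.not_imp, not_exists, not_forall,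
    not_not] at hX
  exact ⟨hX.1, Set.mem_iInter.2 fun N => by simpa using hX.2 N⟩

/-- Records off the escape event are sublinear. -/
theorem tendsto_outside (hμ : ∀ᵐ p ∂μ, (∀ e, 0 < p e) ∧ ∑ e, p e = 1)
    (hq : ann μ (Good l) ≠ 0) :
    Tendsto (fun s : ℕ => (∫⁻ X, recCount l s X * (escape l)ᶜ.indicator 1 X ∂annM μ) / (s : ℝ≥0∞))
      atTop (𝓝 0) := by
  have hm : ∀ s : ℕ, Measurable fun X : ℕ → Site d =>
      recCount l s X * (escape l)ᶜ.indicator 1 X / (s : ℝ≥0∞) := fun s =>
    ((measurable_recCount s).mul (measurable_one.indicator (measurableSet_escape l).compl)).div_const _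
  have h := tendsto_lintegral_of_dominated_convergence (μ := annM μ)
    (F := fun (s : ℕ) X => recCount l s X * (escape l)ᶜ.indicator 1 X / (s : ℝ≥0∞))
    (f := fun _ => 0) (fun _ => 1) hm (fun s => Filter.Eventually.of_forall fun X => ?_) (by simp) ?_
  · simp only [lintegral_zero] at h
    refine h.congr fun s => ?_
    simp only [div_eq_mul_inv]
    exact lintegral_mul_const _ ((measurable_recCount s).mul
      (measurable_one.indicator (measurableSet_escape l).compl))
  · refine ENNReal.div_le_of_le_mul ?_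
    rw [one_mul]
    refine (mul_le_of_le_one_right' ?_).trans (recCount_le s X)
    by_cases hX : X ∈ (escape l)ᶜ <;> simp [hX]
  · filter_upwards [ae_records_finite μ hμ hq] with X hX
    by_cases hXA : X ∈ escape l
    · simp [hXA]
    obtain ⟨N, hN⟩ := hX hXA
    have hle : ∀ s : ℕ, recCount l s X * (escape l)ᶜ.indicator 1 X / (s : ℝ≥0∞) ≤
        ((N : ℝ≥0∞) + 1) / s := by
      intro s
      refine ENNReal.div_le_div_right ((mul_le_of_le_one_right' (by simp [hXA])).trans ?_) _
      rw [recCount, tsum_eq_sum (s := Finset.range (N + 1))]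
      · refine (Finset.sum_le_card_nsmul _ _ 1 fun m _ => ?_).trans (by simp)
        by_cases hm : BRec l s m X <;> simp [hm]
      · intro m hm
        have : ¬BRec l s m X := fun hb => hN m (by simp at hm; omega) hb.1
        simp [this]
    refine tendsto_of_tendsto_of_tendsto_of_le_of_le tendsto_const_nhds ?_ (fun s => bot_le) hle
    have := ENNReal.Tendsto.const_mul (a := (N : ℝ≥0∞) + 1) ENNReal.tendsto_inv_nat_nhds_zero
      (Or.inr (by simp))
    simpa [div_eq_mul_inv] using this

/-- Linear records force the zero-one law. -/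
theorem fluxPin (hμ : ∀ᵐ p ∂μ, (∀ e, 0 < p e) ∧ ∑ e, p e = 1) : FluxPin μ l := by
  intro hq heta ⟨δ, hδ, hfreq⟩
  set g : Env d → ℝ≥0∞ := fun ω => law ω 0 (escape l)ᶜ
  have hg : Measurable g := measurable_outside
  set D : ℝ≥0∞ := ENNReal.ofReal δ
  have hD0 : D ≠ 0 := by simpa [D] using hδ
  have hetop : eta μ l ≠ ⊤ := by
    refine ne_top_of_le_ne_top ENNReal.one_ne_top ((lintegral_mono fun ω => prob_le_one).trans ?_)
    simp
  set K : ℝ≥0∞ := 4 / (eta μ l * D)
  have hK0 : K ≠ 0 := ENNReal.div_ne_zero.2 ⟨by norm_num,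
    ENNReal.mul_ne_top hetop ENNReal.ofReal_ne_top⟩
  have hKtop : K ≠ ⊤ := ENNReal.div_ne_top (by norm_num) (mul_ne_zero heta hD0)
  have hpos : ∀ t : ℝ≥0∞, t ≠ 0 → t ≠ ⊤ → D / (2 * K) ≤ envLaw μ {ω | g ω ≤ t} := by
    intro t ht httop
    have hev : ∀ᶠ s : ℕ in atTop, 0 < s ∧
        (∫⁻ X, recCount l s X * (escape l)ᶜ.indicator 1 X ∂annM μ) ≤ t * D / 4 * s := by
      filter_upwards [Filter.eventually_gt_atTop 0, (tendsto_order.1 (tendsto_outside μ hμ hq)).2
        (t * D / 4) (ENNReal.div_pos (mul_ne_zero ht hD0) (by norm_num))] with s hs h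
      exact ⟨hs, (ENNReal.div_le_iff (by exact_mod_cast hs.ne') (ENNReal.natCast_ne_top s)).1 h.le⟩
    obtain ⟨s, hsD, hs, hout⟩ := (hfreq.and_eventually hev).exists
    set F : Env d → ℝ≥0∞ := flux l s
    have hF : Measurable F := measurable_flux s
    have hs0 : (s : ℝ≥0∞) ≠ 0 := by exact_mod_cast hs.ne'
    set M : ℝ≥0∞ := K * s
    have hM0 : M ≠ 0 := mul_ne_zero hK0 hs0
    have hMtop : M ≠ ⊤ := ENNReal.mul_ne_top hKtop (ENNReal.natCast_ne_top s)
    have hG : MeasurableSet {ω | g ω ≤ t} := measurableSet_le hg measurable_const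
    have hpt : ∀ ω, F ω ≤ F ω ^ 2 / M + M * {ω | g ω ≤ t}.indicator 1 ω + F ω * g ω / t := by
      intro ω
      by_cases hω : g ω ≤ t
      · refine le_add_right ?_
        simp only [Set.indicator_of_mem (show ω ∈ {ω | g ω ≤ t} from hω), Pi.one_apply, mul_one]
        rcases le_total (F ω) M with h | h
        · exact le_add_left h
        · refine le_add_right ((ENNReal.le_div_iff_mul_le (Or.inl hM0) (Or.inl hMtop)).2 ?_)
          rw [sq]
          exact mul_le_mul_right h _
      · refine le_add_left ((ENNReal.le_div_iff_mul_le (Or.inl ht) (Or.inl httop)).2 ?_)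
        exact mul_le_mul_right (not_le.1 hω).le _
    have hsq : ∫⁻ ω, F ω ^ 2 ∂envLaw μ ≤ (s : ℝ≥0∞) * s / eta μ l := by
      rw [ENNReal.le_div_iff_mul_le (Or.inl heta) (Or.inl hetop), mul_comm]
      exact eta_mul_lintegral_flux_sq μ hμ s
    have hmain : D * s ≤ (s : ℝ≥0∞) * s / eta μ l / M + M * envLaw μ {ω | g ω ≤ t} +
        t * D / 4 * s / t := by
      refine hsD.trans ?_
      rw [← lintegral_flux μ (l := l) s]
      refine (lintegral_mono hpt).trans ?_
      rw [lintegral_add_left (((hF.pow_const 2).div_const M).fun_add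
          ((measurable_one.indicator hG).const_mul M)),
        lintegral_add_left ((hF.pow_const 2).div_const M)]
      simp only [div_eq_mul_inv]
      rw [lintegral_mul_const _ (hF.pow_const 2), lintegral_const_mul _ (measurable_one.indicator hG),
        lintegral_indicator_one hG, lintegral_mul_const _ (hF.fun_mul hg)]
      refine add_le_add (add_le_add (mul_le_mul_left hsq _) le_rfl) (mul_le_mul_left ?_ _)
      rw [lintegral_flux_mul_outside μ hμ s]
      exact hout
    -- pass to real numbers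
    set P := envLaw μ {ω | g ω ≤ t}
    have hPtop : P ≠ ⊤ := measure_ne_top _ _
    have hDtop : D ≠ ⊤ := ENNReal.ofReal_ne_top
    have hst : (s : ℝ≥0∞) ≠ ⊤ := ENNReal.natCast_ne_top s
    have a1 : (s : ℝ≥0∞) * s / eta μ l / M ≠ ⊤ :=
      ENNReal.div_ne_top (ENNReal.div_ne_top (ENNReal.mul_ne_top hst hst) heta) hM0
    have a2 : M * P ≠ ⊤ := ENNReal.mul_ne_top hMtop hPtop
    have a3 : t * D / 4 * s / t ≠ ⊤ := ENNReal.div_ne_top (ENNReal.mul_ne_top
      (ENNReal.div_ne_top (ENNReal.mul_ne_top httop hDtop) (by norm_num)) hst) ht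
    have hr := ENNReal.toReal_mono
      (ENNReal.add_ne_top.2 ⟨ENNReal.add_ne_top.2 ⟨a1, a2⟩, a3⟩) hmain
    rw [ENNReal.toReal_add (ENNReal.add_ne_top.2 ⟨a1, a2⟩) a3, ENNReal.toReal_add a1 a2] at hr
    simp only [M, K, ENNReal.toReal_mul, ENNReal.toReal_div, ENNReal.toReal_natCast,
      ENNReal.toReal_ofNat] at hr
    rw [← ENNReal.toReal_le_toReal (ENNReal.div_ne_top hDtop (mul_ne_zero two_ne_zero hK0)) hPtop]
    simp only [K, ENNReal.toReal_mul, ENNReal.toReal_div, ENNReal.toReal_ofNat]
    have hd : (0 : ℝ) < D.toReal := ENNReal.toReal_pos hD0 hDtop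
    have he : (0 : ℝ) < (eta μ l).toReal := ENNReal.toReal_pos heta hetop
    have htp : (0 : ℝ) < t.toReal := ENNReal.toReal_pos ht httop
    have hsp : (0 : ℝ) < s := Nat.cast_pos.2 hs
    field_simp at hr ⊢
    nlinarith [hr, hd, he, htp, hsp]
  have hinf : envLaw μ {ω | g ω = 0} ≠ 0 := by
    set S : ℕ → Set (Env d) := fun k => {ω | g ω ≤ (↑(k + 1))⁻¹}
    have hanti : Antitone S := fun a b hab ω hω =>
      le_trans (show g ω ≤ _ from hω) (ENNReal.inv_le_inv.2 (by gcongr))
    have hS : {ω | g ω = 0} = ⋂ k, S k := by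
      ext ω
      simp only [S, Set.mem_ofPred_eq, Set.mem_iInter]
      refine ⟨fun h k => by simp [h], fun h => nonpos_iff_eq_zero.1 ?_⟩
      exact ge_of_tendsto' (x := atTop)
        (ENNReal.tendsto_inv_nat_nhds_zero.comp (tendsto_add_atTop_nat 1)) h
    rw [hS, hanti.measure_iInter (fun k => (measurableSet_le hg measurable_const).nullMeasurableSet)
      ⟨0, measure_ne_top _ _⟩]
    refine ne_of_gt (lt_of_lt_of_le ?_ (le_iInf fun k => hpos _ ?_ ?_))
    · exact ENNReal.div_pos hD0 (ENNReal.mul_ne_top (by norm_num) hKtop)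
    · simp
    · simp
  -- spread to all sites, then ergodicity
  have hprop : ∀ ω : Env d, Elliptic ω → g ω = 0 → ∀ x, law ω x (escape l)ᶜ = 0 := by
    intro ω hω h0
    have hstep : ∀ x e, law ω x (escape l)ᶜ = 0 → law ω (x + vec e) (escape l)ᶜ = 0 := by
      intro x e hx
      rw [law_step hω x (measurableSet_escape l).compl, Finset.sum_eq_zero_iff] at hx
      have := hx e (Finset.mem_univ e)
      rw [Set.preimage_compl, cons_preimage_escape, mul_eq_zero] at this
      exact this.resolve_left (ENNReal.ofReal_pos.2 ((hω x).1 e)).ne'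
    have hco : ∀ (i : Fin d) (k : ℤ) (x : Site d), law ω x (escape l)ᶜ = 0 →
        law ω (x + Pi.single i k) (escape l)ᶜ = 0 := by
      intro i k
      induction k using Int.induction_on with
      | zero => intro x hx; simpa using hx
      | succ k ih =>
        intro x hx
        have := hstep _ (i, true) (ih x hx)
        rwa [vec, if_pos rfl, add_assoc, ← Pi.single_add] at this
      | pred k ih =>
        intro x hx
        have := hstep _ (i, false) (ih x hx)
        rw [vec, if_neg (by simp), add_assoc, ← Pi.single_add] at this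
        exact this
    intro x
    have : ∀ s : Finset (Fin d), law ω (∑ i ∈ s, Pi.single i (x i)) (escape l)ᶜ = 0 := by
      intro s
      induction s using Finset.induction with
      | empty => simpa using h0
      | insert i s hi ih => rw [Finset.sum_insert hi, add_comm]; exact hco i _ _ ih
    have hx := this Finset.univ
    rwa [Finset.univ_sum_single] at hx
  set Z : Set (Env d) := {ω | ∀ x, law ω x (escape l)ᶜ = 0}
  have hZm : MeasurableSet Z := by
    rw [show Z = ⋂ x, (fun ω => law ω x (escape l)ᶜ) ⁻¹' {0} by ext; simp [Z]]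
    exact MeasurableSet.iInter fun x => measurable_law_apply x (measurableSet_escape l).compl
      (measurableSet_singleton 0)
  set v : Site d := vec (Classical.arbitrary (Fin d), true)
  have hinv : shiftEnv v ⁻¹' Z = Z := by
    have h : ∀ (ω : Env d) (x : Site d),
        law (shiftEnv v ω) x (escape l)ᶜ = law ω (x + v) (escape l)ᶜ := by
      intro ω x
      rw [law_translate ω v x, Measure.map_apply (by fun_prop) (measurableSet_escape l).compl,
        Set.preimage_compl, translate_preimage_escape]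
      rfl
    ext ω
    simp only [Z, Set.mem_preimage, Set.mem_ofPred_eq, h]
    exact ⟨fun hx x => by simpa using hx (x - v), fun hx x => hx _⟩
  have hZ0 : envLaw μ Z ≠ 0 := by
    refine fun h => hinf (measure_mono_null ?_ (measure_union_null h (ae_elliptic μ hμ)))
    intro ω hω
    by_cases hell : Elliptic ω
    · exact Or.inl (hprop ω hell hω)
    · exact Or.inr hell
  have hv : v (Classical.arbitrary (Fin d)) ≠ 0 := by simp [v, vec]
  have hZ1 : ∀ᵐ ω ∂envLaw μ, ω ∈ Z := by
    rcases eventuallyConst_set'.1 ((ergodic_shiftEnv μ hv).aeconst_set hZm hinv) with h | h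
    · exact absurd (ae_eq_empty.1 h) hZ0
    · exact h.mono fun ω hω => (iff_of_eq hω).2 (Set.mem_univ ω)
  filter_upwards [hZ1, ae_elliptic μ hμ] with ω hω hell
  exact ⟨hell, fun x => (prob_compl_eq_zero_iff (measurableSet_escape l)).1 (hω x)⟩

end Vale.Agent.P147.Linear
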