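import Vale.Agent.P147.Linear.Steps
import Vale.Agent.P147.Linear.Count
import Vale.Agent.P147.Linear.Flux

/-!
# Reaching height linear in the number of visited sites needs linearly many records
-/

namespace Vale.Agent.P147.Linear

open MeasureTheory Filter Topology Set Vale.Agent.P147.Balanced
open scoped ENNReal

variable {d : ℕ} {l : Fin d → ℝ}

/-- Height `δ s` is reached while at most `s` sites have been visited. -/
def Reach (l : Fin d → ℝ) (δ : ℝ) (s : ℕ) : Set (ℕ → Site d) :=
  {X | ∃ n : ℕ, (seen (n + 1) X).card ≤ s ∧ δ * s ≤ dot l (X n)}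

lemma measurableSet_Reach (δ : ℝ) (s : ℕ) : MeasurableSet (Reach (d := d) l δ s) := by
  rw [show Reach (d := d) l δ s =
      ⋃ n, {X | (seen (n + 1) X).card ≤ s} ∩ {X | δ * s ≤ dot l (X n)} by ext; simp [Reach]]
  exact MeasurableSet.iUnion fun n =>
    (measurableSet_le (measurable_seen_card (n + 1)) measurable_const).inter
      (measurableSet_le measurable_const (measurable_dot n))

open Classical in
/-- Each record climbs at most one step. -/
lemma dot_le_records {L : ℝ} (hL : 0 ≤ L) {X : ℕ → Site d} (h0 : X 0 = 0)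
    (hs : ∀ n, dot l (X (n + 1)) ≤ dot l (X n) + L) :
    ∀ n, ∀ i ≤ n, dot l (X i) ≤
      L * ((Finset.range (n + 1)).filter fun m => Rec l m X).card := by
  intro n
  induction n with
  | zero =>
    intro i hi
    obtain rfl : i = 0 := by omega
    rw [h0, dot_zero]
    positivity
  | succ n ih =>
    intro i hi
    rw [Finset.range_add_one (n := n + 1), Finset.filter_insert]
    by_cases hR : Rec l (n + 1) X
    · rw [if_pos hR, Finset.card_insert_of_notMem (by simp)]
      push_cast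
      rcases hi.lt_or_eq with hi | rfl
      · have := ih i (by omega); nlinarith
      · have := ih n le_rfl; have := hs n; nlinarith
    · rw [if_neg hR]
      rcases hi.lt_or_eq with hi | rfl
      · exact ih i (by omega)
      · simp only [Rec, not_forall, not_lt] at hR
        obtain ⟨j, hj, hle⟩ := hR
        exact hle.trans (ih j (by omega))

open Classical in
lemma le_recCount {L δ : ℝ} (hL : 0 < L) {s : ℕ} {X : ℕ → Site d} (h0 : X 0 = 0)
    (hs : ∀ n, dot l (X (n + 1)) ≤ dot l (X n) + L) (hX : X ∈ Reach l δ s) :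
    ENNReal.ofReal (δ * s / L) ≤ recCount l s X := by
  obtain ⟨n, hn, hd⟩ := hX
  set F := (Finset.range (n + 1)).filter fun m => Rec l m X with hF
  have hB : ∀ m ∈ F, BRec l s m X := fun m hm => by
    obtain ⟨hm, hR⟩ := Finset.mem_filter.1 hm
    exact ⟨hR, (hR.card_lt (Finset.mem_range.1 hm)).trans_le hn⟩
  calc ENNReal.ofReal (δ * s / L) ≤ ENNReal.ofReal F.card :=
        ENNReal.ofReal_le_ofReal ((div_le_iff₀ hL).2 (hd.trans
          ((dot_le_records hL.le h0 hs n n le_rfl).trans_eq (mul_comm _ _))))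
    _ = ∑ m ∈ F, ({Y : ℕ → Site d | BRec l s m Y}.indicator
          (1 : (ℕ → Site d) → ℝ≥0∞) X) := by
        rw [Finset.sum_congr rfl fun m hm => Set.indicator_of_mem
          (show X ∈ {Y | BRec l s m Y} from hB m hm) (1 : (ℕ → Site d) → ℝ≥0∞)]
        simp
    _ ≤ _ := ENNReal.sum_le_tsum F

variable [Nonempty (Fin d)]

lemma ae_step_le {ω : Env d} (hω : Elliptic ω) (x : Site d) {L : ℝ}
    (hL : ∀ e : Step d, dot l (vec e) ≤ L) :
    ∀ᵐ X ∂law ω x, ∀ n, dot l (X (n + 1)) ≤ dot l (X n) + L := by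
  refine ae_all_iff.2 fun n => ae_iff.2 ?_
  refine measure_mono_null (t := ⋃ a ∈ {a : Fin (n + 1 + 1) → Site d |
    law ω x (pre (n + 1) (ext a)) = 0}, pre (n + 1) (ext a)) (fun X hX => ?_)
    ((measure_biUnion_null_iff (Set.to_countable _)).2 fun a ha => ha)
  refine Set.mem_biUnion (x := res (n + 1) X) ?_ fun i hi => (ext_res_apply hi X).symm
  by_contra hne
  obtain ⟨e, he⟩ := exists_steps_of_pre_ne_zero hω (isQuenchedLaw_law hω x) (n + 1) _ hne
  refine hX ?_
  have h1 := he (n + 1) le_rfl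
  have h2 := he n (Nat.le_succ n)
  rw [ext_res_apply le_rfl] at h1
  rw [ext_res_apply (Nat.le_succ n)] at h2
  rw [h1, h2, pathPos_succ, dot_add]
  exact add_le_add le_rfl (hL _)

variable (μ : Measure (Step d → ℝ)) [IsProbabilityMeasure μ]

/-- Reaching linear height with positive probability gives linearly many records on average. -/
theorem annRec_ge (hμ : ∀ᵐ p ∂μ, (∀ e, 0 < p e) ∧ ∑ e, p e = 1) (hl : l ≠ 0) :
    ∃ L : ℝ, 0 < L ∧ ∀ δ : ℝ, 0 ≤ δ → ∀ s : ℕ,
      ENNReal.ofReal (δ * s / L) * ann μ (Reach l δ s) ≤ annRec μ l s := by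
  obtain ⟨u, hu, hmax⟩ := exists_up hl
  refine ⟨dot l (vec u), hu, fun δ _ s => ?_⟩
  have hL : ∀ e : Step d, dot l (vec e) ≤ dot l (vec u) := fun e => by
    refine le_trans ?_ (hmax e.1)
    rw [dot_vec]
    split_ifs
    · exact le_abs_self _
    · exact neg_le_abs _
  rw [ann, ← lintegral_const_mul _ (measurable_law_apply 0 (measurableSet_Reach δ s)), annRec]
  refine lintegral_mono_ae ?_
  filter_upwards [ae_elliptic μ hμ] with ω hω
  rw [← lintegral_indicator_one (measurableSet_Reach δ s),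
    ← lintegral_const_mul _ (measurable_one.indicator (measurableSet_Reach δ s))]
  refine lintegral_mono_ae ?_
  filter_upwards [ae_law_zero ω 0, ae_step_le hω 0 hL] with X h0 hs
  by_cases hX : X ∈ Reach l δ s
  · simpa [hX] using le_recCount hu h0 hs hX
  · simp [hX]

/-- The hypothesis of the flux argument. -/
theorem frequently_annRec (hμ : ∀ᵐ p ∂μ, (∀ e, 0 < p e) ∧ ∑ e, p e = 1) (hl : l ≠ 0) {δ : ℝ}
    (hδ : 0 < δ) (h : ∃ᶠ s : ℕ in atTop, ENNReal.ofReal δ ≤ ann μ (Reach l δ s)) :
    ∃ δ : ℝ, 0 < δ ∧ ∃ᶠ s : ℕ in atTop, ENNReal.ofReal δ * s ≤ annRec μ l s := by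
  obtain ⟨L, hL, hle⟩ := annRec_ge μ hμ hl
  refine ⟨δ * δ / L, by positivity, h.mono fun s hs => ?_⟩
  refine le_trans (le_of_eq ?_) ((mul_le_mul_right hs _).trans (hle δ hδ.le s))
  rw [← ENNReal.ofReal_natCast s, ← ENNReal.ofReal_mul (by positivity),
    ← ENNReal.ofReal_mul (by positivity)]
  congr 1
  ring

/-- A positive limiting speed gives the hypothesis. -/
theorem frequently_Reach {δ : ℝ} (hδ : 0 < δ)
    (h : ∃ᶠ t : ℕ in atTop, ENNReal.ofReal δ ≤ ann μ {X | δ * t ≤ dot l (X t)}) :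
    ∃ᶠ s : ℕ in atTop, ENNReal.ofReal (δ / 2) ≤ ann μ (Reach l (δ / 2) s) := by
  refine (tendsto_add_atTop_nat 1).frequently (p := fun s => ENNReal.ofReal (δ / 2) ≤
    ann μ (Reach l (δ / 2) s)) ((h.and_eventually (eventually_ge_atTop 1)).mono fun t ht => ?_)
  refine (ENNReal.ofReal_le_ofReal (by linarith)).trans (ht.1.trans (lintegral_mono fun ω =>
    measure_mono fun X hX => ⟨t, Finset.card_image_le.trans (by simp), ?_⟩))
  have ht1 : (1 : ℝ) ≤ t := by exact_mod_cast ht.2
  have hX' : δ * t ≤ dot l (X t) := hX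
  push_cast
  nlinarith

end Vale.Agent.P147.Linear
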