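import Vale.Agent.P147.Linear.Defs
import Vale.Agent.P147.Balanced.Annealed

/-!
# Fresh rows at records, and trials at records
-/

namespace Vale.Agent.P147.Linear

open MeasureTheory Filter Topology Set Vale.Agent.P147.Balanced
open scoped ENNReal symmDiff

variable {d : ℕ} {l : Fin d → ℝ}

lemma dot_add (x y : Site d) : dot l (x + y) = dot l x + dot l y := by
  simp [dot, add_mul, Finset.sum_add_distrib]

lemma measurable_dot (n : ℕ) : Measurable fun X : ℕ → Site d => dot l (X n) :=
  (measurable_of_countable (dot l)).comp (measurable_pi_apply n)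

lemma measurableSet_Rec (m : ℕ) : MeasurableSet {X : ℕ → Site d | Rec l m X} := by
  have : {X : ℕ → Site d | Rec l m X} =
      ⋂ i, ⋂ (_ : i < m), {X | dot l (X i) < dot l (X m)} := by
    ext; simp [Rec]
  rw [this]
  exact MeasurableSet.iInter fun i => MeasurableSet.iInter fun _ =>
    measurableSet_lt (measurable_dot i) (measurable_dot m)

lemma measurableSet_Stay : MeasurableSet (Stay (d := d) l) := by
  have : Stay (d := d) l = ⋂ n, {X | dot l (X 0) ≤ dot l (X n)} := by ext; simp [Stay]
  rw [this]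
  exact MeasurableSet.iInter fun n => measurableSet_le (measurable_dot 0) (measurable_dot n)

lemma measurableSet_Good : MeasurableSet (Good (d := d) l) :=
  measurableSet_Stay.inter (measurableSet_escape l)

lemma shiftP_mem_escape {n : ℕ} {X : ℕ → Site d} : shiftP n X ∈ escape l ↔ X ∈ escape l := by
  simp only [escape, Set.mem_ofPred_eq, shiftP]
  have := tendsto_add_atTop_iff_nat (f := fun i => dot l (X i)) (l := atTop) n
  simpa only [add_comm n] using this

lemma measurableSet_Reg (m : ℕ) : MeasurableSet {X : ℕ → Site d | Reg l m X} :=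
  (measurableSet_Rec m).inter (measurable_shiftP m measurableSet_Good)

lemma measurable_seen_card (m : ℕ) : Measurable fun X : ℕ → Site d => (seen m X).card := by
  have : (fun X : ℕ → Site d => (seen m X).card) =
      (fun v : Fin m → Site d => (Finset.univ.image v).card) ∘ fun X i => X i := by
    funext X
    simp only [Function.comp_def, seen]
    congr 1
    ext z
    simp only [Finset.mem_image, Finset.mem_range, Finset.mem_univ, true_and]
    exact ⟨fun ⟨i, hi, h⟩ => ⟨⟨i, hi⟩, h⟩, fun ⟨i, h⟩ => ⟨i, i.2, h⟩⟩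
  rw [this]
  exact (measurable_of_countable _).comp (by fun_prop)

lemma measurableSet_BRec (s m : ℕ) : MeasurableSet {X : ℕ → Site d | BRec l s m X} :=
  (measurableSet_Rec m).inter (measurableSet_lt (measurable_seen_card m) measurable_const)

lemma measurable_recCount (s : ℕ) : Measurable (recCount (d := d) l s) :=
  Measurable.ennreal_tsum fun m => measurable_one.indicator (measurableSet_BRec s m)

lemma seen_congr {m : ℕ} {X Y : ℕ → Site d} (h : ∀ i < m, X i = Y i) : seen m X = seen m Y :=
  Finset.image_congr fun i hi => h i (Finset.mem_range.1 hi)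

lemma Rec_congr {m : ℕ} {X Y : ℕ → Site d} (h : ∀ i ≤ m, X i = Y i) : Rec l m X ↔ Rec l m Y :=
  forall₂_congr fun i hi => by rw [h i hi.le, h m le_rfl]

lemma BRec_congr {s m : ℕ} {X Y : ℕ → Site d} (h : ∀ i ≤ m, X i = Y i) :
    BRec l s m X ↔ BRec l s m Y :=
  and_congr (Rec_congr h) (by rw [seen_congr fun i hi => h i hi.le])

lemma translate_preimage_Stay (y : Site d) :
    (fun (X : ℕ → Site d) i => X i + y) ⁻¹' Stay l = Stay l := by
  ext X; simp [Stay, dot_add]

lemma translate_preimage_Good (y : Site d) :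
    (fun (X : ℕ → Site d) i => X i + y) ⁻¹' Good l = Good l := by
  rw [Good, Set.preimage_inter, translate_preimage_Stay, translate_preimage_escape]

/-- A walk started at a record, not going below it, does not meet the rows of the past. -/
lemma notMem_seen_of_stay {n : ℕ} {γ X : ℕ → Site d} (hγ : Rec l n γ) (h0 : X 0 = γ n)
    (hX : X ∈ Stay l) (k : ℕ) : X k ∉ seen n γ := by
  intro h
  obtain ⟨i, hi, he⟩ := Finset.mem_image.1 h
  have h1 := hX k
  rw [h0, ← he] at h1
  exact absurd (hγ i (Finset.mem_range.1 hi)) (not_lt.2 h1)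

variable [Nonempty (Fin d)]

/-- A prefix event whose paths leave only sites of `S` reads only the rows of `S`. -/
theorem law_congr_prefix {ω ω' : Env d} (x : Site d) {n : ℕ} {B : Set (ℕ → Site d)}
    (hB : MeasurableSet B) (hBp : Prefix n fun X => X ∈ B) {S : Set (Site d)}
    (hBS : ∀ X ∈ B, ∀ i < n, X i ∈ S) (h : ∀ z ∈ S, ω z = ω' z) :
    law ω x B = law ω' x B := by
  classical
  have hp : Prefix n (B.indicator (1 : (ℕ → Site d) → ℝ≥0∞)) := fun X Y hXY => by
    have : X ∈ B ↔ Y ∈ B := iff_of_eq (hBp X Y hXY)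
    by_cases hX : X ∈ B
    · simp [hX, this.1 hX]
    · simp [hX, mt this.2 hX]
  rw [← lintegral_indicator_one hB, ← lintegral_indicator_one hB, lintegral_prefix _ hp,
    lintegral_prefix _ hp]
  refine tsum_congr fun a => ?_
  by_cases ha : ext a ∈ B
  · rw [law_pre_congr x fun i hi => h _ (hBS _ ha i hi)]
  · simp [ha]

variable (μ : Measure (Step d → ℝ)) [IsProbabilityMeasure μ]

omit [Nonempty (Fin d)] in
lemma ae_elliptic (hμ : ∀ᵐ p ∂μ, (∀ e, 0 < p e) ∧ ∑ e, p e = 1) :
    ∀ᵐ ω ∂envLaw μ, Elliptic ω :=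
  ae_all_iff.2 fun x =>
    (measurePreserving_eval_infinitePi (fun _ : Site d => μ) x).quasiMeasurePreserving.ae hμ

/-- The annealed law is translation covariant. -/
theorem lintegral_law_eq_ann (y : Site d) {B : Set (ℕ → Site d)} (hB : MeasurableSet B) :
    ∫⁻ ω, law ω y B ∂envLaw μ = ann μ ((fun (X : ℕ → Site d) i => X i + y) ⁻¹' B) := by
  have hm : Measurable fun (X : ℕ → Site d) i => X i + y := by fun_prop
  calc ∫⁻ ω, law ω y B ∂envLaw μ
      = ∫⁻ ω, law (shiftEnv y ω) 0 ((fun (X : ℕ → Site d) i => X i + y) ⁻¹' B) ∂envLaw μ := by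
        refine lintegral_congr fun ω => ?_
        conv_lhs => rw [← zero_add y, law_translate ω y 0]
        rw [Measure.map_apply hm hB]
        rfl
    _ = _ := (measurePreserving_shiftEnv μ y).lintegral_comp (measurable_law_apply 0 (hm hB))

/-- The law of the path under the annealed measure. -/
noncomputable def annM : Measure (ℕ → Site d) := (annealed μ).map Prod.snd

instance : IsProbabilityMeasure (annM μ) :=
  Measure.isProbabilityMeasure_map measurable_snd.aemeasurable

theorem ann_eq {B : Set (ℕ → Site d)} (hB : MeasurableSet B) : ann μ B = annM μ B := by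
  have hm : Measurable fun q : Env d × (ℕ → Site d) =>
      B.indicator (1 : (ℕ → Site d) → ℝ≥0∞) q.2 :=
    (measurable_const.indicator hB).comp measurable_snd
  rw [← lintegral_indicator_one hB, annM,
    lintegral_map (measurable_one.indicator hB) measurable_snd, lintegral_annealed μ hm]
  exact lintegral_congr fun ω => (lintegral_indicator_one hB).symm

theorem lintegral_annM {F : (ℕ → Site d) → ℝ≥0∞} (hF : Measurable F) :
    ∫⁻ X, F X ∂annM μ = ∫⁻ ω, ∫⁻ X, F X ∂law ω 0 ∂envLaw μ := by
  rw [annM, lintegral_map hF measurable_snd, lintegral_annealed μ (F := fun q => F q.2)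
    (hF.comp measurable_snd)]

/-- A future that avoids the rows of the past is independent of it. -/
theorem fresh (hμ : ∀ᵐ p ∂μ, (∀ e, 0 < p e) ∧ ∑ e, p e = 1) (n : ℕ) (γ : ℕ → Site d) (x : Site d)
    {B : Set (ℕ → Site d)} (hB : MeasurableSet B) (hBS : ∀ X ∈ B, ∀ k, X k ∉ seen n γ) :
    ∫⁻ ω, law ω x (pre n γ ∩ shiftP n ⁻¹' B) ∂envLaw μ =
      (∫⁻ ω, law ω x (pre n γ) ∂envLaw μ) * ∫⁻ ω, law ω (γ n) B ∂envLaw μ := by
  have hB' : ({X : ℕ → Site d | ∀ k, X k ∉ (↑(seen n γ) : Set (Site d))} ∩ B) = B :=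
    Set.inter_eq_right.2 fun X hX k => by simpa using hBS X hX k
  rw [← lintegral_mul_of_local μ (seen n γ) (measurable_law_apply x (measurableSet_pre n γ))
    (measurable_law_apply (γ n) hB)]
  · refine lintegral_congr_ae ?_
    filter_upwards [ae_elliptic μ hμ] with ω hω
    rw [Set.inter_comm, law_markov hω hB]
  · exact fun ω ω' h => law_pre_congr x fun i hi =>
      h _ (Finset.mem_image_of_mem _ (Finset.mem_range.2 hi))
  · intro ω ω' h
    rw [← hB']
    exact law_avoid_congr (γ n) hB fun z hz => h z (by simpa using hz)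

/-- At a record the walk escapes without returning below it with probability `ann μ (Good l)`. -/
theorem fresh_good (hμ : ∀ᵐ p ∂μ, (∀ e, 0 < p e) ∧ ∑ e, p e = 1) {n : ℕ} {γ : ℕ → Site d}
    (x : Site d) (hγ : Rec l n γ) :
    ∫⁻ ω, law ω x (pre n γ ∩ shiftP n ⁻¹' Good l) ∂envLaw μ =
      (∫⁻ ω, law ω x (pre n γ) ∂envLaw μ) * ann μ (Good l) := by
  set B : Set (ℕ → Site d) := {X | X 0 = γ n} ∩ Good l
  have hB : MeasurableSet B :=
    (show MeasurableSet ((fun X : ℕ → Site d => X 0) ⁻¹' {γ n}) from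
      measurable_pi_apply 0 (measurableSet_singleton (γ n))).inter measurableSet_Good
  have hset : pre n γ ∩ shiftP n ⁻¹' Good l = pre n γ ∩ shiftP n ⁻¹' B := by
    ext X
    simp only [B, Set.mem_inter_iff, Set.mem_preimage, Set.mem_ofPred_eq]
    exact ⟨fun h => ⟨h.1, by simpa [shiftP] using h.1 n le_rfl, h.2⟩, fun h => ⟨h.1, h.2.2⟩⟩
  rw [hset, fresh μ hμ n γ x hB fun X hX => notMem_seen_of_stay hγ hX.1 hX.2.1]
  congr 1
  rw [← translate_preimage_Good (l := l) (γ n), ← lintegral_law_eq_ann μ (γ n) measurableSet_Good]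
  refine lintegral_congr fun ω => measure_congr ?_
  filter_upwards [ae_law_zero ω (γ n)] with X hX
  exact propext ⟨fun h => h.2, fun h => ⟨hX, h⟩⟩

/-- Splitting an annealed probability along the first `n + 1` sites. -/
theorem ann_eq_tsum_pre {B : Set (ℕ → Site d)} (hB : MeasurableSet B) (n : ℕ) :
    ann μ B = ∑' a : Fin (n + 1) → Site d, ann μ (pre n (ext a) ∩ B) := by
  rw [ann_eq μ hB, ← lintegral_indicator_one hB, lintegral_eq_tsum _ n]
  refine tsum_congr fun a => ?_
  rw [ann_eq μ ((measurableSet_pre _ _).inter hB), ← lintegral_indicator (measurableSet_pre _ _),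
    ← lintegral_indicator_one ((measurableSet_pre _ _).inter hB)]
  refine lintegral_congr fun X => ?_
  rw [Set.indicator_indicator]

/-- A prefix event on which `n` is a record, followed by an escape. -/
theorem ann_inter_good (hμ : ∀ᵐ p ∂μ, (∀ e, 0 < p e) ∧ ∑ e, p e = 1) {n : ℕ}
    {E : Set (ℕ → Site d)} (hE : MeasurableSet E) (hEp : Prefix n fun X => X ∈ E)
    (hER : ∀ X ∈ E, Rec l n X) :
    ann μ (E ∩ shiftP n ⁻¹' Good l) = ann μ E * ann μ (Good l) := by
  classical
  rw [ann_eq_tsum_pre μ (hE.inter (measurable_shiftP n measurableSet_Good)) n,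
    ann_eq_tsum_pre μ hE n, ← ENNReal.tsum_mul_right]
  refine tsum_congr fun a => ?_
  by_cases ha : ext a ∈ E
  · have h1 : pre n (ext a) ∩ E = pre n (ext a) :=
      Set.inter_eq_left.2 fun X hX => (iff_of_eq (hEp X (ext a) hX)).2 ha
    rw [← Set.inter_assoc, h1]
    exact fresh_good μ hμ 0 (hER _ ha)
  · have h1 : pre n (ext a) ∩ E = ∅ := Set.eq_empty_of_forall_notMem fun X hX =>
      ha ((iff_of_eq (hEp X (ext a) hX.1)).1 hX.2)
    rw [← Set.inter_assoc, h1]
    simp [ann]

/-- An event with records arbitrarily late, and no regeneration after time zero, is null. -/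
theorem null_of_records (hμ : ∀ᵐ p ∂μ, (∀ e, 0 < p e) ∧ ∑ e, p e = 1)
    (hq : ann μ (Good l) ≠ 0) {B : Set (ℕ → Site d)} (hB : MeasurableSet B)
    (hrec : ∀ X ∈ B, ∀ N, ∃ m, N < m ∧ Rec l m X) (hreg : ∀ X ∈ B, ∀ m, 0 < m → ¬Reg l m X) :
    ann μ B = 0 := by
  classical
  set q := ann μ (Good l)
  have hqtop : q ≠ ⊤ := by
    rw [show q = annM μ (Good l) from ann_eq μ measurableSet_Good]
    exact measure_ne_top _ _
  have key : ∀ ε : ℝ, 0 < ε → q * annM μ B ≤ (q + 1) * ENNReal.ofReal ε := by
    intro ε hε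
    obtain ⟨S, hS, hSB⟩ := (Measure.MeasureDense.of_generateFrom_isSetAlgebra_finite (μ := annM μ)
      (isSetAlgebra_measurableCylinders (α := fun _ : ℕ => Site d))
      generateFrom_measurableCylinders.symm).approx B hB (measure_ne_top _ _) ε hε
    obtain ⟨I, T, hT, rfl⟩ := (mem_measurableCylinders _).1 hS
    set n := I.sup id
    set C := cylinder (α := fun _ : ℕ => Site d) I T
    have hC : MeasurableSet C := hT.cylinder I
    have hCp : ∀ X Y : ℕ → Site d, (∀ i ≤ n, X i = Y i) → (X ∈ C ↔ Y ∈ C) := fun X Y hXY => by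
      have : I.restrict X = I.restrict Y := funext fun i => hXY i (Finset.le_sup (f := id) i.2)
      simp only [C, mem_cylinder, this]
    set E : ℕ → Set (ℕ → Site d) := fun r =>
      C ∩ {X | n < r ∧ Rec l r X ∧ ∀ j, n < j → j < r → ¬Rec l j X}
    have hEp : ∀ r, Prefix r fun X => X ∈ E r := fun r X Y hXY => propext <| by
      simp only [E, Set.mem_inter_iff, Set.mem_ofPred_eq]
      constructor
      · rintro ⟨hX, hr, h1, h2⟩
        exact ⟨(hCp X Y fun i hi => hXY i (hi.trans hr.le)).1 hX, hr, (Rec_congr hXY).1 h1,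
          fun j hj hjr h => h2 j hj hjr ((Rec_congr fun i hi => hXY i (hi.trans hjr.le)).2 h)⟩
      · rintro ⟨hX, hr, h1, h2⟩
        exact ⟨(hCp X Y fun i hi => hXY i (hi.trans hr.le)).2 hX, hr, (Rec_congr hXY).2 h1,
          fun j hj hjr h => h2 j hj hjr ((Rec_congr fun i hi => hXY i (hi.trans hjr.le)).1 h)⟩
    have hEm : ∀ r, MeasurableSet (E r) := fun r => by
      have : E r = C ∩ ((if n < r then Set.univ else ∅) ∩ {X | Rec l r X} ∩
          ⋂ j, ⋂ (_ : n < j), ⋂ (_ : j < r), {X | Rec l j X}ᶜ) := by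
        ext X
        by_cases hr : n < r <;> simp [E, hr]
      rw [this]
      refine hC.inter (MeasurableSet.inter (MeasurableSet.inter ?_ (measurableSet_Rec r)) ?_)
      · split_ifs <;> simp
      · exact MeasurableSet.iInter fun j => MeasurableSet.iInter fun _ =>
          MeasurableSet.iInter fun _ => (measurableSet_Rec j).compl
    have hdisj : Pairwise fun r r' => Disjoint (E r) (E r') := by
      intro r r' hne
      refine Set.disjoint_left.2 fun X hX hX' => ?_
      rcases lt_or_gt_of_ne hne with h | h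
      · exact hX'.2.2.2 r hX.2.1 h hX.2.2.1
      · exact hX.2.2.2 r' hX'.2.1 h hX'.2.2.1
    have hcover : C ∩ B ⊆ ⋃ r, E r := fun X hX => by
      have hex := hrec X hX.2 n
      exact Set.mem_iUnion.2 ⟨Nat.find hex, hX.1, (Nat.find_spec hex).1, (Nat.find_spec hex).2,
        fun j hj hjr hR => Nat.find_min hex hjr ⟨hj, hR⟩⟩
    have hGood : (⋃ r, E r ∩ shiftP r ⁻¹' Good l) ⊆ C \ B := by
      intro X hX
      obtain ⟨r, hr, hg⟩ := Set.mem_iUnion.1 hX
      exact ⟨hr.1, fun hXB => hreg X hXB r (by have := hr.2.1; omega) ⟨hr.2.2.1, hg⟩⟩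
    have hsum : q * annM μ (⋃ r, E r) = annM μ (⋃ r, E r ∩ shiftP r ⁻¹' Good l) := by
      rw [measure_iUnion hdisj hEm, measure_iUnion, ← ENNReal.tsum_mul_left]
      · refine tsum_congr fun r => ?_
        rw [← ann_eq μ (hEm r), ← ann_eq μ ((hEm r).inter (measurable_shiftP r measurableSet_Good)),
          ann_inter_good μ hμ (hEm r) (hEp r) fun X hX => hX.2.2.1, mul_comm]
      · exact fun r r' h => (hdisj h).mono Set.inter_subset_left Set.inter_subset_left
      · exact fun r => (hEm r).inter (measurable_shiftP r measurableSet_Good)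
    have hB' : annM μ B ≤ annM μ (⋃ r, E r) + annM μ (B ∆ C) := by
      refine le_trans (measure_mono fun X hX => ?_) (measure_union_le _ _)
      by_cases hXC : X ∈ C
      · exact Or.inl (hcover ⟨hXC, hX⟩)
      · exact Or.inr (Or.inl ⟨hX, hXC⟩)
    calc q * annM μ B ≤ q * (annM μ (⋃ r, E r) + annM μ (B ∆ C)) := mul_le_mul_right hB' q
      _ ≤ annM μ (B ∆ C) + q * annM μ (B ∆ C) := by
          rw [mul_add, hsum]
          exact add_le_add (measure_mono (hGood.trans fun X hX => Or.inr hX)) le_rfl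
      _ ≤ (q + 1) * ENNReal.ofReal ε := by
          rw [add_comm, add_mul, one_mul]
          exact add_le_add (mul_le_mul_right hSB.le q) hSB.le
  have h0 : q * annM μ B ≤ 0 := by
    have hlim : Tendsto (fun k : ℕ => (q + 1) * ENNReal.ofReal (1 / (k + 1 : ℝ))) atTop (𝓝 0) := by
      have h := ENNReal.Tendsto.const_mul (a := q + 1) (ENNReal.continuous_ofReal.tendsto 0 |>.comp
        tendsto_one_div_add_atTop_nhds_zero_nat) (Or.inr (by simp [hqtop]))
      simpa using h
    exact ge_of_tendsto' hlim fun k => key _ (by positivity)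
  rw [ann_eq μ hB]
  exact (mul_eq_zero.1 (nonpos_iff_eq_zero.1 h0)).resolve_left hq

/-- An escape with positive probability gives an escape without return with positive probability. -/
theorem good_ne_zero (hμ : ∀ᵐ p ∂μ, (∀ e, 0 < p e) ∧ ∑ e, p e = 1)
    (hA : ann μ (escape l) ≠ 0) : ann μ (Good l) ≠ 0 := by
  intro hq
  refine hA ?_
  have hsub : escape l ⊆ ⋃ n, shiftP n ⁻¹' Good (d := d) l := by
    intro X hX
    obtain ⟨N, hN⟩ := (Filter.eventually_atTop.1 (Filter.tendsto_atTop.1 hX (dot l (X 0))))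
    obtain ⟨n, -, hn⟩ := Finset.exists_min_image (Finset.range (N + 1)) (fun i => dot l (X i))
      ⟨0, by simp⟩
    refine Set.mem_iUnion.2 ⟨n, fun k => ?_, shiftP_mem_escape.2 hX⟩
    simp only [shiftP, add_zero]
    by_cases hk : n + k ≤ N
    · exact hn _ (Finset.mem_range.2 (by omega))
    · exact (hn 0 (by simp)).trans (hN _ (by omega))
  rw [ann_eq μ (measurableSet_escape l)]
  refine measure_mono_null hsub (measure_iUnion_null fun n => ?_)
  rw [← ann_eq μ (measurable_shiftP n measurableSet_Good),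
    ann_eq_tsum_pre μ (measurable_shiftP n measurableSet_Good) n]
  refine ENNReal.tsum_eq_zero.2 fun a => ?_
  have h1 : ∫⁻ ω, law ω (ext a n) (Good l) ∂envLaw μ = 0 := by
    rw [lintegral_law_eq_ann μ _ measurableSet_Good, translate_preimage_Good, hq]
  have h2 := (lintegral_eq_zero_iff (measurable_law_apply _ measurableSet_Good)).1 h1
  refine (lintegral_eq_zero_iff (measurable_law_apply _
    ((measurableSet_pre _ _).inter (measurable_shiftP n measurableSet_Good)))).2 ?_
  filter_upwards [h2, ae_elliptic μ hμ] with ω hω hell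
  rw [Set.inter_comm, law_markov hell measurableSet_Good, hω]
  simp

end Vale.Agent.P147.Linear
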