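import Vale.Agent.P147.Balanced.Quenched

/-!
# Records, regenerations and blocks

Definitions and the statements of the parts of the proof that, in four and more dimensions, a number
of records linear in the number of visited sites forces the directional zero-one law.
-/

namespace Vale.Agent.P147.Linear

open MeasureTheory Filter Topology Vale.Agent.P147.Balanced
open scoped ENNReal

variable {d : ℕ}

/-- `m` is a strict record time in direction `l`. -/
def Rec (l : Fin d → ℝ) (m : ℕ) (X : ℕ → Site d) : Prop :=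
  ∀ i < m, dot l (X i) < dot l (X m)

/-- The sites visited before time `m`. -/
def seen (m : ℕ) (X : ℕ → Site d) : Finset (Site d) := (Finset.range m).image X

/-- `m` is a record time whose site is among the first `s` distinct sites. -/
def BRec (l : Fin d → ℝ) (s m : ℕ) (X : ℕ → Site d) : Prop :=
  Rec l m X ∧ (seen m X).card < s

/-- The number of records among the first `s` distinct sites. -/
noncomputable def recCount (l : Fin d → ℝ) (s : ℕ) (X : ℕ → Site d) : ℝ≥0∞ :=
  ∑' m, {Y | BRec l s m Y}.indicator 1 X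

/-- The path never goes below its starting height. -/
def Stay (l : Fin d → ℝ) : Set (ℕ → Site d) := {X | ∀ n, dot l (X 0) ≤ dot l (X n)}

/-- The path never goes below its start and escapes in direction `l`. -/
def Good (l : Fin d → ℝ) : Set (ℕ → Site d) := Stay l ∩ escape l

/-- `m` is a regeneration time. -/
def Reg (l : Fin d → ℝ) (m : ℕ) (X : ℕ → Site d) : Prop := Rec l m X ∧ shiftP m X ∈ Good l

/-- A finite path from the origin between two consecutive regenerations. -/
def Block (l : Fin d → ℝ) (n : ℕ) (γ : ℕ → Site d) : Prop :=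
  0 < n ∧ γ 0 = 0 ∧ (∀ i ≤ n, 0 ≤ dot l (γ i)) ∧ Rec l n γ ∧
    ∀ j, 0 < j → j < n → Rec l j γ → ∃ i, j ≤ i ∧ i ≤ n ∧ dot l (γ i) < dot l (γ j)

section Annealed

variable [Nonempty (Fin d)] (μ : Measure (Step d → ℝ))

/-- The annealed probability, from the origin. -/
noncomputable def ann (B : Set (ℕ → Site d)) : ℝ≥0∞ := ∫⁻ ω, law ω 0 B ∂envLaw μ

/-- The annealed number of records among the first `s` distinct sites. -/
noncomputable def annRec (l : Fin d → ℝ) (s : ℕ) : ℝ≥0∞ :=
  ∫⁻ ω, ∫⁻ X, recCount l s X ∂law ω 0 ∂envLaw μ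

/-- The annealed weight of a finite path. -/
noncomputable def wt (n : ℕ) (a : Fin (n + 1) → Site d) : ℝ≥0∞ := ann μ (pre n (ext a))

open Classical in
/-- The law of the endpoint of a block. -/
noncomputable def endLaw (l : Fin d → ℝ) (z : Site d) : ℝ≥0∞ :=
  ∑' n : ℕ, ∑' a : Fin (n + 1) → Site d,
    if Block l n (ext a) ∧ ext a n = z then wt μ n a else 0

open Classical in
/-- The mean number of blocks through a site. -/
noncomputable def blockMass (l : Fin d → ℝ) (z : Site d) : ℝ≥0∞ :=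
  ∑' n : ℕ, ∑' a : Fin (n + 1) → Site d,
    if Block l n (ext a) ∧ z ∈ seen n (ext a) then wt μ n a else 0

/-- Two independent walks in one environment stay above the origin and share only the origin. -/
noncomputable def eta (l : Fin d → ℝ) : ℝ≥0∞ :=
  ∫⁻ ω, ((law ω 0).prod (law ω 0))
    ({q | q.1 ∈ Stay l ∧ q.2 ∈ Stay l ∧ ∀ i j, q.1 i = q.2 j → q.1 i = 0}) ∂envLaw μ

end Annealed

/-- The Green function of a renewal sequence with increments of positive height, spanning `d ≥ 4`
dimensions, is square summable. -/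
def GreenPin (d : ℕ) : Prop :=
  4 ≤ d → ∀ (l : Fin d → ℝ) (a : Site d → ℝ≥0∞), ∑' z, a z ≤ 1 →
    (∀ z, a z ≠ 0 → 0 < dot l z) → ∀ y y' : Fin d → Site d,
    (∀ c, a (y c) ≠ 0 ∧ a (y' c) ≠ 0) → LinearIndependent ℤ (fun c => y c - y' c) →
    ∃ G : Site d → ℝ≥0∞, (∀ z, G z = (if z = 0 then 1 else 0) + ∑' w, a w * G (z - w)) ∧
      ∑' z, G z ^ 2 ≠ ⊤

/-- The correlations of a summable by square summable convolution vanish at infinity. -/
def CorrPin (d : ℕ) : Prop :=
  ∀ G b : Site d → ℝ≥0∞, ∑' z, G z ^ 2 ≠ ⊤ → ∑' z, b z ≠ ⊤ →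
    Tendsto (fun v : Site d => ∑' z, (∑' w, b w * G (z - w)) * (∑' w, b w * G (z - v - w)))
      cofinite (𝓝 0)

variable [Nonempty (Fin d)]

/-- The mean number of sites of a block is finite. -/
def MomentPin (μ : Measure (Step d → ℝ)) (l : Fin d → ℝ) : Prop :=
  ann μ (Good l) ≠ 0 → (∃ δ : ℝ, 0 < δ ∧ ∃ᶠ s : ℕ in atTop, ENNReal.ofReal δ * s ≤ annRec μ l s) →
    ∑' z, blockMass μ l z ≠ ⊤

/-- Disjointness of two walks in four and more dimensions. -/
def EtaPin (μ : Measure (Step d → ℝ)) (l : Fin d → ℝ) : Prop :=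
  4 ≤ d → ann μ (Good l) ≠ 0 → ∑' z, blockMass μ l z ≠ ⊤ → eta μ l ≠ 0

/-- The second moment of the flux of records. -/
def FluxPin (μ : Measure (Step d → ℝ)) (l : Fin d → ℝ) : Prop :=
  ann μ (Good l) ≠ 0 → eta μ l ≠ 0 →
    (∃ δ : ℝ, 0 < δ ∧ ∃ᶠ s : ℕ in atTop, ENNReal.ofReal δ * s ≤ annRec μ l s) →
    ∀ᵐ ω ∂envLaw μ, Elliptic ω ∧ ∀ x, law ω x (escape l) = 1

end Vale.Agent.P147.Linear
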