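import Vale.Agent.P147.Linear.GreenAux

/-!
# The Green function of a renewal sequence with positive heights is square summable for `d ≥ 4`
-/

namespace Vale.Agent.P147.Linear

open MeasureTheory Filter Topology GreenAux
open scoped ENNReal

variable {d : ℕ}

namespace GreenAux

/-- The indicator of a height interval of unit length. -/
noncomputable def bin (t h : ℝ) : ℝ≥0∞ := if t ≤ h ∧ h < t + 1 then 1 else 0

/-- The Green function. -/
noncomputable def green (a : Site d → ℝ≥0∞) (z : Site d) : ℝ≥0∞ := ∑' k, pw a k z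

theorem green_eq (a : Site d → ℝ≥0∞) (z : Site d) :
    green a z = (if z = 0 then 1 else 0) + ∑' w, a w * green a (z - w) := by
  rw [green, tsum_eq_zero_add' ENNReal.summable]
  congr 1
  simp only [pw, cv, green]
  rw [ENNReal.tsum_comm]
  simp only [ENNReal.tsum_mul_left]

/-- Every height interval of length one has bounded Green mass. -/
theorem exists_bin_bound (l : Fin d → ℝ) (a : Site d → ℝ≥0∞) (ha : tot a ≤ 1)
    (hpos : ∀ z, a z ≠ 0 → 0 < dot l z) {y : Site d} (hy : a y ≠ 0) :
    ∃ C : ℝ≥0∞, C ≠ ⊤ ∧ ∀ t : ℝ, ∑' z, green a z * bin t (dot l z) ≤ C := by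
  set L := dot l y with hLdef
  have hL : 0 < L := hpos y hy
  set K : ℕ := ⌈1 / L⌉₊ with hK
  have hyt : a y ≠ ⊤ :=
    ne_top_of_le_ne_top ENNReal.one_ne_top ((ENNReal.le_tsum y).trans ha)
  refine ⟨(a y)⁻¹ * K, ENNReal.mul_ne_top (ENNReal.inv_ne_top.2 hy) (ENNReal.natCast_ne_top K),
    fun t => ?_⟩
  set F : ℝ → ℕ := fun h => min K ⌈(t + 1 - h) / L⌉₊ with hF
  have hmono : ∀ h h', h ≤ h' → F h' ≤ F h := by
    intro h h' hle
    exact min_le_min le_rfl (Nat.ceil_mono (by gcongr))
  have hstep : ∀ h, (∑' u, a u * (F (h + dot l u) : ℝ≥0∞)) + a y * bin t h ≤ F h := by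
    intro h
    have hterm : ∀ u, a u * (F (h + dot l u) : ℝ≥0∞) + (if u = y then a y * bin t h else 0)
        ≤ a u * (F h : ℝ≥0∞) := by
      intro u
      split_ifs with hu
      · subst hu
        rw [← mul_add]
        gcongr
        rw [bin]
        split_ifs with hb
        · have hle : (t + 1 - h) / L ≤ 1 / L := by
            gcongr
            linarith [hb.1]
          have hx : 0 < (t + 1 - h) / L := div_pos (by linarith [hb.2]) hL
          have e : (t + 1 - (h + dot l u)) / L = (t + 1 - h) / L - 1 := by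
            rw [← hLdef]
            field_simp
            ring
          have h1 : F (h + dot l u) + 1 ≤ F h := by
            simp only [hF]
            rw [e, Nat.ceil_sub_one, min_eq_right (Nat.ceil_mono hle : _ ≤ K),
              min_eq_right ((Nat.sub_le _ _).trans (Nat.ceil_mono hle : _ ≤ K))]
            have := Nat.ceil_pos.2 hx
            omega
          exact_mod_cast h1
        · rw [add_zero]
          exact_mod_cast hmono h (h + dot l u) (by linarith)
      · rw [add_zero]
        rcases eq_or_ne (a u) 0 with h0 | h0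
        · simp [h0]
        gcongr
        exact_mod_cast hmono h (h + dot l u) (by linarith [hpos u h0])
    calc (∑' u, a u * (F (h + dot l u) : ℝ≥0∞)) + a y * bin t h
        = ∑' u, (a u * (F (h + dot l u) : ℝ≥0∞) + if u = y then a y * bin t h else 0) := by
          rw [ENNReal.tsum_add, tsum_ite_eq]
      _ ≤ ∑' u, a u * (F h : ℝ≥0∞) := ENNReal.tsum_le_tsum hterm
      _ ≤ F h := by
          rw [ENNReal.tsum_mul_right]
          exact (mul_le_mul' ha le_rfl).trans_eq (one_mul _)
  have hU : ∀ N : ℕ, ∀ x : Site d,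
      a y * ∑ k ∈ Finset.range N, ∑' z, pw a k z * bin t (dot l (x + z)) ≤ F (dot l x) := by
    intro N
    induction N with
    | zero => intro x; simp
    | succ N ih =>
      intro x
      have h0 : ∑' z, pw a 0 z * bin t (dot l (x + z)) = bin t (dot l x) := by
        rw [tsum_eq_single (0 : Site d) fun z hz => by simp [pw, pt, hz]]
        simp [pw, pt]
      have hk : ∀ k, ∑' z, pw a (k + 1) z * bin t (dot l (x + z)) =
          ∑' u, a u * ∑' z, pw a k z * bin t (dot l (x + u + z)) := by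
        intro k
        simp only [pw, cv, ← ENNReal.tsum_mul_right]
        rw [ENNReal.tsum_comm]
        refine tsum_congr fun u => ?_
        rw [← ENNReal.tsum_mul_left,
          ← tsum_shift (fun z => a u * (pw a k z * bin t (dot l (x + u + z)))) u]
        refine tsum_congr fun z => ?_
        rw [show x + u + (z - u) = x + z by abel, mul_assoc]
      rw [Finset.sum_range_succ', h0, Finset.sum_congr rfl fun k _ => hk k,
        ← Summable.tsum_finsetSum fun k _ => ENNReal.summable, mul_add, ← ENNReal.tsum_mul_left]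
      refine le_trans (add_le_add_left ?_ _) (hstep (dot l x))
      refine ENNReal.tsum_le_tsum fun u => ?_
      rw [← Finset.mul_sum, mul_left_comm]
      gcongr
      rw [← dot_add]
      exact ih (x + u)
  have hall : a y * ∑' z, green a z * bin t (dot l z) ≤ K := by
    have hsum : ∑' z, green a z * bin t (dot l z) = ∑' k, ∑' z, pw a k z * bin t (dot l z) := by
      simp only [green, ← ENNReal.tsum_mul_right]
      rw [ENNReal.tsum_comm]
    rw [hsum, ENNReal.tsum_eq_iSup_nat, ENNReal.mul_iSup]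
    refine iSup_le fun N => ?_
    have h := hU N 0
    simp only [zero_add] at h
    refine h.trans ?_
    exact_mod_cast min_le_left K _
  calc ∑' z, green a z * bin t (dot l z)
      = (a y)⁻¹ * (a y * ∑' z, green a z * bin t (dot l z)) := by
        rw [← mul_assoc, ENNReal.inv_mul_cancel hy hyt, one_mul]
    _ ≤ _ := by gcongr

/-- The largest `G`-weighted mass of a translate of `p`. -/
noncomputable def conc (G p : Site d → ℝ≥0∞) : ℝ≥0∞ := ⨆ r, ∑' z, G z * p (z - r)

theorem conc_cv_le (G f p : Site d → ℝ≥0∞) : conc G (cv f p) ≤ tot f * conc G p := by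
  refine iSup_le fun r => ?_
  calc ∑' z, G z * cv f p (z - r) = ∑' w, f w * ∑' z, G z * p (z - (r + w)) := by
        simp only [cv, ← ENNReal.tsum_mul_left]
        rw [ENNReal.tsum_comm]
        refine tsum_congr fun w => tsum_congr fun z => ?_
        rw [show z - r - w = z - (r + w) by abel, mul_left_comm]
    _ ≤ ∑' w, f w * conc G p :=
        ENNReal.tsum_le_tsum fun w => mul_le_mul' le_rfl
          (le_iSup (fun r => ∑' z, G z * p (z - r)) (r + w))
    _ = _ := ENNReal.tsum_mul_right

theorem conc_add_le (G : Site d → ℝ≥0∞) {f g h : Site d → ℝ≥0∞} {c : ℝ≥0∞}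
    (hf : ∀ z, f z = c * g z + h z) : conc G f ≤ c * conc G g + conc G h := by
  refine iSup_le fun r => ?_
  calc ∑' z, G z * f (z - r)
      = c * (∑' z, G z * g (z - r)) + ∑' z, G z * h (z - r) := by
        rw [← ENNReal.tsum_mul_left, ← ENNReal.tsum_add]
        refine tsum_congr fun z => ?_
        rw [hf, mul_add, mul_left_comm]
    _ ≤ _ := add_le_add
        (mul_le_mul' le_rfl (le_iSup (fun r => ∑' z, G z * g (z - r)) r))
        (le_iSup (fun r => ∑' z, G z * h (z - r)) r)

theorem le_of_bins {G : Site d → ℝ≥0∞} {l : Fin d → ℝ} {C : ℝ≥0∞}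
    (hC : ∀ t : ℝ, ∑' z, G z * bin t (dot l z) ≤ C) (z : Site d) : G z ≤ C := by
  refine le_trans (le_of_eq ?_) ((ENNReal.le_tsum z).trans (hC (dot l z)))
  simp [bin]

theorem conc_le_tot {G : Site d → ℝ≥0∞} {l : Fin d → ℝ} {C : ℝ≥0∞}
    (hC : ∀ t : ℝ, ∑' z, G z * bin t (dot l z) ≤ C) (p : Site d → ℝ≥0∞) :
    conc G p ≤ C * tot p := by
  refine iSup_le fun r => ?_
  rw [tot, ← tsum_shift p r, ← ENNReal.tsum_mul_left]
  exact ENNReal.tsum_le_tsum fun z => mul_le_mul' (le_of_bins hC z) le_rfl

/-- A height shell of width `R` has mass at most `2 (R + 1) C`. -/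
theorem shell_le {G : Site d → ℝ≥0∞} {l : Fin d → ℝ} {C : ℝ≥0∞}
    (hC : ∀ t : ℝ, ∑' z, G z * bin t (dot l z) ≤ C) (r : Site d) {R : ℕ} (hR : 0 < R) (j : ℕ) :
    ∑' z, G z * (if ⌊|dot l (z - r)| / (R : ℝ)⌋₊ = j then 1 else 0)
      ≤ 2 * ((R + 1 : ℕ) : ℝ≥0∞) * C := by
  have hR' : (0 : ℝ) < R := by exact_mod_cast hR
  set s : ℝ := (j : ℝ) * R with hs
  have hpt : ∀ z, (if ⌊|dot l (z - r)| / (R : ℝ)⌋₊ = j then (1 : ℝ≥0∞) else 0) ≤
      ∑ i ∈ Finset.range (R + 1), (bin (dot l r + s + i) (dot l z)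
        + bin (dot l r - s - R + i) (dot l z)) := by
    intro z
    split_ifs with h
    swap
    · exact zero_le
    obtain ⟨h1, h2⟩ := (Nat.floor_eq_iff (by positivity)).1 h
    rw [le_div_iff₀ hR'] at h1
    rw [div_lt_iff₀ hR'] at h2
    rcases le_or_gt 0 (dot l (z - r)) with hx | hx
    · rw [abs_of_nonneg hx] at h1 h2
      rw [dot_sub] at hx h1 h2
      have hy : 0 ≤ dot l z - dot l r - s := by rw [hs]; linarith
      have hi : ⌊dot l z - dot l r - s⌋₊ < R + 1 := by
        rw [Nat.floor_lt hy]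
        push_cast
        rw [hs]
        nlinarith
      refine le_trans ?_ (Finset.single_le_sum (fun i _ => zero_le) (Finset.mem_range.2 hi))
      refine le_trans (le_of_eq ?_) (le_add_right le_rfl)
      rw [bin, if_pos ⟨by linarith [Nat.floor_le hy], by
        linarith [Nat.lt_floor_add_one (dot l z - dot l r - s)]⟩]
    · rw [abs_of_neg hx] at h1 h2
      rw [dot_sub] at hx h1 h2
      have hy : 0 ≤ dot l z - dot l r + s + R := by rw [hs]; nlinarith
      have hi : ⌊dot l z - dot l r + s + R⌋₊ < R + 1 := by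
        rw [Nat.floor_lt hy]
        push_cast
        rw [hs]
        linarith
      refine le_trans ?_ (Finset.single_le_sum (fun i _ => zero_le) (Finset.mem_range.2 hi))
      refine le_trans (le_of_eq ?_) (le_add_left le_rfl)
      rw [bin, if_pos ⟨by linarith [Nat.floor_le hy], by
        linarith [Nat.lt_floor_add_one (dot l z - dot l r + s + R)]⟩]
  calc ∑' z, G z * (if ⌊|dot l (z - r)| / (R : ℝ)⌋₊ = j then 1 else 0)
      ≤ ∑' z, ∑ i ∈ Finset.range (R + 1), (G z * bin (dot l r + s + i) (dot l z)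
          + G z * bin (dot l r - s - R + i) (dot l z)) := by
        refine ENNReal.tsum_le_tsum fun z => (mul_le_mul' le_rfl (hpt z)).trans_eq ?_
        rw [Finset.mul_sum]
        exact Finset.sum_congr rfl fun i _ => mul_add _ _ _
    _ ≤ ∑ i ∈ Finset.range (R + 1), (C + C) := by
        rw [Summable.tsum_finsetSum fun i _ => ENNReal.summable]
        refine Finset.sum_le_sum fun i _ => ?_
        rw [ENNReal.tsum_add]
        exact add_le_add (hC _) (hC _)
    _ = _ := by
        rw [Finset.sum_const, Finset.card_range, nsmul_eq_mul]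
        ring

/-- The weight of the height shell `j`. -/
noncomputable def wgt (B : ℝ) (j : ℕ) : ℝ≥0∞ :=
  if j = 0 then 1 else ENNReal.ofReal (4 * B / (j : ℝ) ^ 2)

theorem tsum_wgt_ne_top {B : ℝ} (hB : 0 ≤ B) : ∑' j, wgt B j ≠ ⊤ := by
  rw [tsum_eq_zero_add' ENNReal.summable]
  refine ENNReal.add_ne_top.2 ⟨by simp [wgt], ?_⟩
  have hs : Summable fun j : ℕ => 4 * B / (((j + 1 : ℕ) : ℝ)) ^ 2 := by
    have h := ((Real.summable_one_div_nat_pow.2 one_lt_two).comp_injective
      (add_left_injective 1)).mul_left (4 * B)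
    refine h.congr fun j => ?_
    simp only [Function.comp_apply]
    ring
  have heq : ∀ j : ℕ, wgt B (j + 1) = ENNReal.ofReal (4 * B / (((j + 1 : ℕ) : ℝ)) ^ 2) := fun j => by
    rw [wgt, if_neg (Nat.succ_ne_zero j)]
  simp only [heq]
  rw [← ENNReal.ofReal_tsum_of_nonneg (fun j => by positivity) hs]
  exact ENNReal.ofReal_ne_top

/-- Decay of the concentration of powers of a product of lazy steps. -/
theorem conc_pw_le {G : Site d → ℝ≥0∞} {l : Fin d → ℝ} {C : ℝ≥0∞}
    (hC : ∀ t : ℝ, ∑' z, G z * bin t (dot l z) ≤ C) {W : Site d → ℝ≥0∞} (hrv : rv W = W)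
    (htot : tot W = 1) (hmom : mom l W ≠ ⊤)
    (hdec : ∀ k z, pw W k z ≤ ENNReal.ofReal ((((2 * k + 1 : ℕ) : ℝ) ^ 2)⁻¹))
    {k : ℕ} (hk : 1 ≤ k) :
    conc G (pw W k) ≤ ENNReal.ofReal (((k : ℝ) ^ (3 / 2 : ℝ))⁻¹) *
      (12 * (∑' j, wgt (mom l W).toReal j) * C) := by
  set B : ℝ := (mom l W).toReal with hB
  have hB0 : 0 ≤ B := ENNReal.toReal_nonneg
  set R : ℕ := Nat.sqrt k + 1 with hR
  have hR0 : 0 < R := Nat.succ_pos _
  have hR' : (0 : ℝ) < R := by exact_mod_cast hR0
  have hkR : (k : ℝ) ≤ (R : ℝ) ^ 2 := by exact_mod_cast (Nat.lt_succ_sqrt' k).le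
  have hk1 : (1 : ℝ) ≤ k := by exact_mod_cast hk
  set σ : ℝ≥0∞ := ENNReal.ofReal (((k : ℝ) ^ 2)⁻¹) with hσ
  have hdec' : ∀ b z, k ≤ 2 * b + 1 → pw W b z ≤ σ := by
    intro b z hb
    refine (hdec b z).trans (ENNReal.ofReal_le_ofReal ?_)
    gcongr
  have hcheb : ∀ (b j : ℕ), b ≤ k → 0 < j →
      ∑' w, pw W b w * (if (j : ℝ) * R / 2 ≤ |dot l w| then 1 else 0) ≤ wgt B j := by
    intro b j hb hj
    have hj' : (0 : ℝ) < j := by exact_mod_cast hj
    set c : ℝ := 4 / ((j : ℝ) * R) ^ 2 with hc
    have hc0 : 0 ≤ c := by positivity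
    calc ∑' w, pw W b w * (if (j : ℝ) * R / 2 ≤ |dot l w| then 1 else 0)
        ≤ ∑' w, ENNReal.ofReal c * (pw W b w * ENNReal.ofReal (dot l w ^ 2)) := by
          refine ENNReal.tsum_le_tsum fun w => ?_
          split_ifs with h
          swap
          · simp
          rw [mul_one, mul_left_comm, ← ENNReal.ofReal_mul hc0]
          refine le_mul_of_one_le_right' ?_
          rw [ENNReal.one_le_ofReal, hc, div_mul_eq_mul_div, le_div_iff₀ (by positivity), one_mul,
            ← sq_abs (dot l w)]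
          have hsq := pow_le_pow_left₀ (by positivity) h 2
          nlinarith
      _ = ENNReal.ofReal c * ((b : ℝ≥0∞) * mom l W) := by
          rw [ENNReal.tsum_mul_left, ← mom_pw l hrv htot b, mom]
      _ ≤ wgt B j := by
          rw [wgt, if_neg hj.ne', ← ENNReal.ofReal_natCast b, ← ENNReal.ofReal_toReal hmom, ← hB,
            ← ENNReal.ofReal_mul (Nat.cast_nonneg b), ← ENNReal.ofReal_mul hc0]
          apply ENNReal.ofReal_le_ofReal
          have hbk : (b : ℝ) ≤ (R : ℝ) ^ 2 := le_trans (by exact_mod_cast hb) hkR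
          rw [hc, div_mul_eq_mul_div, mul_pow, div_le_div_iff₀ (by positivity) (by positivity)]
          nlinarith [mul_le_mul_of_nonneg_left hbk (mul_nonneg hB0 (sq_nonneg (j : ℝ)))]
  have hpt : ∀ y, pw W k y ≤ 2 * σ * wgt B ⌊|dot l y| / (R : ℝ)⌋₊ := by
    intro y
    set j : ℕ := ⌊|dot l y| / (R : ℝ)⌋₊ with hj
    obtain ⟨b, e, hbe, hb2, he2⟩ :
        ∃ b e, k = b + e ∧ k ≤ 2 * b + 1 ∧ k ≤ 2 * e + 1 :=
      ⟨k / 2, k - k / 2, by omega, by omega, by omega⟩
    rcases Nat.eq_zero_or_pos j with hj0 | hj0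
    · rw [hj0, wgt, if_pos rfl, mul_one]
      calc pw W k y = cv (pw W b) (pw W e) y := by rw [hbe, pw_add]
        _ ≤ ∑' w, pw W b w * σ :=
            ENNReal.tsum_le_tsum fun w => mul_le_mul' le_rfl (hdec' e _ he2)
        _ = σ := by rw [ENNReal.tsum_mul_right, ← tot, tot_pw, htot, one_pow, one_mul]
        _ ≤ 2 * σ := le_mul_of_one_le_left' one_le_two
    have hjR : (j : ℝ) * R ≤ |dot l y| := by
      have h := Nat.floor_le (show 0 ≤ |dot l y| / (R : ℝ) by positivity)
      rw [← hj, le_div_iff₀ hR'] at h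
      exact h
    set th : Site d → ℝ≥0∞ := fun w => if (j : ℝ) * R / 2 ≤ |dot l w| then 1 else 0 with hth
    calc pw W k y = ∑' w, pw W b w * pw W e (y - w) := by rw [hbe, pw_add]; rfl
      _ ≤ ∑' w, (σ * (pw W b w * th w) + σ * (pw W e (y - w) * th (y - w))) := by
          refine ENNReal.tsum_le_tsum fun w => ?_
          by_cases h : (j : ℝ) * R / 2 ≤ |dot l w|
          · refine le_add_right ?_
            rw [hth]
            simp only [if_pos h, mul_one]
            rw [mul_comm σ]
            exact mul_le_mul' le_rfl (hdec' e _ he2)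
          · refine le_add_left ?_
            have h' : (j : ℝ) * R / 2 ≤ |dot l (y - w)| := by
              rw [dot_sub]
              linarith [abs_sub_abs_le_abs_sub (dot l y) (dot l w), lt_of_not_ge h]
            rw [hth]
            simp only [if_pos h', mul_one]
            exact mul_le_mul' (hdec' b _ hb2) le_rfl
      _ = σ * (∑' w, pw W b w * th w) + σ * ∑' w, pw W e w * th w := by
          rw [ENNReal.tsum_add, ENNReal.tsum_mul_left, ENNReal.tsum_mul_left]
          congr 2
          exact (Equiv.subLeft y).tsum_eq fun w => pw W e w * th w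
      _ ≤ σ * wgt B j + σ * wgt B j := by
          gcongr
          · exact hcheb b j (by omega) hj0
          · exact hcheb e j (by omega) hj0
      _ = _ := by ring
  refine iSup_le fun r => ?_
  calc ∑' z, G z * pw W k (z - r)
      ≤ ∑' z, ∑' j : ℕ, 2 * σ * wgt B j *
          (G z * (if ⌊|dot l (z - r)| / (R : ℝ)⌋₊ = j then 1 else 0)) := by
        refine ENNReal.tsum_le_tsum fun z => ?_
        rw [tsum_eq_single ⌊|dot l (z - r)| / (R : ℝ)⌋₊ fun j hj => by
          simp [Ne.symm hj]]
        rw [if_pos rfl, mul_one, mul_comm (2 * σ * _)]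
        exact mul_le_mul' le_rfl (hpt _)
    _ = ∑' j : ℕ, 2 * σ * wgt B j *
          ∑' z, G z * (if ⌊|dot l (z - r)| / (R : ℝ)⌋₊ = j then 1 else 0) := by
        rw [ENNReal.tsum_comm]
        simp only [ENNReal.tsum_mul_left]
    _ ≤ ∑' j : ℕ, 2 * σ * wgt B j * (2 * ((R + 1 : ℕ) : ℝ≥0∞) * C) :=
        ENNReal.tsum_le_tsum fun j => mul_le_mul' le_rfl (shell_le hC r hR0 j)
    _ = 4 * (σ * ((R + 1 : ℕ) : ℝ≥0∞)) * (∑' j, wgt B j) * C := by
        rw [← ENNReal.tsum_mul_left (a := 4 * (σ * ((R + 1 : ℕ) : ℝ≥0∞))),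
          ← ENNReal.tsum_mul_right]
        exact tsum_congr fun j => by ring
    _ ≤ 4 * (3 * ENNReal.ofReal (((k : ℝ) ^ (3 / 2 : ℝ))⁻¹)) * (∑' j, wgt B j) * C := by
        refine mul_le_mul' (mul_le_mul' (mul_le_mul' le_rfl ?_) le_rfl) le_rfl
        rw [hσ, ← ENNReal.ofReal_natCast, ← ENNReal.ofReal_mul (by positivity),
          ← ENNReal.ofReal_ofNat 3, ← ENNReal.ofReal_mul (by norm_num)]
        apply ENNReal.ofReal_le_ofReal
        have hs : (Nat.sqrt k : ℝ) ≤ Real.sqrt k := Real.nat_sqrt_le_real_sqrt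
        have h1 : 1 ≤ Real.sqrt k := Real.one_le_sqrt.2 hk1
        have hR2 : ((R + 1 : ℕ) : ℝ) ≤ 3 * Real.sqrt k := by
          rw [hR]
          push_cast
          linarith
        calc ((k : ℝ) ^ 2)⁻¹ * ((R + 1 : ℕ) : ℝ) ≤ ((k : ℝ) ^ 2)⁻¹ * (3 * Real.sqrt k) := by
              gcongr
          _ = _ := by
              have hk0 : (0 : ℝ) < k := by linarith
              have e : ((k : ℝ) ^ (3 / 2 : ℝ))⁻¹ = Real.sqrt k / (k : ℝ) ^ 2 := by
                rw [Real.sqrt_eq_rpow, ← Real.rpow_natCast (k : ℝ) 2, ← Real.rpow_sub hk0,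
                  ← Real.rpow_neg hk0.le]
                norm_num
              rw [e]
              ring
    _ = _ := by ring

/-- Partial sums along a kernel dominating a multiple of `W` reduce to the powers of `W`. -/
theorem sum_conc_le (G W τ : Site d → ℝ≥0∞) {ε : ℝ≥0∞} (hε : ε ≠ ⊤) (hW : tot W = 1)
    (hle : ∀ z, ε * W z ≤ τ z) (hτ : tot τ ≤ 1) :
    ε * ∑' n, conc G (pw τ n) ≤ ∑' i, conc G (pw W i) := by
  set rest : Site d → ℝ≥0∞ := fun z => τ z - ε * W z with hrest
  have hdecomp : τ = fun z => ε * W z + rest z := funext fun z => (add_tsub_cancel_of_le (hle z)).symm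
  have htotal : ε + tot rest ≤ 1 := by
    refine le_trans (le_of_eq ?_) hτ
    conv_rhs => rw [hdecomp]
    simp only [tot, ENNReal.tsum_add, ENNReal.tsum_mul_left]
    rw [show (∑' z, W z) = 1 from hW, mul_one]
  set T : ℕ → ℝ≥0∞ := fun k => ∑' i, conc G (pw W (k + i)) with hT
  have hTsucc : ∀ k, T k = conc G (pw W k) + T (k + 1) := by
    intro k
    simp only [hT]
    rw [tsum_eq_zero_add' ENNReal.summable, Nat.add_zero]
    congr 1
    exact tsum_congr fun i => by rw [Nat.add_right_comm, Nat.add_assoc]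
  have key : ∀ N k, ε * ∑ n ∈ Finset.range N, conc G (cv (pw W k) (pw τ n)) ≤ T k := by
    intro N
    induction N with
    | zero => intro k; simp
    | succ N ih =>
      intro k
      have hstep : ∀ n, conc G (cv (pw W k) (pw τ (n + 1))) ≤
          ε * conc G (cv (pw W (k + 1)) (pw τ n)) + tot rest * conc G (cv (pw W k) (pw τ n)) := by
        intro n
        have h1 : cv (pw W k) (pw τ (n + 1)) = fun z =>
            ε * cv (pw W (k + 1)) (pw τ n) z + cv rest (cv (pw W k) (pw τ n)) z := by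
          conv_lhs => rw [pw, ← cv_assoc, cv_comm (pw W k) τ, cv_assoc]
          conv_lhs => arg 1; rw [hdecomp]
          rw [add_cv, const_mul_cv]
          funext z
          rw [← cv_assoc, pw]
        exact (conc_add_le G (fun z => congrFun h1 z)).trans
          (add_le_add le_rfl (conc_cv_le G _ _))
      rw [Finset.sum_range_succ', show pw τ 0 = pt 0 from rfl, cv_zero, mul_add]
      calc ε * ∑ n ∈ Finset.range N, conc G (cv (pw W k) (pw τ (n + 1))) + ε * conc G (pw W k)
          ≤ ε * ∑ n ∈ Finset.range N, (ε * conc G (cv (pw W (k + 1)) (pw τ n)) +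
              tot rest * conc G (cv (pw W k) (pw τ n))) + ε * conc G (pw W k) := by
            gcongr with n
            exact hstep n
        _ = ε * (ε * ∑ n ∈ Finset.range N, conc G (cv (pw W (k + 1)) (pw τ n))) +
              tot rest * (ε * ∑ n ∈ Finset.range N, conc G (cv (pw W k) (pw τ n))) +
              ε * conc G (pw W k) := by
            rw [Finset.sum_add_distrib, ← Finset.mul_sum, ← Finset.mul_sum]
            ring
        _ ≤ ε * T (k + 1) + tot rest * T k + ε * conc G (pw W k) := by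
            gcongr
            · exact ih (k + 1)
            · exact ih k
        _ = (ε + tot rest) * T k := by
            rw [hTsucc k]
            ring
        _ ≤ T k := by
            exact (mul_le_mul' htotal le_rfl).trans_eq (one_mul _)
  rw [ENNReal.tsum_eq_iSup_nat, ENNReal.mul_iSup]
  refine iSup_le fun N => ?_
  have h := key N 0
  simp only [hT, pw, zero_cv, Nat.zero_add] at h
  exact h

/-- Summing along the powers of the `m`th power suffices. -/
theorem tsum_conc_le (G f : Site d → ℝ≥0∞) (hf : tot f ≤ 1) {m : ℕ} (hm : 0 < m) :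
    ∑' j, conc G (pw f j) ≤ (m : ℝ≥0∞) * ∑' n, conc G (pw (pw f m) n) := by
  have key : ∀ N, ∑ j ∈ Finset.range (m * N), conc G (pw f j) ≤
      (m : ℝ≥0∞) * ∑ n ∈ Finset.range N, conc G (pw (pw f m) n) := by
    intro N
    induction N with
    | zero => simp
    | succ N ih =>
      rw [Nat.mul_succ, Finset.sum_range_add, Finset.sum_range_succ, mul_add]
      gcongr
      calc ∑ i ∈ Finset.range m, conc G (pw f (m * N + i))
          ≤ ∑ _i ∈ Finset.range m, conc G (pw (pw f m) N) := by
            refine Finset.sum_le_sum fun i _ => ?_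
            rw [Nat.add_comm, pw_add, pw_pw]
            refine (conc_cv_le G _ _).trans ?_
            rw [tot_pw]
            exact (mul_le_mul' (pow_le_one₀ zero_le hf) le_rfl).trans_eq (one_mul _)
        _ = _ := by rw [Finset.sum_const, Finset.card_range, nsmul_eq_mul]
  rw [ENNReal.tsum_eq_iSup_nat, ENNReal.tsum_eq_iSup_nat, ENNReal.mul_iSup]
  refine iSup_le fun N => le_iSup_of_le N (le_trans ?_ (key N))
  exact Finset.sum_le_sum_of_subset (Finset.range_subset_range.2 (Nat.le_mul_of_pos_left N hm))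

theorem tsum_green_sq_le (a : Site d → ℝ≥0∞) :
    ∑' z, green a z ^ 2 ≤ 2 * ∑' j, conc (green a) (pw (cv a (rv a)) j) := by
  have hsq : ∀ z, green a z ^ 2 ≤ 2 * ∑' j, ∑' i, pw a j z * pw a (j + i) z := by
    intro z
    have hinj : ∀ j : ℕ, ∑' k, (if j ≤ k then pw a j z * pw a k z else 0)
        = ∑' i, pw a j z * pw a (j + i) z := by
      intro j
      rw [← (add_right_injective j).tsum_eq (f := fun k => if j ≤ k then pw a j z * pw a k z else 0)
        ?_]
      · exact tsum_congr fun i => by simp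
      intro k hk
      simp only [Function.mem_support, ne_eq, ite_eq_right_iff, not_forall] at hk
      exact ⟨k - j, Nat.add_sub_cancel' hk.1⟩
    calc green a z ^ 2 = ∑' j, ∑' k, pw a j z * pw a k z := by
          rw [sq, green, ← ENNReal.tsum_mul_right]
          simp only [← ENNReal.tsum_mul_left]
      _ ≤ ∑' j, ∑' k, ((if j ≤ k then pw a j z * pw a k z else 0) +
            if k ≤ j then pw a k z * pw a j z else 0) := by
          refine ENNReal.tsum_le_tsum fun j => ENNReal.tsum_le_tsum fun k => ?_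
          rcases le_total j k with h | h
          · rw [if_pos h]
            exact le_add_right le_rfl
          · refine le_add_left ?_
            rw [if_pos h, mul_comm]
      _ = _ := by
          simp only [ENNReal.tsum_add]
          rw [ENNReal.tsum_comm (f := fun j k => if k ≤ j then pw a k z * pw a j z else 0),
            ← two_mul]
          simp only [hinj]
  have hinner : ∀ (p q : Site d → ℝ≥0∞),
      ∑' z, p z * cv p q z = ∑' u, q u * cv p (rv p) u := by
    intro p q
    rw [cv_comm p q]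
    simp only [cv, ← ENNReal.tsum_mul_left]
    rw [ENNReal.tsum_comm]
    refine tsum_congr fun u => tsum_congr fun z => ?_
    rw [rv, neg_sub]
    ring
  calc ∑' z, green a z ^ 2 ≤ ∑' z, 2 * ∑' j, ∑' i, pw a j z * pw a (j + i) z :=
        ENNReal.tsum_le_tsum hsq
    _ = 2 * ∑' j, ∑' i, ∑' z, pw a j z * cv (pw a j) (pw a i) z := by
        rw [ENNReal.tsum_mul_left, ENNReal.tsum_comm]
        simp only [pw_add]
        congr 1
        exact tsum_congr fun j => ENNReal.tsum_comm
    _ = 2 * ∑' j, ∑' u, green a u * pw (cv a (rv a)) j u := by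
        congr 1
        refine tsum_congr fun j => ?_
        simp only [hinner, ← pw_rv, ← pw_cv]
        rw [ENNReal.tsum_comm]
        simp only [ENNReal.tsum_mul_right]
        rfl
    _ ≤ _ := by
        gcongr with j
        refine le_trans (le_of_eq ?_) (le_iSup
          (fun r => ∑' z, green a z * pw (cv a (rv a)) j (z - r)) 0)
        simp

end GreenAux

/-- The Green function is square summable in four and more dimensions. -/
theorem greenPin (d : ℕ) : GreenPin d := by
  intro hd l a ha hpos y y' hy hli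
  refine ⟨green a, green_eq a, ?_⟩
  obtain ⟨C, hCtop, hC⟩ := exists_bin_bound l a ha hpos (hy ⟨0, by omega⟩).1
  set v : ℕ → Site d := fun c => if h : c < d then y ⟨c, h⟩ - y' ⟨c, h⟩ else 0 with hvdef
  have hvv : ∀ c : Fin d, v c = y c - y' c := fun c => by simp [hvdef, c.2]
  have hind : ∀ n : ℕ → ℤ, ∑ c ∈ Finset.range d, n c • v c = 0 → ∀ c < d, n c = 0 := by
    intro n hn c hc
    rw [Finset.sum_range] at hn
    simp only [hvv] at hn
    exact (Fintype.linearIndependent_iff.1 hli) (fun c => n c) hn ⟨c, hc⟩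
  set W := prodLazy v d with hW
  set ν := cv a (rv a) with hν
  have htotν : tot ν ≤ 1 := by
    rw [hν, tot_cv, tot_rv]
    exact mul_le_one' ha ha
  set δ : Fin d → ℝ≥0∞ := fun c => min (a (y c) * a (y c)) (a (y c) * a (y' c)) with hδ
  have hstep : ∀ (c : Fin d) z, δ c * lazy (v c) z ≤ ν z := by
    intro c z
    by_cases hz : lazy (v c) z = 0
    · simp [hz]
    refine le_trans ((mul_le_mul' le_rfl (lazy_le_one _ z)).trans_eq (mul_one _)) ?_
    rw [hν, hvv] at *
    rcases lazy_ne_zero hz with rfl | rfl | rfl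
    · refine le_trans ((min_le_left _ _).trans_eq ?_) (mul_le_cv a (rv a) (y c) _)
      simp [rv]
    · refine le_trans ((min_le_right _ _).trans_eq ?_) (mul_le_cv a (rv a) (y c) _)
      simp [rv]
    · refine le_trans ((min_le_right _ _).trans_eq ?_) (mul_le_cv a (rv a) (y' c) _)
      rw [rv, show -(-(y c - y' c) - y' c) = y c by abel, mul_comm]
  set ε : ℕ → ℝ≥0∞ := fun m => ∏ c ∈ Finset.range m, if h : c < d then δ ⟨c, h⟩ else 1 with hεdef
  have hle : ∀ m ≤ d, ∀ z, ε m * prodLazy v m z ≤ pw ν m z := by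
    intro m hm
    induction m with
    | zero => intro z; simp [hεdef, prodLazy, pw]
    | succ m ih =>
      intro z
      have hmd : m < d := hm
      have hεm : ε (m + 1) = δ ⟨m, hmd⟩ * ε m := by
        simp only [hεdef, Finset.prod_range_succ, dif_pos hmd]
        ring
      calc ε (m + 1) * prodLazy v (m + 1) z
          = cv (fun w => δ ⟨m, hmd⟩ * lazy (v m) w) (fun w => ε m * prodLazy v m w) z := by
            rw [const_mul_cv, cv_comm, const_mul_cv, cv_comm, hεm, prodLazy]
            ring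
        _ ≤ cv ν (pw ν m) z :=
            cv_mono (hstep ⟨m, hmd⟩) (ih (Nat.le_of_succ_le hm)) z
        _ = _ := rfl
  have htotW : tot W = 1 := tot_prodLazy v d
  have htotτ : tot (pw ν d) ≤ 1 := by
    rw [tot_pw]
    exact pow_le_one₀ zero_le htotν
  have hεd : ε d ≤ 1 := by
    refine le_trans (le_of_eq ?_) ((ENNReal.tsum_le_tsum (hle d le_rfl)).trans htotτ)
    rw [ENNReal.tsum_mul_left, ← tot, ← hW, htotW, mul_one]
  have hεtop : ε d ≠ ⊤ := ne_top_of_le_ne_top ENNReal.one_ne_top hεd
  have hε0 : ε d ≠ 0 := by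
    simp only [hεdef, Finset.prod_ne_zero_iff, Finset.mem_range]
    intro c hc
    rw [dif_pos hc, hδ]
    exact (lt_min (pos_iff_ne_zero.2 (mul_ne_zero (hy ⟨c, hc⟩).1 (hy ⟨c, hc⟩).1))
      (pos_iff_ne_zero.2 (mul_ne_zero (hy ⟨c, hc⟩).1 (hy ⟨c, hc⟩).2))).ne'
  have hdec : ∀ k z, pw W k z ≤ ENNReal.ofReal ((((2 * k + 1 : ℕ) : ℝ) ^ 2)⁻¹) := fun k z =>
    ((pw_prodLazy_le v d hind k d le_rfl z).1).trans (cbin_pow_le hd k)
  have hmom : mom l W ≠ ⊤ := mom_prodLazy_ne_top l v d
  have hfin : ∑' i, conc (green a) (pw W i) ≠ ⊤ := by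
    set D : ℝ≥0∞ := 12 * (∑' j, wgt (mom l W).toReal j) * C with hD
    have hDtop : D ≠ ⊤ :=
      ENNReal.mul_ne_top (ENNReal.mul_ne_top (by norm_num) (tsum_wgt_ne_top ENNReal.toReal_nonneg))
        hCtop
    rw [tsum_eq_zero_add' ENNReal.summable]
    refine ENNReal.add_ne_top.2 ⟨?_, ?_⟩
    · refine ne_top_of_le_ne_top hCtop ((conc_le_tot hC _).trans_eq ?_)
      rw [pw, tot_pt, mul_one]
    · have hs : Summable fun i : ℕ => (((i + 1 : ℕ) : ℝ) ^ (3 / 2 : ℝ))⁻¹ :=
        ((Real.summable_nat_rpow_inv.2 (by norm_num)).comp_injective (add_left_injective 1))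
      refine ne_top_of_le_ne_top (ENNReal.mul_ne_top ?_ hDtop) ((ENNReal.tsum_le_tsum fun i =>
        conc_pw_le hC (rv_prodLazy v d) htotW hmom hdec (Nat.le_add_left 1 i)).trans_eq
          ENNReal.tsum_mul_right)
      rw [← ENNReal.ofReal_tsum_of_nonneg (fun i => by positivity) hs]
      exact ENNReal.ofReal_ne_top
  have hτfin : ∑' n, conc (green a) (pw (pw ν d) n) ≠ ⊤ := by
    intro htop
    have h := sum_conc_le (green a) W (pw ν d) hεtop htotW (hle d le_rfl) htotτ
    rw [htop, ENNReal.mul_top hε0] at h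
    exact hfin (top_le_iff.1 h)
  refine ne_top_of_le_ne_top ?_ (tsum_green_sq_le a)
  exact ENNReal.mul_ne_top (by norm_num) (ne_top_of_le_ne_top
    (ENNReal.mul_ne_top (ENNReal.natCast_ne_top d) hτfin)
    (tsum_conc_le (green a) ν htotν (by omega)))

/-- The correlations of a convolution of a summable and a square summable function vanish. -/
theorem corrPin (d : ℕ) : CorrPin d := by
  intro G b hG hb
  set q : Site d → ℝ≥0∞ := cv b G with hqdef
  have hxy : ∀ (x y : ℝ≥0∞) (T : ℝ≥0∞), T ≠ 0 → T ≠ ⊤ → x * y ≤ T * x ^ 2 + T⁻¹ * y ^ 2 := by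
    intro x y T h0 ht
    rcases le_total y (T * x) with h | h
    · refine le_add_right ((mul_le_mul' le_rfl h).trans_eq ?_)
      ring
    · refine le_add_left ?_
      have h' : x ≤ T⁻¹ * y := by
        calc x = T⁻¹ * (T * x) := by rw [← mul_assoc, ENNReal.inv_mul_cancel h0 ht, one_mul]
          _ ≤ _ := by gcongr
      exact (mul_le_mul' h' le_rfl).trans_eq (by ring)
  have hq : ∑' z, q z ^ 2 ≠ ⊤ := by
    refine ne_top_of_le_ne_top
      (ENNReal.mul_ne_top (ENNReal.add_ne_top.2 ⟨ENNReal.mul_ne_top hb hb, ENNReal.mul_ne_top hb hb⟩)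
        hG) ?_
    calc ∑' z, q z ^ 2 ≤ ∑' z, ∑' w, ∑' w', (b w * b w' * G (z - w) ^ 2 +
          b w * b w' * G (z - w') ^ 2) := by
          refine ENNReal.tsum_le_tsum fun z => ?_
          rw [sq, hqdef, cv, ← ENNReal.tsum_mul_right]
          refine ENNReal.tsum_le_tsum fun w => ?_
          rw [← ENNReal.tsum_mul_left]
          refine ENNReal.tsum_le_tsum fun w' => ?_
          rw [← mul_add, mul_mul_mul_comm]
          gcongr
          exact (hxy _ _ 1 one_ne_zero ENNReal.one_ne_top).trans_eq (by rw [inv_one]; ring)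
      _ = ∑' w, ∑' w', ((b w * b w') * (∑' z, G z ^ 2) + (b w * b w') * ∑' z, G z ^ 2) := by
          rw [ENNReal.tsum_comm]
          refine tsum_congr fun w => ?_
          rw [ENNReal.tsum_comm]
          refine tsum_congr fun w' => ?_
          rw [ENNReal.tsum_add, ENNReal.tsum_mul_left, ENNReal.tsum_mul_left,
            tsum_shift (fun z => G z ^ 2) w, tsum_shift (fun z => G z ^ 2) w']
      _ = _ := by
          simp only [ENNReal.tsum_add, ENNReal.tsum_mul_right, ENNReal.tsum_mul_left]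
          ring
  rw [ENNReal.tendsto_nhds_zero]
  intro e he
  rcases eq_or_ne e ⊤ with rfl | hetop
  · exact Filter.Eventually.of_forall fun v => le_top
  set M : ℝ≥0∞ := (∑' z, q z ^ 2) + 1 with hM
  have hM0 : M ≠ 0 := by simp [hM]
  have hMt : M ≠ ⊤ := ENNReal.add_ne_top.2 ⟨hq, ENNReal.one_ne_top⟩
  set T : ℝ≥0∞ := M * (e / 4)⁻¹ with hT
  have he4 : e / 4 ≠ 0 := by simp [he.ne']
  have he4t : e / 4 ≠ ⊤ := ENNReal.div_ne_top hetop (by norm_num)
  have hT0 : T ≠ 0 := mul_ne_zero hM0 (ENNReal.inv_ne_zero.2 he4t)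
  have hTt : T ≠ ⊤ := ENNReal.mul_ne_top hMt (ENNReal.inv_ne_top.2 he4)
  have hTinv : T⁻¹ * (∑' z, q z ^ 2) ≤ e / 4 := by
    calc T⁻¹ * (∑' z, q z ^ 2) ≤ T⁻¹ * M := by gcongr; exact le_self_add
      _ = e / 4 := by
          rw [hT, ENNReal.mul_inv (Or.inl hM0) (Or.inl hMt), inv_inv, mul_right_comm,
            ENNReal.inv_mul_cancel hM0 hMt, one_mul]
  have hlim := ENNReal.tendsto_tsum_compl_atTop_zero hq
  obtain ⟨F, hF⟩ := (eventually_atTop.1 ((ENNReal.tendsto_nhds_zero.1 hlim) (T⁻¹ * (e / 4))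
    (pos_iff_ne_zero.2 (mul_ne_zero (ENNReal.inv_ne_zero.2 hTt) he4))))
  have hFle := hF F le_rfl
  set qR : Site d → ℝ≥0∞ := fun z => if z ∈ F then 0 else q z with hqR
  have htail : T * ∑' z, qR z ^ 2 ≤ e / 4 := by
    have heq : ∑' z, qR z ^ 2 = ∑' z : { z // z ∉ F }, q z.1 ^ 2 := by
      rw [show (∑' z : { z // z ∉ F }, q z.1 ^ 2) = ∑' z, ({z | z ∉ F} : Set (Site d)).indicator
        (fun z => q z ^ 2) z from tsum_subtype {z | z ∉ F} (fun z => q z ^ 2)]
      refine tsum_congr fun z => ?_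
      by_cases hz : z ∈ F <;> simp [hqR, hz]
    rw [heq]
    calc T * _ ≤ T * (T⁻¹ * (e / 4)) := by gcongr
      _ = e / 4 := by rw [← mul_assoc, ENNReal.mul_inv_cancel hT0 hTt, one_mul]
  have hfin : ((((F ×ˢ F).image fun p => p.1 - p.2 : Finset (Site d))) : Set (Site d)).Finite :=
    Finset.finite_toSet _
  filter_upwards [hfin.compl_mem_cofinite] with v hv
  calc ∑' z, q z * cv b G (z - v)
      ≤ ∑' z, ((T * qR z ^ 2 + T⁻¹ * q (z - v) ^ 2) +
          (T * qR (z - v) ^ 2 + T⁻¹ * q z ^ 2)) := by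
        refine ENNReal.tsum_le_tsum fun z => ?_
        by_cases hz : z ∈ F
        · have hzv : z - v ∉ F := by
            intro hzv
            apply hv
            simp only [Finset.coe_image, Set.mem_image, Finset.mem_coe, Finset.mem_product]
            exact ⟨(z, z - v), ⟨hz, hzv⟩, sub_sub_cancel z v⟩
          refine le_add_left ?_
          simp only [hqR, if_neg hzv]
          rw [mul_comm]
          exact hxy _ _ T hT0 hTt
        · refine le_add_right ?_
          simp only [hqR, if_neg hz]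
          exact hxy _ _ T hT0 hTt
    _ = (T * ∑' z, qR z ^ 2 + T⁻¹ * ∑' z, q z ^ 2) +
          (T * ∑' z, qR z ^ 2 + T⁻¹ * ∑' z, q z ^ 2) := by
        simp only [ENNReal.tsum_add, ENNReal.tsum_mul_left]
        rw [tsum_shift (fun z => q z ^ 2) v, tsum_shift (fun z => qR z ^ 2) v]
    _ ≤ (e / 4 + e / 4) + (e / 4 + e / 4) := by gcongr
    _ = e := by
        rw [← add_assoc]
        have h4 : e / 4 + e / 4 + e / 4 + e / 4 = 4 * (e / 4) := by ring
        rw [h4, ENNReal.mul_div_cancel (by norm_num) (by norm_num)]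

end Vale.Agent.P147.Linear
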