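import Vale.Agent.P147.Linear.Blocks

/-!
# Explicit blocks
-/

namespace Vale.Agent.P147.Linear

open MeasureTheory Filter Topology Set Vale.Agent.P147.Balanced
open scoped ENNReal

variable {d : ℕ} {l : Fin d → ℝ}

lemma dot_zero : dot l (0 : Site d) = 0 := by simp [dot]

lemma dot_sum {ι : Type*} (s : Finset ι) (f : ι → Site d) :
    dot l (∑ i ∈ s, f i) = ∑ i ∈ s, dot l (f i) := by
  classical
  induction s using Finset.induction with
  | empty => simp [dot_zero]
  | insert i s hi ih => rw [Finset.sum_insert hi, Finset.sum_insert hi, dot_add, ih]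

lemma dot_vec (e : Step d) : dot l (vec e) = if e.2 then l e.1 else -l e.1 := by
  rw [dot, Finset.sum_eq_single e.1]
  · rcases e with ⟨i, b⟩; cases b <;> simp [vec]
  · intro i _ hi; simp [vec, Pi.single_eq_of_ne hi]
  · simp

lemma dot_pathPos (e : ℕ → Step d) (i : ℕ) :
    dot l (pathPos 0 e i) = ∑ j ∈ Finset.range i, dot l (vec (e j)) := by
  simp [pathPos, dot_sum]

/-- A unit step going furthest up. -/
theorem exists_up (hl : l ≠ 0) :
    ∃ u : Step d, 0 < dot l (vec u) ∧ ∀ i, |l i| ≤ dot l (vec u) := by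
  obtain ⟨i₁, hi₁⟩ : ∃ i, l i ≠ 0 := not_forall.1 fun h => hl (funext h)
  obtain ⟨i₀, -, hmax⟩ := Finset.exists_max_image Finset.univ (fun i => |l i|) ⟨i₁, by simp⟩
  have hpos : 0 < |l i₀| := lt_of_lt_of_le (abs_pos.2 hi₁) (hmax i₁ (Finset.mem_univ _))
  have hdot : dot l (vec ((i₀, decide (0 ≤ l i₀)) : Step d)) = |l i₀| := by
    rw [dot_vec]
    by_cases h : 0 ≤ l i₀
    · simp [h, abs_of_nonneg h]
    · simp [h, abs_of_neg (not_le.1 h)]
  exact ⟨(i₀, decide (0 ≤ l i₀)), by rw [hdot]; exact hpos,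
    fun i => by rw [hdot]; exact hmax i (Finset.mem_univ _)⟩

/-- A step in another axis going not up. -/
theorem exists_side (u : Step d) (h : ∀ i, |l i| ≤ dot l (vec u)) (c : Fin d) :
    ∃ e : Step d, e.1 = c ∧ -dot l (vec u) ≤ dot l (vec e) ∧ dot l (vec e) ≤ 0 := by
  have hv : dot l (vec ((c, decide (l c ≤ 0)) : Step d)) = if l c ≤ 0 then l c else -l c := by
    rw [dot_vec]; by_cases hs : l c ≤ 0 <;> simp [hs]
  refine ⟨(c, decide (l c ≤ 0)), rfl, ?_⟩
  rw [hv]
  have hc := abs_le.1 (h c)
  split_ifs with hs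
  · exact ⟨hc.1, hs⟩
  · exact ⟨by linarith, by linarith⟩

section Weights

variable [Nonempty (Fin d)] (μ : Measure (Step d → ℝ)) [IsProbabilityMeasure μ]

theorem law_pre_pathPos_pos {ω : Env d} (hω : Elliptic ω) (x : Site d) (n : ℕ) (e : ℕ → Step d) :
    0 < law ω x (pre n (pathPos x e)) := by
  rw [show law ω x (pre n (pathPos x e)) = _ from (isQuenchedLaw_law hω x).2 n e]
  exact CanonicallyOrderedAdd.prod_pos.2 fun i _ => ENNReal.ofReal_pos.2 ((hω _).1 _)

lemma ann_pre_pathPos_ne_zero (hμ : ∀ᵐ p ∂μ, (∀ e, 0 < p e) ∧ ∑ e, p e = 1) (n : ℕ)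
    (e : ℕ → Step d) : ann μ (pre n (pathPos 0 e)) ≠ 0 := by
  intro h
  have h' := (lintegral_eq_zero_iff (measurable_law_apply 0 (measurableSet_pre _ _))).1 h
  obtain ⟨ω, h1, h2⟩ := (h'.and (ae_elliptic μ hμ)).exists
  exact (law_pre_pathPos_pos h2 0 n e).ne' h1

open Classical in
/-- The endpoint of a block made of steps is charged. -/
theorem endLaw_ne_zero (hμ : ∀ᵐ p ∂μ, (∀ e, 0 < p e) ∧ ∑ e, p e = 1) (n : ℕ) (e : ℕ → Step d)
    (hb : Block l n (pathPos 0 e)) : endLaw μ l (pathPos 0 e n) ≠ 0 := by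
  set a : Fin (n + 1) → Site d := res n (pathPos 0 e)
  have hag : ∀ i ≤ n, ext a i = pathPos 0 e i := fun i hi => ext_res_apply hi _
  have hba : Block l n (ext a) := by
    obtain ⟨h1, h2, h3, h4, h5⟩ := hb
    refine ⟨h1, by rw [hag 0 (Nat.zero_le n)]; exact h2,
      fun i hi => by rw [hag i hi]; exact h3 i hi, (Rec_congr hag).2 h4, fun j hj hjn hr => ?_⟩
    obtain ⟨i, hji, hin, hlt⟩ := h5 j hj hjn ((Rec_congr fun i hi => hag i (hi.trans hjn.le)).1 hr)
    exact ⟨i, hji, hin, by rw [hag i hin, hag j hjn.le]; exact hlt⟩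
  have hpre : pre n (ext a) = pre n (pathPos 0 e) := by
    ext X; exact forall₂_congr fun i hi => by rw [hag i hi]
  have hw : wt μ n a ≠ 0 := by rw [wt, hpre]; exact ann_pre_pathPos_ne_zero μ hμ n e
  refine ne_of_gt (lt_of_lt_of_le (pos_iff_ne_zero.2 hw) ?_)
  rw [endLaw]
  refine le_trans ?_ (ENNReal.le_tsum n)
  refine le_trans ?_ (ENNReal.le_tsum a)
  rw [if_pos ⟨hba, hag n le_rfl⟩]

/-- Two charged endpoints differing by independent vectors, in every axis. -/
theorem exists_spanning (hμ : ∀ᵐ p ∂μ, (∀ e, 0 < p e) ∧ ∑ e, p e = 1) (hl : l ≠ 0) :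
    ∃ y y' : Fin d → Site d, (∀ c, endLaw μ l (y c) ≠ 0 ∧ endLaw μ l (y' c) ≠ 0) ∧
      LinearIndependent ℤ (fun c => y c - y' c) := by
  classical
  obtain ⟨u, hu0, humax⟩ := exists_up hl
  set L := dot l (vec u)
  have h1 : endLaw μ l (vec u) ≠ 0 := by
    have hb : Block l 1 (pathPos 0 fun _ => u) := by
      refine ⟨Nat.one_pos, by simp [pathPos], fun i hi => ?_, fun i hi => ?_, fun j hj hj' => ?_⟩
      · interval_cases i <;> simp [dot_pathPos, Finset.sum_range_succ] <;> linarith
      · interval_cases i; simp [dot_pathPos, Finset.sum_range_succ]; linarith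
      · omega
    simpa [pathPos, Finset.sum_range_succ] using endLaw_ne_zero μ hμ 1 _ hb
  have h4 : ∀ e : Step d, dot l (vec e) = -L →
      endLaw μ l (vec u + vec e + vec u + vec u) ≠ 0 := by
    intro e he
    have hb : Block l 4 (pathPos 0 fun j => [u, e, u, u].getD j u) := by
      refine ⟨by norm_num, by simp [pathPos], fun i hi => ?_, fun i hi => ?_,
        fun j hj hj' hr => ?_⟩
      · interval_cases i <;> simp [dot_pathPos, Finset.sum_range_succ, he] <;> linarith
      · interval_cases i <;> simp [dot_pathPos, Finset.sum_range_succ, he] <;> linarith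
      · interval_cases j
        · exact ⟨2, by norm_num, by norm_num,
            by simp [dot_pathPos, Finset.sum_range_succ, he]; linarith⟩
        · exact absurd (hr 0 (by norm_num)) (by simp [dot_pathPos, Finset.sum_range_succ, he, L])
        · exact absurd (hr 1 (by norm_num)) (by simp [dot_pathPos, Finset.sum_range_succ, he, L])
    simpa [pathPos, Finset.sum_range_succ, add_assoc] using endLaw_ne_zero μ hμ 4 _ hb
  have h3 : ∀ e : Step d, -L < dot l (vec e) → dot l (vec e) < 0 →
      endLaw μ l (vec u + vec e + vec u) ≠ 0 := by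
    intro e he he'
    have hb : Block l 3 (pathPos 0 fun j => [u, e, u].getD j u) := by
      refine ⟨by norm_num, by simp [pathPos], fun i hi => ?_, fun i hi => ?_,
        fun j hj hj' hr => ?_⟩
      · interval_cases i <;> simp [dot_pathPos, Finset.sum_range_succ] <;> linarith
      · interval_cases i <;> simp [dot_pathPos, Finset.sum_range_succ] <;> linarith
      · interval_cases j
        · exact ⟨2, by norm_num, by norm_num, by simp [dot_pathPos, Finset.sum_range_succ]; linarith⟩
        · exact absurd (hr 1 (by norm_num)) (by simp [dot_pathPos, Finset.sum_range_succ]; linarith)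
    simpa [pathPos, Finset.sum_range_succ, add_assoc] using endLaw_ne_zero μ hμ 3 _ hb
  have h2 : ∀ e : Step d, dot l (vec e) = 0 → endLaw μ l (vec e + vec u) ≠ 0 := by
    intro e he
    have hb : Block l 2 (pathPos 0 fun j => [e, u].getD j u) := by
      refine ⟨by norm_num, by simp [pathPos], fun i hi => ?_, fun i hi => ?_,
        fun j hj hj' hr => ?_⟩
      · interval_cases i <;> simp [dot_pathPos, Finset.sum_range_succ, he] <;> linarith
      · interval_cases i <;> simp [dot_pathPos, Finset.sum_range_succ, he] <;> linarith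
      · interval_cases j
        exact absurd (hr 0 (by norm_num)) (by simp [dot_pathPos, Finset.sum_range_succ, he, L])
    simpa [pathPos, Finset.sum_range_succ] using endLaw_ne_zero μ hμ 2 _ hb
  have hax : ∀ c : Fin d, ∃ y : Site d, endLaw μ l y ≠ 0 ∧ (y - vec u) c ≠ 0 ∧
      ∀ i, i ≠ c → i ≠ u.1 → (y - vec u) i = 0 := by
    intro c
    by_cases hc : c = u.1
    · have hneg : dot l (vec ((u.1, !u.2) : Step d)) = -L := by
        rcases u with ⟨i, b⟩
        cases b <;> simp [L, dot_vec]
      have hv : vec ((u.1, !u.2) : Step d) = -vec u := by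
        rcases u with ⟨i, b⟩
        cases b <;> simp [vec, ← Pi.single_neg]
      refine ⟨vec u + vec u, ?_, ?_, ?_⟩
      · have := h4 _ hneg
        rw [hv] at this
        simpa using this
      · subst hc; rcases u with ⟨i, b⟩; cases b <;> simp [vec]
      · intro i _ hiu; simp [vec, Pi.single_eq_of_ne hiu]
    obtain ⟨e, hec, hlo, hhi⟩ := exists_side u humax c
    have hce : vec e c ≠ 0 := by
      subst hec; rcases e with ⟨i, b⟩; cases b <;> simp [vec]
    have huc : vec u c = 0 := by simp [vec, Pi.single_eq_of_ne hc]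
    have hoff : ∀ i, i ≠ c → i ≠ u.1 → vec e i = 0 ∧ vec u i = 0 := fun i hi hiu =>
      ⟨by simp [vec, Pi.single_eq_of_ne (hec ▸ hi)], by simp [vec, Pi.single_eq_of_ne hiu]⟩
    rcases eq_or_lt_of_le hhi with he | he
    · exact ⟨vec e + vec u, h2 e he, by simpa [huc] using hce,
        fun i hi hiu => by simp [hoff i hi hiu]⟩
    rcases eq_or_lt_of_le hlo with he' | he'
    · exact ⟨vec u + vec e + vec u + vec u, h4 e he'.symm, by simpa [huc] using hce,
        fun i hi hiu => by simp [hoff i hi hiu]⟩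
    · exact ⟨vec u + vec e + vec u, h3 e he' he, by simpa [huc] using hce,
        fun i hi hiu => by simp [hoff i hi hiu]⟩
  choose y hy hyc hyo using hax
  refine ⟨y, fun _ => vec u, fun c => ⟨hy c, h1⟩, Fintype.linearIndependent_iff.2 fun g hg => ?_⟩
  have hside : ∀ c, c ≠ u.1 → g c = 0 := by
    intro c hc
    have h := congrFun hg c
    simp only [Finset.sum_apply, Pi.smul_apply, smul_eq_mul, Pi.zero_apply] at h
    rw [Finset.sum_eq_single c (fun b _ hb => by rw [hyo b c (Ne.symm hb) hc, mul_zero])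
      (by simp)] at h
    exact (mul_eq_zero.1 h).resolve_right (hyc c)
  intro c
  by_cases hc : c = u.1
  · subst hc
    have h := congrFun hg u.1
    simp only [Finset.sum_apply, Pi.smul_apply, smul_eq_mul, Pi.zero_apply] at h
    rw [Finset.sum_eq_single u.1 (fun b _ hb => by rw [hside b hb, zero_mul]) (by simp)] at h
    exact (mul_eq_zero.1 h).resolve_right (hyc u.1)
  · exact hside c hc

end Weights

end Vale.Agent.P147.Linear
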