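import Vale.Agent.P147.Linear.Visit
import Vale.Agent.P147.Linear.Steps
import Vale.Agent.P147.Linear.Green

/-!
# Two walks that never meet again
-/

namespace Vale.Agent.P147.Linear

open MeasureTheory Filter Topology Set Vale.Agent.P147.Balanced
open scoped ENNReal

variable {d : ℕ} {l : Fin d → ℝ}

/-- The second walk stays, avoids `S`, and avoids the first walk up to time `n`. -/
def Yset (l : Fin d → ℝ) (S : Finset (Site d)) (n : ℕ) (γ : ℕ → Site d) : Set (ℕ → Site d) :=
  {Y | ∀ i ≤ n, dot l (Y 0) ≤ dot l (Y i) ∧ Y i ∉ S ∧ ∀ j ≤ n, γ j ≠ Y i}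

/-- Two walks stay, avoid `S` and avoid each other up to time `n`. -/
def FutUpTo (l : Fin d → ℝ) (S : Finset (Site d)) (n : ℕ) :
    Set ((ℕ → Site d) × (ℕ → Site d)) :=
  {q | (∀ i ≤ n, dot l (q.1 0) ≤ dot l (q.1 i) ∧ q.1 i ∉ S) ∧ q.2 ∈ Yset l S n q.1}

/-- Two walks stay, avoid `S` and avoid each other. -/
def Fut (l : Fin d → ℝ) (S : Finset (Site d)) : Set ((ℕ → Site d) × (ℕ → Site d)) :=
  ⋂ n, FutUpTo l S n

lemma Yset_prefix (S : Finset (Site d)) (n : ℕ) (γ : ℕ → Site d) :
    Prefix n fun Y => Y ∈ Yset l S n γ := fun X Y h => by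
  simp only [Yset, Set.mem_ofPred_eq, eq_iff_iff]
  exact forall₂_congr fun i hi => by rw [h 0 (Nat.zero_le n), h i hi]

lemma measurableSet_Yset (S : Finset (Site d)) (n : ℕ) (γ : ℕ → Site d) :
    MeasurableSet (Yset l S n γ) := by
  rw [show Yset l S n γ = ⋂ i, ⋂ (_ : i ≤ n), {Y | dot l (Y 0) ≤ dot l (Y i)} ∩
      (fun Y => Y i) ⁻¹' {y | y ∉ S ∧ ∀ j ≤ n, γ j ≠ y} by ext; simp [Yset]]
  exact MeasurableSet.iInter fun i => MeasurableSet.iInter fun _ =>
    (measurableSet_le (measurable_dot 0) (measurable_dot i)).inter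
      (measurable_pi_apply i MeasurableSet.of_discrete)

lemma antitone_FutUpTo (S : Finset (Site d)) : Antitone (FutUpTo (d := d) l S) :=
  fun _ _ hab _ hq => ⟨fun i hi => hq.1 i (hi.trans hab), fun i hi =>
    ⟨(hq.2 i (hi.trans hab)).1, (hq.2 i (hi.trans hab)).2.1,
      fun j hj => (hq.2 i (hi.trans hab)).2.2 j (hj.trans hab)⟩⟩

open Classical in
/-- The decomposition along the first walk. -/
theorem prod_FutUpTo (ν ν' : Measure (ℕ → Site d)) [SFinite ν'] (S : Finset (Site d)) (n : ℕ) :
    (ν.prod ν') (FutUpTo l S n) = ∑' a : Fin (n + 1) → Site d,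
      if (∀ i ≤ n, dot l (ext a 0) ≤ dot l (ext a i) ∧ ext a i ∉ S) then
        ν (pre n (ext a)) * ν' (Yset l S n (ext a)) else 0 := by
  set T : (Fin (n + 1) → Site d) → Set ((ℕ → Site d) × (ℕ → Site d)) := fun a =>
    if (∀ i ≤ n, dot l (ext a 0) ≤ dot l (ext a i) ∧ ext a i ∉ S) then
      pre n (ext a) ×ˢ Yset l S n (ext a) else ∅
  have hcongr : ∀ (a : Fin (n + 1) → Site d) (X : ℕ → Site d), X ∈ pre n (ext a) →
      ((∀ i ≤ n, dot l (X 0) ≤ dot l (X i) ∧ X i ∉ S) ↔
        (∀ i ≤ n, dot l (ext a 0) ≤ dot l (ext a i) ∧ ext a i ∉ S)) ∧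
      Yset l S n X = Yset l S n (ext a) := by
    intro a X hX
    refine ⟨forall₂_congr fun i hi => by rw [hX 0 (Nat.zero_le n), hX i hi], ?_⟩
    ext Y
    simp only [Yset, Set.mem_ofPred_eq]
    exact forall₂_congr fun i hi => and_congr_right fun _ => and_congr_right fun _ =>
      forall₂_congr fun j hj => by rw [hX j hj]
  have hU : FutUpTo l S n = ⋃ a, T a := by
    ext ⟨X, Y⟩
    constructor
    · intro hq
      have hX : X ∈ pre n (ext (res n X)) := fun i hi => (ext_res_apply hi X).symm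
      refine Set.mem_iUnion.2 ⟨res n X, ?_⟩
      simp only [T]
      rw [if_pos ((hcongr _ X hX).1.1 hq.1), ← (hcongr _ X hX).2]
      exact ⟨hX, hq.2⟩
    · intro hq
      obtain ⟨a, ha⟩ := Set.mem_iUnion.1 hq
      simp only [T] at ha
      split_ifs at ha with hc
      · refine ⟨(hcongr a X ha.1).1.2 hc, ?_⟩
        show Y ∈ Yset l S n X
        rw [(hcongr a X ha.1).2]
        exact ha.2
      · exact absurd ha (Set.notMem_empty _)
  have hd : Pairwise fun a b => Disjoint (T a) (T b) := by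
    intro a b hab
    simp only [T]
    split_ifs
    rotate_left
    · exact disjoint_bot_right
    · exact disjoint_bot_left
    · exact disjoint_bot_left
    refine Set.disjoint_left.2 fun q hq hq' => hab ?_
    funext i
    have h1 := (hq.1 i (Nat.le_of_lt_succ i.2)).symm.trans (hq'.1 i (Nat.le_of_lt_succ i.2))
    simpa [Balanced.ext, min_eq_left (Nat.le_of_lt_succ i.2)] using h1
  rw [hU, measure_iUnion hd fun a => ?_]
  · refine tsum_congr fun a => ?_
    simp only [T]
    split_ifs
    · exact Measure.prod_prod _ _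
    · simp
  · simp only [T]
    split_ifs
    · exact (measurableSet_pre _ _).prod (measurableSet_Yset S n _)
    · exact MeasurableSet.empty

variable [Nonempty (Fin d)] (μ : Measure (Step d → ℝ)) [IsProbabilityMeasure μ]

/-- The annealed law of the walk from `x`. -/
noncomputable def annAt (x : Site d) : Measure (ℕ → Site d) :=
  (annM μ).map fun X i => X i + x

instance (x : Site d) : IsProbabilityMeasure (annAt μ x) :=
  Measure.isProbabilityMeasure_map (by fun_prop : Measurable fun (X : ℕ → Site d) i => X i + x).aemeasurable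

lemma annAt_apply (x : Site d) {B : Set (ℕ → Site d)} (hB : MeasurableSet B) :
    annAt μ x B = ∫⁻ ω, law ω x B ∂envLaw μ := by
  have hm : Measurable fun (X : ℕ → Site d) i => X i + x := by fun_prop
  rw [lintegral_law_eq_ann μ x hB, ann_eq μ (hm hB), annAt, Measure.map_apply hm hB]

omit [Nonempty (Fin d)] in
lemma measurableSet_FutUpTo (S : Finset (Site d)) (n : ℕ) :
    MeasurableSet (FutUpTo (d := d) l S n) := by
  rw [show FutUpTo (d := d) l S n = (⋂ i, ⋂ (_ : i ≤ n), Prod.fst ⁻¹'
      ({X | dot l (X 0) ≤ dot l (X i)} ∩ (fun X => X i) ⁻¹' {y | y ∉ S})) ∩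
      ⋂ i, ⋂ (_ : i ≤ n), Prod.snd ⁻¹' ({Y | dot l (Y 0) ≤ dot l (Y i)} ∩
        (fun Y => Y i) ⁻¹' {y | y ∉ S}) ∩ ⋂ j, ⋂ (_ : j ≤ n), {q : (ℕ → Site d) × (ℕ → Site d) | q.1 j = q.2 i}ᶜ by
    ext; simp [FutUpTo, Yset, and_assoc]]
  refine MeasurableSet.inter (MeasurableSet.iInter fun i => MeasurableSet.iInter fun _ =>
    measurable_fst ((measurableSet_le (measurable_dot 0) (measurable_dot i)).inter
      (measurable_pi_apply i MeasurableSet.of_discrete))) (MeasurableSet.iInter fun i =>
    MeasurableSet.iInter fun _ => ?_)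
  exact (measurable_snd ((measurableSet_le (measurable_dot 0) (measurable_dot i)).inter
    (measurable_pi_apply i MeasurableSet.of_discrete))).inter (MeasurableSet.iInter fun j =>
    MeasurableSet.iInter fun _ => (measurableSet_eq_fun ((measurable_pi_apply j).comp measurable_fst)
      ((measurable_pi_apply i).comp measurable_snd)).compl)

omit [Nonempty (Fin d)] in
lemma measurableSet_Fut (S : Finset (Site d)) : MeasurableSet (Fut (d := d) l S) :=
  MeasurableSet.iInter fun n => measurableSet_FutUpTo S n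

open Classical in
/-- Walks that avoid each other read disjoint rows. -/
theorem lintegral_FutUpTo (S : Finset (Site d)) (n : ℕ) (a a' : Site d) :
    ∫⁻ ω, ((law ω a).prod (law ω a')) (FutUpTo l S n) ∂envLaw μ =
      ((annAt μ a).prod (annAt μ a')) (FutUpTo l S n) := by
  simp only [prod_FutUpTo]
  rw [lintegral_tsum fun b => ?_]
  · refine tsum_congr fun b => ?_
    split_ifs
    · rw [annAt_apply μ a (measurableSet_pre _ _), annAt_apply μ a' (measurableSet_Yset S n _)]
      refine lintegral_mul_of_local μ (seen n (ext b))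
        (measurable_law_apply a (measurableSet_pre _ _))
        (measurable_law_apply a' (measurableSet_Yset S n _)) ?_ ?_
      · exact fun ω ω' h => law_pre_congr a fun i hi =>
          h _ (Finset.mem_image_of_mem _ (Finset.mem_range.2 hi))
      · intro ω ω' h
        refine law_congr_prefix (n := n) a' (measurableSet_Yset S n _) (Yset_prefix S n _)
          (S := {z | z ∉ seen n (ext b)}) (fun Y hY i hi hc => ?_) fun z hz => h z hz
        obtain ⟨j, hj, he⟩ := Finset.mem_image.1 hc
        exact (hY i hi.le).2.2 j (Finset.mem_range.1 hj).le he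
    · simp
  · split_ifs
    · exact ((measurable_law_apply a (measurableSet_pre _ _)).mul
        (measurable_law_apply a' (measurableSet_Yset S n _))).aemeasurable
    · exact aemeasurable_const

/-- The same for walks never meeting. -/
theorem lintegral_Fut (S : Finset (Site d)) (a a' : Site d) :
    ∫⁻ ω, ((law ω a).prod (law ω a')) (Fut l S) ∂envLaw μ =
      ((annAt μ a).prod (annAt μ a')) (Fut l S) := by
  have hm := fun n => (measurableSet_FutUpTo (l := l) S n).nullMeasurableSet
    (μ := (annAt μ a).prod (annAt μ a'))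
  rw [Fut, (antitone_FutUpTo S).measure_iInter (fun n => hm n) ⟨0, measure_ne_top _ _⟩]
  simp only [← lintegral_FutUpTo μ S _ a a']
  rw [← lintegral_iInf (fun n => measurable_pair_law a a' (measurableSet_FutUpTo S n))
    (fun i j hij ω => measure_mono (antitone_FutUpTo S hij))]
  · exact lintegral_congr fun ω =>
      (antitone_FutUpTo S).measure_iInter
        (fun n => (measurableSet_FutUpTo (l := l) S n).nullMeasurableSet) ⟨0, measure_ne_top _ _⟩
  · refine ne_top_of_le_ne_top ENNReal.one_ne_top ((lintegral_mono fun ω => prob_le_one).trans ?_)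
    simp

/-- Walks escaping without return from distant sites rarely share a site. -/
theorem sq_le_Fut (hμ : ∀ᵐ p ∂μ, (∀ e, 0 < p e) ∧ ∑ e, p e = 1) (hq : ann μ (Good l) ≠ 0)
    {G : Site d → ℝ≥0∞}
    (hG : ∀ z, G z = (if z = 0 then 1 else 0) + ∑' w, endLaw μ l w * G (z - w))
    (S : Finset (Site d)) (a a' : Site d) (hS : ∀ z ∈ S, dot l z < dot l a ∧ dot l z < dot l a') :
    ann μ (Good l) * ann μ (Good l) ≤ ((annAt μ a).prod (annAt μ a')) (Fut l S) +
      ann μ (Good l) * ann μ (Good l) *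
        ∑' z, qhat μ l G z * qhat μ l G (z - (a' - a)) := by
  set q := ann μ (Good l)
  have hstart : ∀ x : Site d, ∀ᵐ X ∂annAt μ x, X 0 = x := by
    intro x
    have hm0 : MeasurableSet {X : ℕ → Site d | ¬X 0 = x} :=
      (show MeasurableSet ((fun X : ℕ → Site d => X 0) ⁻¹' {x}) from
        measurable_pi_apply 0 (measurableSet_singleton x)).compl
    refine ae_iff.2 ?_
    rw [annAt_apply μ x hm0]
    refine (lintegral_eq_zero_iff (measurable_law_apply x hm0)).2
      (Filter.Eventually.of_forall fun ω => ?_)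
    exact ae_iff.1 (ae_law_zero ω x)
  have hG1 : ∀ x, annAt μ x (Good l) = q := fun x => by
    rw [annAt_apply μ x measurableSet_Good, lintegral_law_eq_ann μ x measurableSet_Good,
      translate_preimage_Good]
  have hvis : ∀ x z, annAt μ x (Good l ∩ {X | ∃ i, X i = z}) ≤ q * qhat μ l G (z - x) := by
    intro x z
    have hm := (measurableSet_Good (l := l)).inter (measurableSet_visit z)
    rw [annAt_apply μ x hm, lintegral_law_eq_ann μ x hm, Set.preimage_inter,
      translate_preimage_Good, show (fun (X : ℕ → Site d) i => X i + x) ⁻¹' {X | ∃ i, X i = z} =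
        {X | ∃ i, X i = z - x} by ext X; simp [eq_sub_iff_add_eq],
      ann_eq μ (measurableSet_Good.inter (measurableSet_visit _))]
    exact visit_le μ hμ hq hG (z - x)
  set M : Site d → Set ((ℕ → Site d) × (ℕ → Site d)) := fun z =>
    (Good l ∩ {X | ∃ i, X i = z}) ×ˢ (Good l ∩ {X | ∃ i, X i = z})
  have hcov : ((annAt μ a).prod (annAt μ a')) (Good l ×ˢ Good l) ≤
      ((annAt μ a).prod (annAt μ a')) (Fut l S ∪ ⋃ z, M z) := by
    refine measure_mono_ae ?_
    filter_upwards [(Measure.quasiMeasurePreserving_fst (μ := annAt μ a) (ν := annAt μ a')).ae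
      (hstart a), (Measure.quasiMeasurePreserving_snd (μ := annAt μ a) (ν := annAt μ a')).ae
      (hstart a')] with q h1 h2 hq'
    obtain ⟨⟨hs1, he1⟩, hs2, he2⟩ := hq'
    by_cases hmeet : ∃ i j, q.1 i = q.2 j
    · obtain ⟨i, j, hij⟩ := hmeet
      exact Or.inr (Set.mem_iUnion.2 ⟨q.1 i, ⟨⟨⟨hs1, he1⟩, i, rfl⟩, ⟨hs2, he2⟩, j, hij.symm⟩⟩)
    · refine Or.inl (Set.mem_iInter.2 fun n => ⟨fun i _ => ⟨hs1 i, fun hc => ?_⟩,
        fun i _ => ⟨hs2 i, fun hc => ?_, fun j _ he => hmeet ⟨j, i, he⟩⟩⟩)
      · have := hs1 i; rw [h1] at this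
        exact absurd (hS _ hc).1 this.not_gt
      · have := hs2 i; rw [h2] at this
        exact absurd (hS _ hc).2 this.not_gt
  rw [Measure.prod_prod, hG1, hG1] at hcov
  refine hcov.trans ((measure_union_le _ _).trans (add_le_add le_rfl ?_))
  refine (measure_iUnion_le _).trans ?_
  calc ∑' z, ((annAt μ a).prod (annAt μ a')) (M z)
      ≤ ∑' z, q * q * (qhat μ l G (z - a) * qhat μ l G (z - a')) :=
        ENNReal.tsum_le_tsum fun z => by
          rw [Measure.prod_prod]
          exact (mul_le_mul' (hvis a z) (hvis a' z)).trans (le_of_eq (by ring))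
    _ = _ := by
        rw [ENNReal.tsum_mul_left, ← Equiv.tsum_eq (Equiv.addRight a)]
        simp only [Equiv.coe_addRight, add_sub_cancel_right]
        congr 1
        exact tsum_congr fun z => by congr 2; abel

omit [Nonempty (Fin d)] [IsProbabilityMeasure μ] in
lemma pre_translate_stay {S : Finset (Site d)} {n n' : ℕ} {γ γ' : ℕ → Site d}
    (hS : S = seen n γ ∪ seen n' γ') (h0 : ∀ i ≤ n, 0 ≤ dot l (γ i)) (hz : γ 0 = 0)
    (h0' : ∀ i ≤ n', 0 ≤ dot l (γ' i)) (hz' : γ' 0 = 0)
    (hmeet : ∀ i < n, ∀ j < n', γ i = γ' j → γ i = 0)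
    {q : (ℕ → Site d) × (ℕ → Site d)} (hp : q ∈ pre n γ ×ˢ pre n' γ')
    (hf : (shiftP n q.1, shiftP n' q.2) ∈ Fut l S) :
    q.1 ∈ Stay l ∧ q.2 ∈ Stay l ∧ ∀ i j, q.1 i = q.2 j → q.1 i = 0 := by
  subst hS
  obtain ⟨hp, hp'⟩ := hp
  rw [Fut, Set.mem_iInter] at hf
  have h1 : ∀ i, dot l (γ n) ≤ dot l (q.1 (n + i)) ∧ q.1 (n + i) ∉ seen n γ ∪ seen n' γ' :=
    fun i => ⟨by simpa [shiftP, hp n le_rfl] using ((hf i).1 i le_rfl).1,
      by simpa [shiftP] using ((hf i).1 i le_rfl).2⟩
  have h2 : ∀ i, dot l (γ' n') ≤ dot l (q.2 (n' + i)) ∧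
      q.2 (n' + i) ∉ seen n γ ∪ seen n' γ' :=
    fun i => ⟨by simpa [shiftP, hp' n' le_rfl] using ((hf i).2 i le_rfl).1,
      by simpa [shiftP] using ((hf i).2 i le_rfl).2.1⟩
  refine ⟨fun i => ?_, fun i => ?_, fun i j he => ?_⟩
  · rw [hp 0 (Nat.zero_le n), hz, dot_zero]
    rcases Nat.le_total i n with hi | hi
    · rw [hp i hi]; exact h0 i hi
    · obtain ⟨k, rfl⟩ := Nat.exists_eq_add_of_le hi
      exact (h0 n le_rfl).trans (h1 k).1
  · rw [hp' 0 (Nat.zero_le n'), hz', dot_zero]
    rcases Nat.le_total i n' with hi | hi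
    · rw [hp' i hi]; exact h0' i hi
    · obtain ⟨k, rfl⟩ := Nat.exists_eq_add_of_le hi
      exact (h0' n' le_rfl).trans (h2 k).1
  · rcases Nat.lt_or_ge i n with hi | hi <;> rcases Nat.lt_or_ge j n' with hj | hj
    · rw [hp i hi.le] at he ⊢
      exact hmeet i hi j hj (he.trans (hp' j hj.le))
    · obtain ⟨k, rfl⟩ := Nat.exists_eq_add_of_le hj
      refine absurd (Finset.mem_union_left _ ?_) (h2 k).2
      exact Finset.mem_image.2 ⟨i, Finset.mem_range.2 hi, by rw [← hp i hi.le, he]⟩
    · obtain ⟨k, rfl⟩ := Nat.exists_eq_add_of_le hi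
      refine absurd (Finset.mem_union_right _ ?_) (h1 k).2
      exact Finset.mem_image.2 ⟨j, Finset.mem_range.2 hj, by rw [← hp' j hj.le, he]⟩
    · obtain ⟨k, rfl⟩ := Nat.exists_eq_add_of_le hi
      obtain ⟨k', rfl⟩ := Nat.exists_eq_add_of_le hj
      exact absurd he (((hf (k + k')).2 k' (by omega)).2.2 k (by omega))

/-- Two good prefixes followed by escapes avoiding each other. -/
theorem eta_ne_zero_of_prefix (hμ : ∀ᵐ p ∂μ, (∀ e, 0 < p e) ∧ ∑ e, p e = 1)
    (hq : ann μ (Good l) ≠ 0) {G : Site d → ℝ≥0∞}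
    (hG : ∀ z, G z = (if z = 0 then 1 else 0) + ∑' w, endLaw μ l w * G (z - w))
    (n n' : ℕ) (e e' : ℕ → Step d)
    (h0 : ∀ i ≤ n, 0 ≤ dot l (pathPos 0 e i)) (h0' : ∀ i ≤ n', 0 ≤ dot l (pathPos 0 e' i))
    (h : ∀ i < n, dot l (pathPos 0 e i) < dot l (pathPos 0 e n) ∧
      dot l (pathPos 0 e i) < dot l (pathPos 0 e' n'))
    (h' : ∀ i < n', dot l (pathPos 0 e' i) < dot l (pathPos 0 e n) ∧
      dot l (pathPos 0 e' i) < dot l (pathPos 0 e' n'))
    (hmeet : ∀ i < n, ∀ j < n', pathPos 0 e i = pathPos 0 e' j → pathPos 0 e i = (0 : Site d))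
    (hcorr : ∑' z, qhat μ l G z *
      qhat μ l G (z - (pathPos 0 e' n' - pathPos 0 e n)) < 1) : eta μ l ≠ 0 := by
  classical
  set γ := pathPos (0 : Site d) e
  set γ' := pathPos (0 : Site d) e'
  set S := seen n γ ∪ seen n' γ'
  set f : Env d → ℝ≥0∞ := fun ω => law ω 0 (pre n γ) * law ω 0 (pre n' γ')
  set g : Env d → ℝ≥0∞ := fun ω => ((law ω (γ n)).prod (law ω (γ' n'))) (Fut l S)
  have hfm : Measurable f :=
    (measurable_law_apply 0 (measurableSet_pre _ _)).mul
      (measurable_law_apply 0 (measurableSet_pre _ _))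
  have hgm : Measurable g := measurable_pair_law _ _ (measurableSet_Fut S)
  have hg0 : ∫⁻ ω, g ω ∂envLaw μ ≠ 0 := by
    simp only [g]
    rw [lintegral_Fut μ S]
    intro hF
    have hS : ∀ z ∈ S, dot l z < dot l (γ n) ∧ dot l z < dot l (γ' n') := by
      intro z hz
      rcases Finset.mem_union.1 hz with hz | hz <;>
        obtain ⟨i, hi, rfl⟩ := Finset.mem_image.1 hz
      · exact h i (Finset.mem_range.1 hi)
      · exact h' i (Finset.mem_range.1 hi)
    have hle := sq_le_Fut μ hμ hq hG S _ _ hS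
    rw [hF, zero_add] at hle
    have hqt : ann μ (Good l) ≠ ⊤ := by
      rw [ann_eq μ measurableSet_Good]; exact measure_ne_top _ _
    exact hle.not_gt (by
      conv_rhs => rw [← mul_one (ann μ (Good l) * ann μ (Good l))]
      exact ENNReal.mul_lt_mul_right (mul_ne_zero hq hq) (ENNReal.mul_ne_top hqt hqt) hcorr)
  have hf0 : ∫⁻ ω, f ω ∂envLaw μ ≠ 0 := by
    intro hF
    obtain ⟨ω, h1, h2⟩ := (((lintegral_eq_zero_iff hfm).1 hF).and (ae_elliptic μ hμ)).exists
    exact mul_ne_zero (law_pre_pathPos_pos h2 0 n e).ne' (law_pre_pathPos_pos h2 0 n' e').ne' h1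
  have hkey : ∫⁻ ω, f ω * g ω ∂envLaw μ ≤ eta μ l := by
    refine lintegral_mono_ae ?_
    filter_upwards [ae_elliptic μ hμ] with ω hω
    refine le_trans (le_of_eq ?_) (measure_mono (s := pre n γ ×ˢ pre n' γ' ∩
      Prod.map (shiftP n) (shiftP n') ⁻¹' Fut l S) fun q hq' =>
        pre_translate_stay rfl h0 (by simp [γ, pathPos]) h0' (by simp [γ', pathPos]) hmeet
          hq'.1 hq'.2)
    rw [Set.inter_comm, ← Measure.restrict_apply
        ((measurable_shiftP n).prodMap (measurable_shiftP n') (measurableSet_Fut S)),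
      ← Measure.prod_restrict, ← Measure.map_apply
        ((measurable_shiftP n).prodMap (measurable_shiftP n')) (measurableSet_Fut S),
      ← Measure.map_prod_map _ _ (measurable_shiftP n) (measurable_shiftP n'),
      markov_map hω (measurableSet_pre n γ) (fun X Y hXY => propext
        ⟨fun hX i hi => (hXY i hi) ▸ hX i hi, fun hY i hi => (hXY i hi).symm ▸ hY i hi⟩)
        (fun X hX => hX n le_rfl),
      markov_map hω (measurableSet_pre n' γ') (fun X Y hXY => propext
        ⟨fun hX i hi => (hXY i hi) ▸ hX i hi, fun hY i hi => (hXY i hi).symm ▸ hY i hi⟩)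
        (fun X hX => hX n' le_rfl),
      Measure.prod_smul_left, Measure.prod_smul_right]
    simp only [f, g, Measure.smul_apply, smul_eq_mul, mul_assoc]
  intro he
  rw [he, nonpos_iff_eq_zero, lintegral_mul_of_local μ S hfm hgm] at hkey
  · exact mul_ne_zero hf0 hg0 hkey
  · intro ω ω' hS
    simp only [f]
    rw [law_pre_congr 0 fun i hi => hS _ (Finset.mem_union_left _
        (Finset.mem_image_of_mem _ (Finset.mem_range.2 hi))),
      law_pre_congr 0 fun i hi => hS _ (Finset.mem_union_right _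
        (Finset.mem_image_of_mem _ (Finset.mem_range.2 hi)))]
  · intro ω ω' hS
    set Av : Set (ℕ → Site d) := {X | ∀ k, X k ∉ (↑S : Set (Site d))}
    have hsub : Fut l S ⊆ Av ×ˢ Av := fun q hq' => by
      rw [Fut, Set.mem_iInter] at hq'
      exact ⟨fun k => by simpa using ((hq' k).1 k le_rfl).2,
        fun k => by simpa using ((hq' k).2 k le_rfl).2.1⟩
    have hres : ∀ ω : Env d, g ω =
        (((law ω (γ n)).restrict Av).prod ((law ω (γ' n')).restrict Av)) (Fut l S) := fun ω => by
      rw [Measure.prod_restrict, Measure.restrict_apply (measurableSet_Fut S),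
        Set.inter_eq_left.2 hsub]
    have heq : ∀ x : Site d, (law ω x).restrict Av = (law ω' x).restrict Av := fun x =>
      Measure.ext fun B hB => by
        rw [Measure.restrict_apply hB, Measure.restrict_apply hB, Set.inter_comm]
        exact law_avoid_congr x hB fun y hy => hS y (by simpa using hy)
    rw [hres ω, hres ω', heq, heq]

omit [Nonempty (Fin d)] in
lemma pathPos_const (u : Step d) (i : ℕ) : pathPos 0 (fun _ => u) i = i • vec u := by
  simp [pathPos]

omit [Nonempty (Fin d)] in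
lemma vec_axis_ne_zero (u : Step d) : vec u u.1 ≠ 0 := by
  rcases u with ⟨i, b⟩; cases b <;> simp [vec]

/-- In four and more dimensions two walks stay above the origin and meet only there. -/
theorem etaPin (hμ : ∀ᵐ p ∂μ, (∀ e, 0 < p e) ∧ ∑ e, p e = 1) : EtaPin μ l := by
  classical
  intro hd hq hb
  have hl : l ≠ 0 := by
    rintro rfl
    refine hq ?_
    have : Good (d := d) (0 : Fin d → ℝ) = ∅ := Set.eq_empty_of_forall_notMem fun X hX => by
      have h0 : ∀ n, dot (0 : Fin d → ℝ) (X n) = 0 := fun n => by simp [dot]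
      obtain ⟨n, hn⟩ := (Filter.tendsto_atTop.1 hX.2 1).exists
      rw [h0 n] at hn; norm_num at hn
    simp [this, ann]
  obtain ⟨y, y', hy, hli⟩ := exists_spanning μ hμ hl
  have hpos : ∀ z, endLaw μ l z ≠ 0 → 0 < dot l z := by
    intro z hz
    simp only [endLaw, ne_eq, ENNReal.tsum_eq_zero, not_forall] at hz
    obtain ⟨n, a, hna⟩ := hz
    split_ifs at hna with hc
    · obtain ⟨⟨hn, h0, -, hR, -⟩, he⟩ := hc
      have := hR 0 hn
      rwa [h0, dot_zero, he] at this
    · exact absurd rfl hna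
  obtain ⟨G, hG, hG2⟩ := greenPin d hd l (endLaw μ l) (tsum_endLaw_le_one μ hμ hq) hpos y y' hy hli
  have hcorr : Tendsto (fun v : Site d => ∑' z, qhat μ l G z * qhat μ l G (z - v))
      cofinite (𝓝 0) := corrPin d G (blockMass μ l) hG2 hb
  have hchoose : ∀ v : ℕ → Site d, Function.Injective v →
      ∃ M, ∑' z, qhat μ l G z * qhat μ l G (z - v M) < 1 := fun v hv =>
    ((hcorr.comp hv.tendsto_cofinite).eventually (Iio_mem_nhds zero_lt_one)).exists
  obtain ⟨u, hu0, humax⟩ := exists_up hl
  set L := dot l (vec u)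
  have hdotn : ∀ (w : Step d) (i : ℕ), dot l (pathPos 0 (fun _ => w) i) = i * dot l (vec w) :=
    fun w i => by simp [dot_pathPos]
  by_cases hj : ∃ j, j ≠ u.1 ∧ l j ≠ 0
  · obtain ⟨j, hju, hlj⟩ := hj
    set u' : Step d := (j, decide (0 ≤ l j))
    set L' := dot l (vec u')
    have hL' : L' = |l j| := by
      simp only [L', dot_vec, u']
      by_cases hs : 0 ≤ l j
      · simp [hs, abs_of_nonneg hs]
      · simp [hs, abs_of_neg (not_le.1 hs)]
    have hL'0 : 0 < L' := hL' ▸ abs_pos.2 hlj
    set m : ℕ → ℕ := fun M => ⌈((M : ℝ) + 1) * L / L'⌉₊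
    have hu'c : vec u' u.1 = 0 := by simp [vec, u', Pi.single_eq_of_ne (Ne.symm hju)]
    obtain ⟨M, hM⟩ := hchoose (fun M => m M • vec u' - (M + 1) • vec u) fun A B hAB => by
      have := congrFun hAB u.1
      simp only [Pi.sub_apply, Pi.smul_apply, hu'c, smul_zero, zero_sub, neg_inj] at this
      rw [nsmul_eq_mul, nsmul_eq_mul] at this
      simpa using mul_right_cancel₀ (vec_axis_ne_zero u) this
    have hc1 : ((M : ℝ) + 1) * L ≤ m M * L' := (div_le_iff₀ hL'0).1 (Nat.le_ceil _)
    refine eta_ne_zero_of_prefix μ hμ hq hG (M + 1) (m M) (fun _ => u) (fun _ => u')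
      (fun i _ => by rw [hdotn]; positivity) (fun i _ => by rw [hdotn]; positivity)
      (fun i hi => ?_) (fun i hi => ?_) (fun i _ k _ he => ?_) ?_
    · have hi' : (i : ℝ) < M + 1 := by exact_mod_cast hi
      simp only [hdotn]
      push_cast
      exact ⟨by nlinarith, by nlinarith⟩
    · have hi' : (i : ℝ) * L' < (M + 1) * L := (lt_div_iff₀ hL'0).1 (Nat.lt_ceil.1 hi)
      simp only [hdotn]
      push_cast
      exact ⟨hi', hi'.trans_le hc1⟩
    · have := congrFun he u.1
      rw [pathPos_const, pathPos_const] at this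
      simp only [Pi.smul_apply, hu'c, smul_zero, smul_eq_zero] at this
      rw [pathPos_const, this.resolve_right (vec_axis_ne_zero u), zero_smul]
    · simpa [pathPos_const] using hM
  · simp only [not_exists, not_and, not_not] at hj
    have : Nontrivial (Fin d) := Fin.nontrivial_iff_two_le.2 (by omega)
    obtain ⟨j, hju⟩ := exists_ne u.1
    set w : Step d := (j, true)
    have hw : dot l (vec w) = 0 := by simp [dot_vec, w, hj j hju]
    obtain ⟨M, hM⟩ := hchoose (fun M => M • vec w) fun A B hAB => by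
      simpa [w, vec] using congrFun hAB j
    have he : ∀ i ≤ M, pathPos 0 (fun k => if k < M then w else u) i = i • vec w := by
      intro i hi
      simp only [pathPos, zero_add]
      rw [Finset.sum_congr rfl fun k hk => by
        rw [if_pos (lt_of_lt_of_le (Finset.mem_range.1 hk) hi)]]
      simp
    have he1 : pathPos 0 (fun k => if k < M then w else u) (M + 1) = M • vec w + vec u := by
      have := he M le_rfl
      simp only [pathPos, zero_add] at this ⊢
      rw [Finset.sum_range_succ, this, if_neg (lt_irrefl M)]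
    have hnw : ∀ i : ℕ, dot l (i • vec w) = 0 := fun i => by
      rw [← pathPos_const, hdotn, hw, mul_zero]
    refine eta_ne_zero_of_prefix μ hμ hq hG 1 (M + 1) (fun _ => u)
      (fun k => if k < M then w else u) (fun i _ => by rw [hdotn]; positivity) (fun i hi => ?_)
      (fun i hi => ?_) (fun i hi => ?_) (fun i hi _ _ _ => ?_) ?_
    · rcases hi.lt_or_eq with hi | rfl
      · rw [he i (by omega), hnw]
      · rw [he1, dot_add, hnw, zero_add]; exact hu0.le
    · obtain rfl : i = 0 := by omega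
      rw [hdotn, hdotn, he1, dot_add, hnw]
      exact ⟨by simpa using hu0, by simpa using hu0⟩
    · rw [he i (by omega), hnw, hdotn, he1, dot_add, hnw]
      exact ⟨by simpa using hu0, by simpa using hu0⟩
    · obtain rfl : i = 0 := by omega
      simp [pathPos]
    · rw [pathPos_const, one_smul, he1]
      simpa using hM

end Vale.Agent.P147.Linear
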