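import Vale.Agent.P147.Linear.Defs

/-!
# Convolutions on the lattice

Convolution algebra, lazy steps along independent vectors and second moments of heights, for the
square summability of the Green function.
-/

namespace Vale.Agent.P147.Linear.GreenAux

open MeasureTheory Filter Topology
open scoped ENNReal

variable {d : ℕ}

/-- The point mass at a site. -/
noncomputable def pt (v : Site d) (z : Site d) : ℝ≥0∞ := if z = v then 1 else 0

/-- Convolution. -/
noncomputable def cv (f g : Site d → ℝ≥0∞) (z : Site d) : ℝ≥0∞ := ∑' w, f w * g (z - w)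

/-- Convolution powers. -/
noncomputable def pw (f : Site d → ℝ≥0∞) : ℕ → Site d → ℝ≥0∞
  | 0 => pt 0
  | n + 1 => cv f (pw f n)

/-- Reflection. -/
def rv (f : Site d → ℝ≥0∞) (z : Site d) : ℝ≥0∞ := f (-z)

/-- Total mass. -/
noncomputable def tot (f : Site d → ℝ≥0∞) : ℝ≥0∞ := ∑' z, f z

theorem tsum_shift (g : Site d → ℝ≥0∞) (w : Site d) : ∑' z, g (z - w) = ∑' z, g z :=
  (Equiv.subRight w).tsum_eq g

theorem cv_comm (f g : Site d → ℝ≥0∞) : cv f g = cv g f := by
  funext z
  calc cv f g z = ∑' w, f (z - w) * g (z - (z - w)) :=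
        ((Equiv.subLeft z).tsum_eq fun w => f w * g (z - w)).symm
    _ = cv g f z := tsum_congr fun w => by rw [sub_sub_cancel, mul_comm]

theorem cv_assoc (f g h : Site d → ℝ≥0∞) : cv (cv f g) h = cv f (cv g h) := by
  funext z
  simp only [cv, ← ENNReal.tsum_mul_right, ← ENNReal.tsum_mul_left]
  rw [ENNReal.tsum_comm]
  refine tsum_congr fun u => ?_
  rw [← (Equiv.addRight u).tsum_eq fun w => f u * g (w - u) * h (z - w)]
  refine tsum_congr fun t => ?_
  rw [Equiv.coe_addRight, add_sub_cancel_right, show z - (t + u) = z - u - t by abel, mul_assoc]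

theorem pt_cv (v : Site d) (g : Site d → ℝ≥0∞) (z : Site d) : cv (pt v) g z = g (z - v) := by
  rw [cv, tsum_eq_single v fun w hw => by simp [pt, hw]]
  simp [pt]

theorem zero_cv (g : Site d → ℝ≥0∞) : cv (pt 0) g = g := by
  funext z
  rw [pt_cv, sub_zero]

theorem cv_zero (g : Site d → ℝ≥0∞) : cv g (pt 0) = g := by rw [cv_comm, zero_cv]

theorem cv_shuffle (a b c e : Site d → ℝ≥0∞) :
    cv (cv a b) (cv c e) = cv (cv a c) (cv b e) := by
  rw [cv_assoc, ← cv_assoc b c e, cv_comm b c, cv_assoc c b e, ← cv_assoc a c]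

theorem pw_one (f : Site d → ℝ≥0∞) : pw f 1 = f := by
  rw [pw, pw, cv_zero]

theorem pw_add (f : Site d → ℝ≥0∞) (m n : ℕ) : pw f (m + n) = cv (pw f m) (pw f n) := by
  induction m with
  | zero => rw [Nat.zero_add, pw, zero_cv]
  | succ m ih => rw [Nat.add_right_comm, pw, pw, ih, cv_assoc]

theorem pw_pw (f : Site d → ℝ≥0∞) (m n : ℕ) : pw (pw f m) n = pw f (m * n) := by
  induction n with
  | zero => simp [pw]
  | succ n ih => rw [pw, ih, ← pw_add, Nat.mul_succ, Nat.add_comm]

theorem pw_cv (f g : Site d → ℝ≥0∞) (n : ℕ) : pw (cv f g) n = cv (pw f n) (pw g n) := by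
  induction n with
  | zero => rw [pw, pw, pw, zero_cv]
  | succ n ih => rw [pw, pw, pw, ih, cv_shuffle]

theorem rv_pt_zero : rv (pt (0 : Site d)) = pt 0 := by
  funext z
  simp [rv, pt]

theorem rv_cv (f g : Site d → ℝ≥0∞) : rv (cv f g) = cv (rv f) (rv g) := by
  funext z
  rw [rv, cv, ← (Equiv.neg (Site d)).tsum_eq fun w => f w * g (-z - w)]
  refine tsum_congr fun w => ?_
  simp only [rv, Equiv.neg_apply]
  rw [show -z - -w = -(z - w) by abel]

theorem pw_rv (f : Site d → ℝ≥0∞) (n : ℕ) : pw (rv f) n = rv (pw f n) := by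
  induction n with
  | zero => rw [pw, pw, rv_pt_zero]
  | succ n ih => rw [pw, pw, ih, rv_cv]

theorem tot_pt (v : Site d) : tot (pt v) = 1 := by
  rw [tot, tsum_eq_single v fun w hw => by simp [pt, hw]]
  simp [pt]

theorem tot_cv (f g : Site d → ℝ≥0∞) : tot (cv f g) = tot f * tot g := by
  unfold tot cv
  rw [ENNReal.tsum_comm, ← ENNReal.tsum_mul_right]
  refine tsum_congr fun w => ?_
  rw [ENNReal.tsum_mul_left, tsum_shift]

theorem tot_rv (f : Site d → ℝ≥0∞) : tot (rv f) = tot f :=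
  (Equiv.neg (Site d)).tsum_eq f

theorem tot_pw (f : Site d → ℝ≥0∞) (n : ℕ) : tot (pw f n) = tot f ^ n := by
  induction n with
  | zero => rw [pw, tot_pt, pow_zero]
  | succ n ih => rw [pw, tot_cv, ih, pow_succ']

theorem cv_mono {f f' g g' : Site d → ℝ≥0∞} (hf : ∀ z, f z ≤ f' z) (hg : ∀ z, g z ≤ g' z)
    (z : Site d) : cv f g z ≤ cv f' g' z :=
  ENNReal.tsum_le_tsum fun w => mul_le_mul' (hf w) (hg _)

theorem mul_le_cv (f g : Site d → ℝ≥0∞) (w z : Site d) : f w * g (z - w) ≤ cv f g z :=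
  ENNReal.le_tsum w

theorem const_mul_cv (c : ℝ≥0∞) (f g : Site d → ℝ≥0∞) :
    cv (fun z => c * f z) g = fun z => c * cv f g z := by
  funext z
  rw [cv, cv, ← ENNReal.tsum_mul_left]
  exact tsum_congr fun w => mul_assoc _ _ _

theorem add_cv (f f' g : Site d → ℝ≥0∞) :
    cv (fun z => f z + f' z) g = fun z => cv f g z + cv f' g z := by
  funext z
  rw [cv, cv, cv, ← ENNReal.tsum_add]
  exact tsum_congr fun w => add_mul _ _ _

/-! ## Lazy steps -/

/-- A fair step among `0` and `v`. -/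
noncomputable def half (v : Site d) (z : Site d) : ℝ≥0∞ := 2⁻¹ * pt 0 z + 2⁻¹ * pt v z

/-- The lazy symmetric step along `v`. -/
noncomputable def lazy (v : Site d) : Site d → ℝ≥0∞ := cv (pt (-v)) (cv (half v) (half v))

theorem tot_half (v : Site d) : tot (half v) = 1 := by
  have h := tot_pt (0 : Site d)
  have h' := tot_pt v
  rw [tot] at h h'
  simp only [tot, half, ENNReal.tsum_add, ENNReal.tsum_mul_left, h, h', mul_one,
    ENNReal.inv_two_add_inv_two]

theorem tot_lazy (v : Site d) : tot (lazy v) = 1 := by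
  rw [lazy, tot_cv, tot_cv, tot_pt, tot_half, mul_one, mul_one]

theorem half_cv (v : Site d) (g : Site d → ℝ≥0∞) (z : Site d) :
    cv (half v) g z = 2⁻¹ * g z + 2⁻¹ * g (z - v) := by
  unfold half
  simp only [add_cv, const_mul_cv, pt_cv, sub_zero]

theorem lazy_apply (v z : Site d) :
    lazy v z = 2⁻¹ * (2⁻¹ * pt (-v) z + 2⁻¹ * pt 0 z) + 2⁻¹ * (2⁻¹ * pt 0 z + 2⁻¹ * pt v z) := by
  have e1 : pt 0 (z - -v) = pt (-v) z := by simp [pt, add_eq_zero_iff_eq_neg]
  have e2 : pt v (z - -v) = pt 0 z := by simp [pt]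
  have e3 : pt 0 (z - -v - v) = pt 0 z := by simp [pt]
  have e4 : pt v (z - -v - v) = pt v z := by simp [pt]
  rw [lazy, pt_cv, half_cv]
  simp only [half, e1, e2, e3, e4]

theorem rv_lazy (v : Site d) : rv (lazy v) = lazy v := by
  funext z
  have e1 : pt (-v) (-z) = pt v z := by simp [pt]
  have e2 : pt v (-z) = pt (-v) z := by simp [pt, neg_eq_iff_eq_neg]
  have e3 : pt 0 (-z) = pt 0 z := by simp [pt]
  rw [rv, lazy_apply, lazy_apply, e1, e2, e3]
  ring

theorem lazy_le_one (v z : Site d) : lazy v z ≤ 1 :=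
  (ENNReal.le_tsum z).trans_eq (tot_lazy v)

theorem lazy_ne_zero {v z : Site d} (h : lazy v z ≠ 0) : z = 0 ∨ z = v ∨ z = -v := by
  by_contra hc
  push Not at hc
  exact h (by simp [lazy_apply, pt, hc.1, hc.2.1, hc.2.2])

theorem pw_half (v : Site d) (n : ℕ) (z : Site d) :
    pw (half v) n z = 2⁻¹ ^ n * ∑ i ∈ Finset.range (n + 1), (n.choose i : ℝ≥0∞) * pt (i • v) z := by
  induction n generalizing z with
  | zero => simp [pw]
  | succ n ih =>
    have hs : ∀ i, pt (i • v) (z - v) = pt ((i + 1) • v) z := by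
      intro i
      simp only [pt, sub_eq_iff_eq_add, succ_nsmul]
    rw [pw, half_cv, ih, ih, Finset.sum_choose_succ_mul (fun i _ => pt (i • v) z) n]
    simp only [hs]
    ring

theorem pw_pt (v : Site d) (k : ℕ) : pw (pt v) k = pt (k • v) := by
  induction k with
  | zero => rw [pw, zero_smul]
  | succ k ih =>
    funext z
    rw [pw, ih, pt_cv]
    simp only [pt, sub_eq_iff_eq_add, succ_nsmul]

theorem pw_lazy (v : Site d) (k : ℕ) (z : Site d) :
    pw (lazy v) k z = pw (half v) (2 * k) (z + k • v) := by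
  rw [lazy, pw_cv, pw_cv, pw_pt, ← pw_add, ← two_mul, pt_cv, smul_neg, sub_neg_eq_add]

/-- The central binomial probability. -/
noncomputable def cbin (k : ℕ) : ℝ≥0∞ := ENNReal.ofReal ((k.centralBinom : ℝ) / 4 ^ k)

theorem centralBinom_sq (k : ℕ) : k.centralBinom ^ 2 * (2 * k + 1) ≤ 16 ^ k := by
  induction k with
  | zero => simp
  | succ k ih =>
    have h := Nat.succ_mul_centralBinom_succ k
    have key : (k + 1) ^ 2 * ((k + 1).centralBinom ^ 2 * (2 * (k + 1) + 1))
        ≤ (k + 1) ^ 2 * 16 ^ (k + 1) := by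
      calc (k + 1) ^ 2 * ((k + 1).centralBinom ^ 2 * (2 * (k + 1) + 1))
          = ((k + 1) * (k + 1).centralBinom) ^ 2 * (2 * (k + 1) + 1) := by ring
        _ = 4 * ((2 * k + 1) * (2 * (k + 1) + 1)) * (k.centralBinom ^ 2 * (2 * k + 1)) := by
            rw [h]; ring
        _ ≤ 4 * (4 * (k + 1) ^ 2) * 16 ^ k :=
            Nat.mul_le_mul (Nat.mul_le_mul le_rfl (by nlinarith)) ih
        _ = (k + 1) ^ 2 * 16 ^ (k + 1) := by ring
    exact Nat.le_of_mul_le_mul_left key (by positivity)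

theorem cbin_pow_le {m : ℕ} (hm : 4 ≤ m) (k : ℕ) :
    cbin k ^ m ≤ ENNReal.ofReal ((((2 * k + 1 : ℕ) : ℝ) ^ 2)⁻¹) := by
  set x : ℝ := (k.centralBinom : ℝ) / 4 ^ k with hx
  have hx0 : 0 ≤ x := by positivity
  have h : ((k.centralBinom : ℝ)) ^ 2 * ((2 * k + 1 : ℕ) : ℝ) ≤ 16 ^ k := by
    exact_mod_cast centralBinom_sq k
  have hn : (1 : ℝ) ≤ ((2 * k + 1 : ℕ) : ℝ) := by
    exact_mod_cast Nat.le_add_left 1 (2 * k)
  have hsq : x ^ 2 ≤ (((2 * k + 1 : ℕ) : ℝ))⁻¹ := by
    rw [hx, div_pow, ← pow_mul, mul_comm k 2, pow_mul, inv_eq_one_div,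
      div_le_div_iff₀ (by positivity) (by positivity), one_mul]
    calc _ ≤ (16 : ℝ) ^ k := h
      _ = _ := by norm_num
  have hx1 : x ≤ 1 := by
    have hle : x ^ 2 ≤ 1 := hsq.trans (inv_le_one_of_one_le₀ hn)
    nlinarith
  rw [cbin, ← hx, ← ENNReal.ofReal_pow hx0]
  apply ENNReal.ofReal_le_ofReal
  calc x ^ m ≤ x ^ 4 := pow_le_pow_of_le_one hx0 hx1 hm
    _ = (x ^ 2) ^ 2 := by ring
    _ ≤ ((((2 * k + 1 : ℕ) : ℝ))⁻¹) ^ 2 := pow_le_pow_left₀ (sq_nonneg x) hsq 2
    _ = _ := inv_pow _ _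

theorem nsmul_inj {v : Site d} (hv : v ≠ 0) {i j : ℕ} (h : i • v = j • v) : i = j := by
  obtain ⟨c, hc⟩ := Function.ne_iff.1 hv
  have h' := congrFun h c
  simp only [Pi.smul_apply, nsmul_eq_mul] at h'
  exact_mod_cast mul_right_cancel₀ hc h'

theorem pw_lazy_le {v : Site d} (hv : v ≠ 0) (k : ℕ) (z : Site d) :
    pw (lazy v) k z ≤ cbin k ∧ (pw (lazy v) k z ≠ 0 → ∃ i : ℤ, z = i • v) := by
  rw [pw_lazy, pw_half]
  by_cases h : ∃ i, i ∈ Finset.range (2 * k + 1) ∧ z + k • v = i • v
  · obtain ⟨i, hi, he⟩ := h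
    refine ⟨?_, fun _ => ⟨(i : ℤ) - k, ?_⟩⟩
    · rw [Finset.sum_eq_single_of_mem i hi (fun j _ hj => by
        rw [pt, if_neg (fun hc => hj (nsmul_inj hv (hc.symm.trans he))), mul_zero])]
      rw [pt, if_pos he, mul_one, cbin, ENNReal.ofReal_div_of_pos (by positivity),
        ENNReal.ofReal_natCast, ENNReal.ofReal_pow (by norm_num), ENNReal.ofReal_ofNat,
        ENNReal.inv_pow.symm, mul_comm, ← div_eq_mul_inv, pow_mul]
      norm_num
      gcongr
      rw [Nat.centralBinom_eq_two_mul_choose]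
      simpa using Nat.choose_le_middle i (2 * k)
    · rw [sub_smul, natCast_zsmul, natCast_zsmul, ← he, add_sub_cancel_right]
  · push Not at h
    rw [Finset.sum_eq_zero fun j hj => by rw [pt, if_neg (h j hj), mul_zero]]
    simp

/-- The product of the first `m` lazy steps. -/
noncomputable def prodLazy (v : ℕ → Site d) : ℕ → Site d → ℝ≥0∞
  | 0 => pt 0
  | m + 1 => cv (lazy (v m)) (prodLazy v m)

theorem tot_prodLazy (v : ℕ → Site d) (m : ℕ) : tot (prodLazy v m) = 1 := by
  induction m with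
  | zero => rw [prodLazy, tot_pt]
  | succ m ih => rw [prodLazy, tot_cv, tot_lazy, ih, one_mul]

theorem rv_prodLazy (v : ℕ → Site d) (m : ℕ) : rv (prodLazy v m) = prodLazy v m := by
  induction m with
  | zero => rw [prodLazy, rv_pt_zero]
  | succ m ih => rw [prodLazy, rv_cv, rv_lazy, ih]

theorem pw_prodLazy_le (v : ℕ → Site d) (D : ℕ)
    (hv : ∀ n : ℕ → ℤ, ∑ c ∈ Finset.range D, n c • v c = 0 → ∀ c < D, n c = 0)
    (k m : ℕ) (hm : m ≤ D) (z : Site d) :
    pw (prodLazy v m) k z ≤ cbin k ^ m ∧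
      (pw (prodLazy v m) k z ≠ 0 →
        ∃ n : ℕ → ℤ, (∀ c, m ≤ c → n c = 0) ∧ z = ∑ c ∈ Finset.range D, n c • v c) := by
  induction m generalizing z with
  | zero =>
    have h0 : pw (pt (0 : Site d)) k = pt 0 := by rw [pw_pt, smul_zero]
    rw [prodLazy, h0]
    refine ⟨?_, fun h => ⟨0, fun c _ => rfl, ?_⟩⟩
    · rw [pt, pow_zero]
      split <;> simp
    · have hz : z = 0 := by_contra fun hz => h (if_neg hz)
      simp [hz]
  | succ m ih =>
    have hmD : m < D := hm
    have ih := ih (Nat.le_of_succ_le hm)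
    have hvm : v m ≠ 0 := by
      intro h0
      have h := hv (fun c => if c = m then 1 else 0) (by simp [ite_smul, h0]) m hmD
      simp at h
    rw [prodLazy, pw_cv]
    by_cases h : ∀ w, pw (lazy (v m)) k w * pw (prodLazy v m) k (z - w) = 0
    · rw [cv, ENNReal.tsum_eq_zero.2 h]
      simp
    push Not at h
    obtain ⟨w, hw⟩ := h
    obtain ⟨hw1, hw2⟩ := mul_ne_zero_iff.1 hw
    obtain ⟨i, rfl⟩ := (pw_lazy_le hvm k w).2 hw1
    obtain ⟨n, hn, hz⟩ := (ih (z - i • v m)).2 hw2
    refine ⟨?_, fun _ => ⟨Function.update n m i, fun c hc => ?_, ?_⟩⟩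
    · rw [cv, tsum_eq_single (i • v m) ?_, pow_succ']
      · exact mul_le_mul' (pw_lazy_le hvm k _).1 (ih _).1
      intro w' hne
      by_contra hne0
      obtain ⟨h1, h2⟩ := mul_ne_zero_iff.1 hne0
      obtain ⟨i', rfl⟩ := (pw_lazy_le hvm k w').2 h1
      obtain ⟨n', hn', hz'⟩ := (ih (z - i' • v m)).2 h2
      apply hne
      have hsum : ∑ c ∈ Finset.range D,
          (n c - n' c + if c = m then i - i' else 0) • v c = 0 := by
        simp only [add_smul, sub_smul, Finset.sum_add_distrib, Finset.sum_sub_distrib, ite_smul,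
          zero_smul, Finset.sum_ite_eq', Finset.mem_range, hmD, if_true, ← hz, ← hz']
        module
      have hii := hv _ hsum m hmD
      rw [hn m le_rfl, hn' m le_rfl, if_pos rfl] at hii
      rw [show i' = i by omega]
    · rw [Function.update_of_ne (by omega), hn c (by omega)]
    · have e : ∀ c, Function.update n m i c • v c = n c • v c + if c = m then i • v m else 0 := by
        intro c
        rcases eq_or_ne c m with rfl | hc
        · rw [Function.update_self, hn c le_rfl, zero_smul, zero_add, if_pos rfl]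
        · rw [Function.update_of_ne hc, if_neg hc, add_zero]
      rw [Finset.sum_congr rfl fun c _ => e c, Finset.sum_add_distrib, ← hz, Finset.sum_ite_eq',
        if_pos (Finset.mem_range.2 hmD)]
      abel

/-! ## Second moments of heights -/

theorem dot_add (l : Fin d → ℝ) (x y : Site d) : dot l (x + y) = dot l x + dot l y := by
  simp [dot, add_mul, Finset.sum_add_distrib]

theorem dot_sub (l : Fin d → ℝ) (x y : Site d) : dot l (x - y) = dot l x - dot l y := by
  simp [dot, sub_mul, Finset.sum_sub_distrib]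

theorem dot_zero (l : Fin d → ℝ) : dot l (0 : Site d) = 0 := by simp [dot]

/-- The second moment of the height. -/
noncomputable def mom (l : Fin d → ℝ) (f : Site d → ℝ≥0∞) : ℝ≥0∞ :=
  ∑' z, f z * ENNReal.ofReal (dot l z ^ 2)

theorem mom_cv (l : Fin d → ℝ) (f : Site d → ℝ≥0∞) {g : Site d → ℝ≥0∞} (hg : rv g = g) :
    mom l (cv f g) = mom l f * tot g + tot f * mom l g := by
  set q : ℝ → ℝ≥0∞ := fun x => ENNReal.ofReal (x ^ 2) with hq
  have h1 : mom l (cv f g) = ∑' w, f w * ∑' u, g u * q (dot l w + dot l u) := by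
    unfold mom cv
    simp only [← ENNReal.tsum_mul_right]
    rw [ENNReal.tsum_comm]
    refine tsum_congr fun w => ?_
    rw [← ENNReal.tsum_mul_left, ← tsum_shift (fun u => f w * (g u * q (dot l w + dot l u))) w]
    refine tsum_congr fun z => ?_
    rw [dot_sub, add_sub_cancel, mul_assoc]
  have h2 : ∀ x : ℝ, ∑' u, g u * q (x + dot l u) = q x * tot g + mom l g := by
    intro x
    have hneg : ∑' u, g u * q (x - dot l u) = ∑' u, g u * q (x + dot l u) := by
      rw [← (Equiv.neg (Site d)).tsum_eq fun u => g u * q (x + dot l u)]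
      refine tsum_congr fun u => ?_
      simp only [Equiv.neg_apply]
      rw [show g (-u) = g u from congrFun hg u, show dot l (-u) = -dot l u by simp [dot],
        ← sub_eq_add_neg]
    have hd : (∑' u, g u * q (x + dot l u)) + ∑' u, g u * q (x - dot l u)
        = 2 * (q x * tot g + mom l g) := by
      rw [← ENNReal.tsum_add, tot, mom, ← ENNReal.tsum_mul_left (a := q x), ← ENNReal.tsum_add,
        ← ENNReal.tsum_mul_left]
      refine tsum_congr fun u => ?_
      have e : q (x + dot l u) + q (x - dot l u) = 2 * (q x + q (dot l u)) := by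
        simp only [hq]
        rw [← ENNReal.ofReal_add (by positivity) (by positivity),
          ← ENNReal.ofReal_add (by positivity) (by positivity), ← ENNReal.ofReal_ofNat 2,
          ← ENNReal.ofReal_mul (by norm_num)]
        congr 1
        ring
      rw [← mul_add, e]
      simp only [hq]
      ring
    rw [hneg, ← two_mul] at hd
    exact (ENNReal.mul_right_inj two_ne_zero (by norm_num)).1 hd
  rw [h1]
  simp only [h2, mul_add, ENNReal.tsum_add]
  rw [ENNReal.tsum_mul_right, ← tot]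
  congr 1
  rw [mom, ← ENNReal.tsum_mul_right]
  exact tsum_congr fun w => (mul_assoc _ _ _).symm

theorem mom_pt_zero (l : Fin d → ℝ) : mom l (pt 0) = 0 := by
  rw [mom, tsum_eq_single (0 : Site d) fun w hw => by simp [pt, hw]]
  simp [dot_zero]

theorem mom_lazy_ne_top (l : Fin d → ℝ) (v : Site d) : mom l (lazy v) ≠ ⊤ := by
  have hs : (Function.support fun z => lazy v z * ENNReal.ofReal (dot l z ^ 2)) ⊆
      (({0, v, -v} : Finset (Site d)) : Set (Site d)) := by
    intro z hz
    rcases lazy_ne_zero (left_ne_zero_of_mul hz) with h | h | h <;> simp [h]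
  rw [mom, tsum_eq_sum' hs]
  exact ENNReal.sum_ne_top.2 fun z _ =>
    ENNReal.mul_ne_top (ne_top_of_le_ne_top ENNReal.one_ne_top (lazy_le_one v z)) ENNReal.ofReal_ne_top

theorem mom_prodLazy_ne_top (l : Fin d → ℝ) (v : ℕ → Site d) (m : ℕ) :
    mom l (prodLazy v m) ≠ ⊤ := by
  induction m with
  | zero => rw [prodLazy, mom_pt_zero]; exact ENNReal.zero_ne_top
  | succ m ih =>
    rw [prodLazy, mom_cv l _ (rv_prodLazy v m), tot_prodLazy, tot_lazy, mul_one, one_mul]
    exact ENNReal.add_ne_top.2 ⟨mom_lazy_ne_top l _, ih⟩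

theorem mom_pw (l : Fin d → ℝ) {f : Site d → ℝ≥0∞} (hf : rv f = f) (h1 : tot f = 1) (k : ℕ) :
    mom l (pw f k) = k * mom l f := by
  induction k with
  | zero => rw [pw, mom_pt_zero, Nat.cast_zero, zero_mul]
  | succ k ih =>
    rw [pw, cv_comm, mom_cv l _ hf, tot_pw, h1, one_pow, mul_one, one_mul, ih]
    push_cast
    ring

end Vale.Agent.P147.Linear.GreenAux
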