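import Vale.Agent.P147.Linear.Eta
import Vale.Agent.P147.Linear.Speed

/-!
# Records linear in the range force the zero-one law, and opposite escapes force zero speed
-/

namespace Vale.Agent.P147.Linear

open MeasureTheory Filter Topology Set Vale.Agent.P147.Balanced
open scoped ENNReal

variable {d : ℕ} [Nonempty (Fin d)] (μ : Measure (Step d → ℝ)) [IsProbabilityMeasure μ]
  {l : Fin d → ℝ}

/-- Linear height with positive probability forces certain escape. -/
theorem zero_one_of_reach (hμ : ∀ᵐ p ∂μ, (∀ e, 0 < p e) ∧ ∑ e, p e = 1) (hd : 4 ≤ d) (hl : l ≠ 0)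
    (hmom : MomentPin μ l) (hA : ann μ (escape l) ≠ 0) {δ : ℝ} (hδ : 0 < δ)
    (h : ∃ᶠ s : ℕ in atTop, ENNReal.ofReal δ ≤ ann μ (Reach l δ s)) :
    ∀ᵐ ω ∂envLaw μ, Elliptic ω ∧ ∀ x, law ω x (escape l) = 1 :=
  have hrec := frequently_annRec μ hμ hl hδ h
  have hq := good_ne_zero μ hμ hA
  fluxPin μ hμ hq (etaPin μ hμ hd hq (hmom hq hrec)) hrec

lemma ann_eq_one_of_ae (h : ∀ᵐ ω ∂envLaw μ, Elliptic ω ∧ ∀ x, law ω x (escape l) = 1) :
    ann μ (escape l) = 1 := by
  rw [ann, lintegral_congr_ae (g := fun _ => 1) (h.mono fun ω hω => hω.2 0)]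
  simp

lemma ann_escape_neg_eq_zero (h : ann μ (escape l) = 1) : ann μ (escape (-l)) = 0 := by
  have hd : Disjoint (escape (d := d) l) (escape (-l)) := Set.disjoint_left.2 fun X h1 h2 => by
    obtain ⟨n, hn, hn'⟩ := ((Filter.tendsto_atTop.1 h1 1).and (Filter.tendsto_atTop.1 h2 1)).exists
    have : dot (-l) (X n) = -dot l (X n) := by simp [dot]
    linarith
  have h1 : ann μ (escape l) + ann μ (escape (-l)) ≤ 1 := by
    rw [ann, ann, ← lintegral_add_left (measurable_law_apply 0 (measurableSet_escape l))]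
    refine (lintegral_mono fun ω => ?_).trans (by simp : ∫⁻ _, (1 : ℝ≥0∞) ∂envLaw μ ≤ 1)
    rw [← measure_union hd (measurableSet_escape _)]
    exact prob_le_one
  rw [h] at h1
  exact le_antisymm (ENNReal.le_of_add_le_add_left ENNReal.one_ne_top (h1.trans (add_zero 1).ge))
    bot_le

/-- If both opposite escapes have positive probability the speed is zero in probability. -/
theorem tendsto_zero_of_both (hμ : ∀ᵐ p ∂μ, (∀ e, 0 < p e) ∧ ∑ e, p e = 1) (hd : 4 ≤ d)
    (hl : l ≠ 0) (hmom : ∀ l' : Fin d → ℝ, MomentPin μ l') (hA : ann μ (escape l) ≠ 0)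
    (hA' : ann μ (escape (-l)) ≠ 0) {ε : ℝ} (hε : 0 < ε) :
    Tendsto (fun t : ℕ => ann μ {X | ε * t ≤ |dot l (X t)|}) atTop (𝓝 0) := by
  have key : ∀ l' : Fin d → ℝ, l' ≠ 0 → ann μ (escape l') ≠ 0 → ann μ (escape (-l')) ≠ 0 →
      ∀ δ : ℝ, 0 < δ →
        ¬∃ᶠ t : ℕ in atTop, ENNReal.ofReal δ ≤ ann μ {X | δ * t ≤ dot l' (X t)} := by
    intro l' hl' h1 h2 δ hδ hf
    exact h2 (ann_escape_neg_eq_zero μ (ann_eq_one_of_ae μ (zero_one_of_reach μ hμ hd hl' (hmom l')
      h1 (half_pos hδ) (frequently_Reach μ hδ hf))))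
  refine ENNReal.tendsto_nhds_zero.2 fun η hη => ?_
  obtain ⟨r, -, hr0, hr⟩ : ∃ r : ℝ, 0 ≤ r ∧ 0 < r ∧ ENNReal.ofReal (r + r) ≤ η := by
    obtain ⟨p, hp, hpη⟩ := ENNReal.lt_iff_exists_nnreal_btwn.1 hη
    have hp' : (0 : ℝ) < p := by exact_mod_cast hp
    refine ⟨p / 2, by positivity, by positivity, ?_⟩
    rw [add_halves, ENNReal.ofReal_coe_nnreal]
    exact hpη.le
  set δ := min ε r
  have hδ : 0 < δ := lt_min hε hr0
  filter_upwards [not_frequently.1 (key l hl hA hA' δ hδ),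
    not_frequently.1 (key (-l) (neg_ne_zero.2 hl) hA' (by rwa [neg_neg]) δ hδ)] with t h1 h2
  have hsub : ann μ {X | ε * t ≤ |dot l (X t)|} ≤
      ann μ {X | δ * t ≤ dot l (X t)} + ann μ {X | δ * t ≤ dot (-l) (X t)} := by
    rw [ann, ann, ann, ← lintegral_add_left
      (measurable_law_apply 0 (measurableSet_le measurable_const (measurable_dot t)))]
    refine lintegral_mono fun ω => le_trans (measure_mono fun X hX => ?_) (measure_union_le _ _)
    have hX' : δ * t ≤ |dot l (X t)| :=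
      (mul_le_mul_of_nonneg_right (min_le_left _ _) (Nat.cast_nonneg t)).trans hX
    rcases le_abs.1 hX' with h | h
    · exact Or.inl h
    · exact Or.inr (h.trans_eq (by simp [dot]))
  refine hsub.trans ((add_le_add (not_le.1 h1).le (not_le.1 h2).le).trans ?_)
  rw [← ENNReal.ofReal_add hδ.le hδ.le]
  exact (ENNReal.ofReal_le_ofReal (add_le_add (min_le_right _ _) (min_le_right _ _))).trans hr

end Vale.Agent.P147.Linear
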