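import Vale.Agent.P147.Linear.Basic

/-!
# Two walks in one environment: escapes after a common record, and meetings
-/

namespace Vale.Agent.P147.Linear

open MeasureTheory Filter Topology Set Vale.Agent.P147.Balanced
open scoped ENNReal

variable {d : ℕ} {l : Fin d → ℝ}

/-- Both paths stay above their starting height and share only the first starting point. -/
def Esc (l : Fin d → ℝ) : Set ((ℕ → Site d) × (ℕ → Site d)) :=
  {q | q.1 ∈ Stay l ∧ q.2 ∈ Stay l ∧ ∀ i j, q.1 i = q.2 j → q.1 i = q.1 0}

lemma measurableSet_eq_sites (i j : ℕ) :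
    MeasurableSet {q : (ℕ → Site d) × (ℕ → Site d) | q.1 i = q.2 j} :=
  measurableSet_eq_fun ((measurable_pi_apply i).comp measurable_fst)
    ((measurable_pi_apply j).comp measurable_snd)

lemma measurableSet_Esc : MeasurableSet (Esc (d := d) l) := by
  have : Esc (d := d) l = Prod.fst ⁻¹' Stay l ∩ Prod.snd ⁻¹' Stay l ∩
      ⋂ i, ⋂ j, ({q | q.1 i = q.2 j}ᶜ ∪ Prod.fst ⁻¹' {X | X i = X 0}) := by
    ext q
    simp only [Esc, Set.mem_inter_iff, Set.mem_preimage, Set.mem_ofPred_eq, Set.mem_iInter,
      Set.mem_union, Set.mem_compl_iff, and_assoc]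
    exact and_congr_right fun _ => and_congr_right fun _ =>
      forall₂_congr fun i j => imp_iff_not_or
  rw [this]
  refine ((measurable_fst measurableSet_Stay).inter (measurable_snd measurableSet_Stay)).inter
    (MeasurableSet.iInter fun i => MeasurableSet.iInter fun j => ?_)
  exact (measurableSet_eq_sites i j).compl.union
    (measurable_fst (measurableSet_eq_fun (measurable_pi_apply i) (measurable_pi_apply 0)))

variable [Nonempty (Fin d)]

lemma measurable_pair_law (x y : Site d) {E : Set ((ℕ → Site d) × (ℕ → Site d))}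
    (hE : MeasurableSet E) : Measurable fun ω : Env d => ((law ω x).prod (law ω y)) E := by
  have hw : Measurable fun q : Env d × ((ℕ → ℝ) × (ℕ → ℝ)) =>
      (walk q.1 x q.2.1, walk q.1 y q.2.2) :=
    ((measurable_walk x).comp (f := fun q : Env d × ((ℕ → ℝ) × (ℕ → ℝ)) => (q.1, q.2.1))
      (measurable_fst.prodMk (measurable_fst.comp measurable_snd))).prodMk
    ((measurable_walk y).comp (f := fun q : Env d × ((ℕ → ℝ) × (ℕ → ℝ)) => (q.1, q.2.2))
      (measurable_fst.prodMk (measurable_snd.comp measurable_snd)))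
  have h := measurable_measure_prodMk_left (ν := coins.prod coins) (hw hE)
  convert h using 1
  funext ω
  rw [law, law, Measure.map_prod_map _ _ (measurable_walk_right ω x) (measurable_walk_right ω y),
    Measure.map_apply ((measurable_walk_right ω x).prodMap (measurable_walk_right ω y)) hE]
  rfl

omit [Nonempty (Fin d)] in
lemma translate_preimage_Esc (y : Site d) :
    Prod.map (fun (X : ℕ → Site d) i => X i + y) (fun (X : ℕ → Site d) i => X i + y) ⁻¹' Esc l =
      Esc l := by
  ext q
  have h : ∀ X : ℕ → Site d, (fun i => X i + y) ∈ Stay l ↔ X ∈ Stay l := fun X => by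
    rw [← Set.mem_preimage (f := fun (X : ℕ → Site d) i => X i + y), translate_preimage_Stay]
  simp only [Esc, Set.mem_preimage, Prod.map_fst, Prod.map_snd, Set.mem_ofPred_eq, h,
    add_left_inj]

theorem lintegral_pair_esc (μ : Measure (Step d → ℝ)) [IsProbabilityMeasure μ] (z : Site d) :
    ∫⁻ ω, ((law ω z).prod (law ω z)) (Esc l) ∂envLaw μ = eta μ l := by
  have hm : Measurable fun (X : ℕ → Site d) i => X i + z := by fun_prop
  have hbase : ∀ ω : Env d, ((law ω 0).prod (law ω 0)) (Esc l) = ((law ω 0).prod (law ω 0))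
      ({q | q.1 ∈ Stay l ∧ q.2 ∈ Stay l ∧ ∀ i j, q.1 i = q.2 j → q.1 i = 0}) := by
    intro ω
    refine measure_congr ?_
    filter_upwards [(Measure.quasiMeasurePreserving_fst (μ := law ω 0) (ν := law ω 0)).ae
      (ae_law_zero ω 0)] with q hq
    simp only [eq_iff_iff]
    show q ∈ Esc l ↔ q ∈ {q : (ℕ → Site d) × (ℕ → Site d) | q.1 ∈ Stay l ∧ q.2 ∈ Stay l ∧
      ∀ i j, q.1 i = q.2 j → q.1 i = 0}
    simp only [Esc, Set.mem_ofPred_eq, hq]
  calc ∫⁻ ω, ((law ω z).prod (law ω z)) (Esc l) ∂envLaw μ
      = ∫⁻ ω, ((law (shiftEnv z ω) 0).prod (law (shiftEnv z ω) 0)) (Esc l) ∂envLaw μ := by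
        refine lintegral_congr fun ω => ?_
        conv_lhs => rw [← zero_add z, law_translate ω z 0, Measure.map_prod_map _ _ hm hm,
          Measure.map_apply (hm.prodMap hm) measurableSet_Esc, translate_preimage_Esc]
        rfl
    _ = ∫⁻ ω, ((law ω 0).prod (law ω 0)) (Esc l) ∂envLaw μ :=
        (measurePreserving_shiftEnv μ z).lintegral_comp (measurable_pair_law 0 0 measurableSet_Esc)
    _ = _ := lintegral_congr hbase

/-- The law after time `m`, given a prefix event fixing the site at time `m`. -/
theorem markov_map {ω : Env d} (hω : Elliptic ω) {x z : Site d} {m : ℕ} {A : Set (ℕ → Site d)}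
    (hA : MeasurableSet A) (hAp : Prefix m fun X => X ∈ A) (hAz : ∀ X ∈ A, X m = z) :
    ((law ω x).restrict A).map (shiftP m) = law ω x A • law ω z := by
  classical
  refine Measure.ext fun s hs => ?_
  rw [Measure.map_apply (measurable_shiftP m) hs, Measure.restrict_apply (measurable_shiftP m hs),
    Measure.smul_apply, smul_eq_mul]
  have hF : Prefix m (A.indicator (1 : (ℕ → Site d) → ℝ≥0∞)) := fun X Y hXY => by
    have h : X ∈ A ↔ Y ∈ A := iff_of_eq (hAp X Y hXY)
    by_cases hX : X ∈ A
    · simp [hX, h.1 hX]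
    · simp [hX, mt h.2 hX]
  have h := lintegral_markov hω (x := x) hF (G := fun _ => s.indicator 1)
    fun _ => measurable_one.indicator hs
  have e1 : ∫⁻ X, A.indicator 1 X * s.indicator 1 (shiftP m X) ∂law ω x =
      law ω x (shiftP m ⁻¹' s ∩ A) := by
    rw [← lintegral_indicator_one ((measurable_shiftP m hs).inter hA)]
    refine lintegral_congr fun X => ?_
    by_cases h1 : X ∈ A <;> by_cases h2 : shiftP m X ∈ s <;> simp [h1, h2]
  rw [← e1, h, ← lintegral_indicator_one hA]
  have hm : Measurable (A.indicator (1 : (ℕ → Site d) → ℝ≥0∞)) := measurable_one.indicator hA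
  rw [← lintegral_mul_const _ hm]
  refine lintegral_congr fun X => ?_
  by_cases h1 : X ∈ A
  · simp only [h1, Set.indicator_of_mem, hAz X h1, lintegral_indicator_one hs]
  · simp [h1]

/-- An escape after a common record reads only rows the two prefixes have not read. -/
theorem pair_fresh (μ : Measure (Step d → ℝ)) [IsProbabilityMeasure μ] {m m' : ℕ}
    {γ γ' : ℕ → Site d} (x x' : Site d) (hγ : Rec l m γ) (hγ' : Rec l m' γ') (he : γ m = γ' m') :
    ∫⁻ ω, law ω x (pre m γ) * law ω x' (pre m' γ') *
        ((law ω (γ m)).prod (law ω (γ m))) (Esc l) ∂envLaw μ =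
      (∫⁻ ω, law ω x (pre m γ) * law ω x' (pre m' γ') ∂envLaw μ) * eta μ l := by
  classical
  set z := γ m
  set S := seen m γ ∪ seen m' γ'
  set Av : Set (ℕ → Site d) := {X | ∀ k, X k ∉ (↑S : Set (Site d))}
  have hAv : MeasurableSet Av := by
    have : Av = ⋂ k, (fun X => X k) ⁻¹' (↑S : Set (Site d))ᶜ := by ext; simp [Av]
    rw [this]
    exact MeasurableSet.iInter fun k => measurable_pi_apply k MeasurableSet.of_discrete
  have hstart : ∀ ω : Env d, ((law ω z).prod (law ω z)) (Esc l) =
      ((law ω z).restrict Av).prod ((law ω z).restrict Av) (Esc l) := by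
    intro ω
    rw [Measure.prod_restrict, Measure.restrict_apply measurableSet_Esc]
    refine measure_congr ?_
    filter_upwards [(Measure.quasiMeasurePreserving_fst (μ := law ω z) (ν := law ω z)).ae
      (ae_law_zero ω z), (Measure.quasiMeasurePreserving_snd (μ := law ω z) (ν := law ω z)).ae
      (ae_law_zero ω z)] with q h1 h2
    simp only [eq_iff_iff]
    show q ∈ Esc l ↔ q ∈ Esc l ∩ Av ×ˢ Av
    refine ⟨fun h => ⟨h, fun k => ?_, fun k => ?_⟩, fun h => h.1⟩
    · simp only [S, Finset.coe_union, Set.mem_union, Finset.mem_coe, not_or]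
      exact ⟨notMem_seen_of_stay hγ h1 h.1 k, notMem_seen_of_stay hγ' (h1.trans he) h.1 k⟩
    · simp only [S, Finset.coe_union, Set.mem_union, Finset.mem_coe, not_or]
      exact ⟨notMem_seen_of_stay hγ h2 h.2.1 k, notMem_seen_of_stay hγ' (h2.trans he) h.2.1 k⟩
  rw [← lintegral_pair_esc μ z, ← lintegral_mul_of_local μ S
    (f := fun ω => law ω x (pre m γ) * law ω x' (pre m' γ'))
    (g := fun ω => ((law ω z).prod (law ω z)) (Esc l))
    ((measurable_law_apply x (measurableSet_pre m γ)).mul
      (measurable_law_apply x' (measurableSet_pre m' γ')))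
    (measurable_pair_law z z measurableSet_Esc)]
  · intro ω ω' h
    rw [law_pre_congr x fun i hi => h _ (Finset.mem_union_left _
        (Finset.mem_image_of_mem _ (Finset.mem_range.2 hi))),
      law_pre_congr x' fun i hi => h _ (Finset.mem_union_right _
        (Finset.mem_image_of_mem _ (Finset.mem_range.2 hi)))]
  · intro ω ω' h
    rw [hstart ω, hstart ω']
    have : (law ω z).restrict Av = (law ω' z).restrict Av := Measure.ext fun B hB => by
      rw [Measure.restrict_apply hB, Measure.restrict_apply hB, Set.inter_comm]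
      exact law_avoid_congr z hB fun y hy => h y (by simpa using hy)
    rw [this]

end Vale.Agent.P147.Linear
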