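import Vale.Agent.P147.Linear.Main

/-!
# A limiting velocity with positive height forces the escape
-/

namespace Vale.Agent.P147.Linear

open MeasureTheory Filter Topology Set Vale.Agent.P147.Balanced
open scoped ENNReal

variable {d : ℕ}

/-- The paths with limiting velocity `v`. -/
def HasVelocity (v : Fin d → ℝ) : Set (ℕ → Site d) :=
  {X | ∀ i, Tendsto (fun t : ℕ => (X t i : ℝ) / t) atTop (𝓝 (v i))}

variable [Nonempty (Fin d)] (μ : Measure (Step d → ℝ)) [IsProbabilityMeasure μ] {l : Fin d → ℝ}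

omit [Nonempty (Fin d)] in
lemma eventually_height {v : Fin d → ℝ} (hv : 0 < ∑ i, v i * l i) {X : ℕ → Site d}
    (hX : X ∈ HasVelocity v) :
    ∃ T : ℕ, ∀ t ≥ T, (∑ i, v i * l i) / 2 * (t : ℝ) ≤ dot l (X t) := by
  have h : Tendsto (fun t : ℕ => dot l (X t) / t) atTop (𝓝 (∑ i, v i * l i)) := by
    have h1 := tendsto_finsetSum Finset.univ
      fun i (_ : i ∈ Finset.univ) => (hX i).mul_const (l i)
    refine h1.congr fun t => ?_
    rw [dot, Finset.sum_div]
    exact Finset.sum_congr rfl fun i _ => (div_mul_eq_mul_div _ _ _)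
  obtain ⟨T, hT⟩ := eventually_atTop.1 (h.eventually (Ioi_mem_nhds (half_lt_self hv)))
  refine ⟨max T 1, fun t ht => ?_⟩
  have ht1 : (0 : ℝ) < t := by
    have : 0 < t := by omega
    exact_mod_cast this
  exact ((lt_div_iff₀ ht1).1 (hT t (by omega))).le

omit [Nonempty (Fin d)] in
lemma velocity_subset_escape {v : Fin d → ℝ} (hv : 0 < ∑ i, v i * l i) :
    HasVelocity v ⊆ escape l := fun X hX => by
  obtain ⟨T, hT⟩ := eventually_height hv hX
  exact tendsto_atTop_mono' atTop (eventually_atTop.2 ⟨T, hT⟩)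
    (tendsto_natCast_atTop_atTop.const_mul_atTop (half_pos hv))

/-- A velocity of positive height with positive probability forces certain escape. -/
theorem zero_one_of_velocity (hμ : ∀ᵐ p ∂μ, (∀ e, 0 < p e) ∧ ∑ e, p e = 1) (hd : 4 ≤ d)
    (hmom : MomentPin μ l) {v : Fin d → ℝ} (hv : 0 < ∑ i, v i * l i)
    (hV : ann μ (HasVelocity v) ≠ 0) :
    ∀ᵐ ω ∂envLaw μ, Elliptic ω ∧ ∀ x, law ω x (escape l) = 1 := by
  set c : ℝ := ∑ i, v i * l i with hc
  have hl : l ≠ 0 := by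
    rintro rfl
    simp [hc] at hv
  have hA : ann μ (escape l) ≠ 0 := fun h0 => hV (le_antisymm
    ((lintegral_mono fun ω => measure_mono (velocity_subset_escape hv)).trans h0.le) bot_le)
  set W : ℕ → Set (ℕ → Site d) := fun T => {X | ∀ t ≥ T, c / 2 * (t : ℝ) ≤ dot l (X t)} with hW
  have hWm : ∀ T, MeasurableSet (W T) := fun T => by
    have : W T = ⋂ t, ⋂ (_ : T ≤ t), {X | c / 2 * (t : ℝ) ≤ dot l (X t)} := by
      ext; simp [hW]
    rw [this]
    exact MeasurableSet.iInter fun t => MeasurableSet.iInter fun _ =>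
      measurableSet_le measurable_const (measurable_dot t)
  obtain ⟨T, hT⟩ : ∃ T, annM μ (W T) ≠ 0 := by
    by_contra hne
    refine hV (le_antisymm ?_ bot_le)
    calc ann μ (HasVelocity v) ≤ ann μ (⋃ T, W T) :=
          lintegral_mono fun ω => measure_mono fun X hX => Set.mem_iUnion.2 (eventually_height hv hX)
      _ = annM μ (⋃ T, W T) := ann_eq μ (MeasurableSet.iUnion hWm)
      _ ≤ 0 := (measure_iUnion_null fun T => not_not.1 (not_exists.1 hne T)).le
  have hfin : annM μ (W T) ≠ ⊤ := measure_ne_top _ _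
  set δ : ℝ := min (c / 2) (annM μ (W T)).toReal with hδ
  have hδ0 : 0 < δ := lt_min (half_pos hv) (ENNReal.toReal_pos hT hfin)
  have hfreq : ∃ᶠ t : ℕ in atTop, ENNReal.ofReal δ ≤ ann μ {X | δ * (t : ℝ) ≤ dot l (X t)} := by
    refine (eventually_atTop.2 ⟨T, fun t ht => ?_⟩).frequently
    refine (ENNReal.ofReal_le_ofReal (min_le_right _ _)).trans ?_
    rw [ENNReal.ofReal_toReal hfin, ← ann_eq μ (hWm T)]
    refine lintegral_mono fun ω => measure_mono fun X hX => ?_
    exact (mul_le_mul_of_nonneg_right (min_le_left _ _) (Nat.cast_nonneg t)).trans (hX t ht)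
  exact zero_one_of_reach μ hμ hd hl hmom hA (half_pos hδ0) (frequently_Reach μ hδ0 hfreq)

/-- Two nonzero velocities of positive probability lie on one ray. -/
theorem velocities_on_one_ray (hμ : ∀ᵐ p ∂μ, (∀ e, 0 < p e) ∧ ∑ e, p e = 1) (hd : 4 ≤ d)
    (hmom : ∀ l' : Fin d → ℝ, MomentPin μ l') {v v' : Fin d → ℝ} (hv : v ≠ 0) (hv' : v' ≠ 0)
    (hV : ann μ (HasVelocity v) ≠ 0) (hV' : ann μ (HasVelocity v') ≠ 0) :
    ∃ c : ℝ, 0 < c ∧ v' = c • v := by
  have hpos : ∀ w : Fin d → ℝ, w ≠ 0 → 0 < ∑ i, w i ^ 2 := fun w hw => by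
    obtain ⟨i, hi⟩ : ∃ i, w i ≠ 0 := not_forall.1 fun h => hw (funext h)
    exact Finset.sum_pos' (fun i _ => sq_nonneg _) ⟨i, Finset.mem_univ _, by positivity⟩
  set a : ℝ := Real.sqrt (∑ i, v i ^ 2) with ha
  set b : ℝ := Real.sqrt (∑ i, v' i ^ 2) with hb
  have ha0 : 0 < a := Real.sqrt_pos.2 (hpos v hv)
  have hb0 : 0 < b := Real.sqrt_pos.2 (hpos v' hv')
  have ha2 : a ^ 2 = ∑ i, v i ^ 2 := Real.sq_sqrt (hpos v hv).le
  have hb2 : b ^ 2 = ∑ i, v' i ^ 2 := Real.sq_sqrt (hpos v' hv').le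
  set l : Fin d → ℝ := fun i => b * v i - a * v' i with hl
  by_cases hl0 : l = 0
  · refine ⟨b / a, div_pos hb0 ha0, funext fun i => ?_⟩
    have := congrFun hl0 i
    simp only [hl, Pi.zero_apply] at this
    rw [Pi.smul_apply, smul_eq_mul, div_mul_eq_mul_div, eq_div_iff ha0.ne']
    linarith
  exfalso
  set p : ℝ := ∑ i, v i * v' i
  have hS : 0 < ∑ i, l i ^ 2 := hpos l hl0
  have hS' : ∑ i, l i ^ 2 = b ^ 2 * a ^ 2 - 2 * a * b * p + a ^ 2 * b ^ 2 := by
    rw [show ∑ i, l i ^ 2 =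
        ∑ i, (b ^ 2 * v i ^ 2 - 2 * a * b * (v i * v' i) + a ^ 2 * v' i ^ 2) from
      Finset.sum_congr rfl fun i _ => by simp only [hl]; ring,
      Finset.sum_add_distrib, Finset.sum_sub_distrib, ← Finset.mul_sum, ← Finset.mul_sum,
      ← Finset.mul_sum, ← ha2, ← hb2]
  have h1 : ∑ i, v i * l i = b * a ^ 2 - a * p := by
    rw [show ∑ i, v i * l i = ∑ i, (b * v i ^ 2 - a * (v i * v' i)) from
      Finset.sum_congr rfl fun i _ => by simp only [hl]; ring,
      Finset.sum_sub_distrib, ← Finset.mul_sum, ← Finset.mul_sum, ← ha2]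
  have h2 : ∑ i, v' i * (-l) i = a * b ^ 2 - b * p := by
    rw [show ∑ i, v' i * (-l) i = ∑ i, (a * v' i ^ 2 - b * (v i * v' i)) from
      Finset.sum_congr rfl fun i _ => by simp only [hl, Pi.neg_apply]; ring,
      Finset.sum_sub_distrib, ← Finset.mul_sum, ← Finset.mul_sum, ← hb2]
  have hab : p < a * b := by nlinarith [mul_pos ha0 hb0]
  have hvl : 0 < ∑ i, v i * l i := by rw [h1]; nlinarith
  have hvl' : 0 < ∑ i, v' i * (-l) i := by rw [h2]; nlinarith
  have hone := ann_eq_one_of_ae μ (zero_one_of_velocity μ hμ hd (hmom l) hvl hV)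
  have hzero := ann_escape_neg_eq_zero μ hone
  exact hV' (le_antisymm ((lintegral_mono fun ω =>
    measure_mono (velocity_subset_escape hvl')).trans hzero.le) bot_le)

end Vale.Agent.P147.Linear
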