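import Vale.Agent.P147.Linear.Blocks
import Vale.Agent.P147.Linear.Count

/-!
# The sites visited by a walk escaping without return
-/

namespace Vale.Agent.P147.Linear

open MeasureTheory Filter Topology Set Vale.Agent.P147.Balanced
open scoped ENNReal

variable {d : ℕ} {l : Fin d → ℝ} [Nonempty (Fin d)] (μ : Measure (Step d → ℝ))

/-- The renewal bound for the probability of a visit. -/
noncomputable def qhat (l : Fin d → ℝ) (G : Site d → ℝ≥0∞) (z : Site d) : ℝ≥0∞ :=
  ∑' w, blockMass μ l w * G (z - w)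

lemma qhat_eq {G : Site d → ℝ≥0∞}
    (hG : ∀ z, G z = (if z = 0 then 1 else 0) + ∑' w, endLaw μ l w * G (z - w)) (z : Site d) :
    qhat μ l G z = blockMass μ l z + ∑' y, endLaw μ l y * qhat μ l G (z - y) := by
  classical
  conv_lhs => rw [qhat]
  simp_rw [hG (z - _), mul_add]
  rw [ENNReal.tsum_add]
  refine congrArg₂ (· + ·) ?_ ?_
  · rw [tsum_eq_single z fun w hw => by rw [if_neg (sub_ne_zero.2 (Ne.symm hw)), mul_zero]]
    simp
  · simp only [qhat, ← ENNReal.tsum_mul_left]
    rw [ENNReal.tsum_comm]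
    refine tsum_congr fun y => tsum_congr fun w => ?_
    rw [sub_right_comm z y w]
    ring

variable [IsProbabilityMeasure μ]

omit [Nonempty (Fin d)] in
lemma measurableSet_visit_le (t : ℕ) (z : Site d) :
    MeasurableSet {X : ℕ → Site d | ∃ i ≤ t, X i = z} := by
  rw [show {X : ℕ → Site d | ∃ i ≤ t, X i = z} = ⋃ i, ⋃ (_ : i ≤ t), (fun X => X i) ⁻¹' {z} by
    ext; simp]
  exact MeasurableSet.iUnion fun i => MeasurableSet.iUnion fun _ =>
    measurable_pi_apply i (measurableSet_singleton z)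

omit [Nonempty (Fin d)] in
lemma measurableSet_visit (z : Site d) : MeasurableSet {X : ℕ → Site d | ∃ i, X i = z} := by
  rw [show {X : ℕ → Site d | ∃ i, X i = z} = ⋃ i, (fun X => X i) ⁻¹' {z} by ext; simp]
  exact MeasurableSet.iUnion fun i => measurable_pi_apply i (measurableSet_singleton z)

open Classical in
/-- Visits up to a fixed time. -/
theorem visit_le_upTo (hμ : ∀ᵐ p ∂μ, (∀ e, 0 < p e) ∧ ∑ e, p e = 1) (hq : ann μ (Good l) ≠ 0)
    {G : Site d → ℝ≥0∞}
    (hG : ∀ z, G z = (if z = 0 then 1 else 0) + ∑' w, endLaw μ l w * G (z - w)) :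
    ∀ (t : ℕ) (z : Site d),
      annM μ (Good l ∩ {X | ∃ i ≤ t, X i = z}) ≤ ann μ (Good l) * qhat μ l G z := by
  intro t
  induction t using Nat.strong_induction_on with
  | _ t ih =>
  intro z
  rw [annM_good_eq_tsum μ hμ hq (measurableSet_visit_le t z)]
  have hterm : ∀ n (a : Fin (n + 1) → Site d),
      annM μ (Good l ∩ {X | FirstReg l n X} ∩ pre n (ext a) ∩ {X | ∃ i ≤ t, X i = z}) ≤
        ann μ (Good l) * ((if Block l n (ext a) ∧ z ∈ seen n (ext a) then wt μ n a else 0) +
          (if Block l n (ext a) then wt μ n a else 0) * qhat μ l G (z - ext a n)) := by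
    intro n a
    set γ := ext a
    set U := Good l ∩ {X | FirstReg l n X} ∩ pre n γ
    have hU : MeasurableSet U :=
      (measurableSet_Good.inter (measurableSet_FirstReg n)).inter (measurableSet_pre _ _)
    rw [mul_add]
    by_cases hz : z ∈ seen n γ
    · refine le_add_right ((measure_mono Set.inter_subset_left).trans ?_)
      have h := ann_firstReg (l := l) μ hμ n a MeasurableSet.univ
      simp only [Set.preimage_univ, Set.inter_univ] at h
      rw [← ann_eq μ hU, h]
      by_cases hb : Block l n γ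
      · rw [if_pos hb, if_pos ⟨hb, hz⟩, mul_comm]
      · rw [if_neg hb]; exact bot_le
    refine le_add_left ?_
    rcases Nat.lt_or_ge t n with htn | htn
    · have : U ∩ {X | ∃ i ≤ t, X i = z} = ∅ := Set.eq_empty_of_forall_notMem fun X hX => by
        obtain ⟨i, hi, he⟩ := hX.2
        exact hz (Finset.mem_image.2 ⟨i, Finset.mem_range.2 (lt_of_le_of_lt hi htn),
          by rw [← hX.1.2 i (by omega)]; exact he⟩)
      rw [this]; simp
    set B : Set (ℕ → Site d) := {X | ∃ i ≤ t - n, X i = z}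
    have hsub : U ∩ {X | ∃ i ≤ t, X i = z} ⊆ U ∩ shiftP n ⁻¹' B := by
      rintro X ⟨hXU, i, hi, he⟩
      refine ⟨hXU, i - n, by omega, ?_⟩
      have hni : n ≤ i := by
        by_contra hc
        exact hz (Finset.mem_image.2 ⟨i, Finset.mem_range.2 (not_le.1 hc),
          by rw [← hXU.2 i (by omega)]; exact he⟩)
      simp only [shiftP, Nat.add_sub_cancel' hni, he]
    refine (measure_mono hsub).trans ?_
    have hBm : MeasurableSet B := measurableSet_visit_le (t - n) z
    rw [← ann_eq μ (hU.inter (measurable_shiftP n hBm)), ann_firstReg μ hμ n a hBm]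
    by_cases hb : Block l n γ
    · rw [if_pos hb, if_pos hb]
      have hpre : (fun (X : ℕ → Site d) i => X i + γ n) ⁻¹' B =
          {X | ∃ i ≤ t - n, X i = z - γ n} := by
        ext X
        simp [B, eq_sub_iff_add_eq]
      rw [hpre, ann_eq μ (measurableSet_Good.inter (measurableSet_visit_le _ _))]
      refine (mul_le_mul_right (ih (t - n) (by have := hb.1; omega) _) _).trans (le_of_eq ?_)
      ring
    · rw [if_neg hb]; exact bot_le
  refine (ENNReal.tsum_le_tsum fun n => ENNReal.tsum_le_tsum fun a => hterm n a).trans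
    (le_of_eq ?_)
  simp only [ENNReal.tsum_mul_left, ENNReal.tsum_add]
  rw [qhat_eq μ hG z, blockMass]
  congr 2
  simp only [endLaw, ← ENNReal.tsum_mul_right]
  conv_rhs =>
    rw [ENNReal.tsum_comm]
  refine tsum_congr fun n => ?_
  rw [ENNReal.tsum_comm]
  refine tsum_congr fun a => ?_
  rw [tsum_eq_single (ext a n) fun y hy => by rw [if_neg fun h => hy h.2.symm, zero_mul]]
  simp

/-- Visits of a walk escaping without return. -/
theorem visit_le (hμ : ∀ᵐ p ∂μ, (∀ e, 0 < p e) ∧ ∑ e, p e = 1) (hq : ann μ (Good l) ≠ 0)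
    {G : Site d → ℝ≥0∞}
    (hG : ∀ z, G z = (if z = 0 then 1 else 0) + ∑' w, endLaw μ l w * G (z - w)) (z : Site d) :
    annM μ (Good l ∩ {X | ∃ i, X i = z}) ≤ ann μ (Good l) * qhat μ l G z := by
  have hmono : Monotone fun t : ℕ => Good l ∩ {X : ℕ → Site d | ∃ i ≤ t, X i = z} :=
    fun a b hab X hX => ⟨hX.1, hX.2.imp fun i hi => ⟨hi.1.trans hab, hi.2⟩⟩
  have hU : Good l ∩ {X : ℕ → Site d | ∃ i, X i = z} =
      ⋃ t, Good l ∩ {X | ∃ i ≤ t, X i = z} := by
    ext X
    simp only [Set.mem_inter_iff, Set.mem_ofPred_eq, Set.mem_iUnion]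
    exact ⟨fun ⟨h, i, hi⟩ => ⟨i, h, i, le_rfl, hi⟩, fun ⟨_, h, i, _, hi⟩ => ⟨h, i, hi⟩⟩
  rw [hU, hmono.measure_iUnion]
  exact iSup_le fun t => visit_le_upTo μ hμ hq hG t z

end Vale.Agent.P147.Linear
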